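import Crest.Agent.N218.En.Defs
import Crest.Agent.N218.Pm.Ecf
import Crest.Agent.N218.Pm.Kit3

-- ▼ part N218/En/Ly
section

/-!
# Row 218, END wrapper: the Lyapunov inequality (helper16)
-/

set_option autoImplicit false
set_option linter.unusedVariables false

open Set Topology
open scoped InnerProductSpace

noncomputable section

namespace Crest.Agent.N218.En
open Pm Sk

/-- **LY** -/
theorem ly : LY := by
  intro B F _ _ _ _ _ _ _ G h
  have C0 := h.C0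
  have d0 := h.δ0
  refine ⟨min (1 / G.C) (G.δ ^ 2 / (4 * G.C)), by positivity, fun ε e0 e1 ⟨b, v⟩ hw => ?_⟩
  obtain ⟨e1, e2⟩ := le_min_iff.1 e1
  rw [le_div_iff₀ C0] at e1
  rw [le_div_iff₀ (by positivity)] at e2
  have n : ‖v - ε • G.gr (b, v) - v‖ = ε * ‖G.gr (b, v)‖ := by
    rw [sub_sub_cancel_left, norm_neg, norm_smul, Real.norm_of_nonneg e0]
  change G.g (b, G.Rr (b, v - ε • G.gr (b, v))) ≤ G.g (b, v) - ε / 4 * ‖G.gr (b, v)‖ ^ 2
  rcases e0.eq_or_lt with rfl | e0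
  · simpa using h.mono b v v hw (by simpa using d0.le)
  have d := C.desc_grad (h.gd b) (h.gl b) e0 e1 v
  have k : 1 / (2 * ε) * (ε * ‖G.gr (b, v)‖) ^ 2 = ε / 2 * ‖G.gr (b, v)‖ ^ 2 := by field_simp
  rw [n, k] at d
  have p : 0 ≤ ε * ‖G.gr (b, v)‖ ^ 2 := by positivity
  rcases le_total (ε * ‖G.gr (b, v)‖) G.δ with a | a
  · have := h.mono b v _ hw (n.trans_le a)
    linarith
  · have t := h.big (b, v - ε • G.gr (b, v))
    have u : ε * (4 * G.C) ≤ ε * (ε * ‖G.gr (b, v)‖ ^ 2) := by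
      have := pow_le_pow_left₀ d0.le a 2
      nlinarith
    have := le_of_mul_le_mul_left u e0
    simp only at t
    linarith

end Crest.Agent.N218.En

end
end

-- ▼ part N218/En/Gf
section

/-!
# Row 218, END wrapper: good families (helper16)
-/

set_option autoImplicit false
set_option linter.unusedVariables false
set_option linter.unusedSectionVars false

open Set Topology Filter
open scoped InnerProductSpace

noncomputable section

namespace Crest.Agent.N218.En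
open Pm Sk

namespace Gk
variable {B F : Type} [TopologicalSpace B] [NormedAddCommGroup F] [InnerProductSpace ℝ F]

theorem op_le {p : F →L[ℝ] F} (h : Op p) (v : F) : ‖p v‖ ≤ ‖v‖ := by
  have a : ‖p v‖ ^ 2 ≤ ‖v‖ * ‖p v‖ := by
    rw [← real_inner_self_eq_norm_sq, h.sy, h.id]; exact real_inner_le_norm _ _
  rcases (norm_nonneg (p v)).eq_or_lt with e | e
  · rw [← e]; exact norm_nonneg _
  · nlinarith

variable [CompleteSpace F] {G : Gb B F} (h : G.Ok)
include h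

theorem p1_cp (v : F) : G.p₁ (G.cp v) = G.p₁ v := by
  simp [Gb.cp, (h.oz v).1]

theorem pp_cp (v : F) : ‖G.pp (G.cp v)‖ ≤ G.C := by
  have := h.C0
  have m : 0 < max G.C ‖G.pp v‖ := lt_max_of_lt_left this
  simp only [Gb.cp, map_add, map_sub, map_smul, h.op.id, sub_self, zero_add]
  rw [norm_smul, Real.norm_of_nonneg (by positivity), div_mul_eq_mul_div, div_le_iff₀ m]
  exact mul_le_mul_of_nonneg_left (le_max_right _ _) this.le

theorem cp_id {v : F} (a : ‖G.pp v‖ ≤ G.C) : G.cp v = v := by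
  simp [Gb.cp, max_eq_left a, div_self h.C0.ne']

theorem cp_ct : Continuous G.cp := by
  have m : ∀ v, max G.C ‖G.pp v‖ ≠ 0 := fun v => (lt_max_of_lt_left h.C0).ne'
  unfold Gb.cp
  fun_prop (disch := exact m)

theorem f_ct (ε : ℝ) : Continuous (G.f ε) := by
  have := h.Rc
  have := h.grc
  unfold Gb.f
  fun_prop

theorem f_D (ε : ℝ) (w : B × F) : (w.1, G.f ε w) ∈ G.D := h.RD (w.1, w.2 - ε • G.gr w)

theorem p1_f {ε : ℝ} (e0 : 0 ≤ ε) (w : B × F) :
    ‖G.p₁ (G.f ε w) - (1 + ε) • G.p₁ w.2‖ ≤ ε * G.C := by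
  have e : G.p₁ (G.f ε w) - (1 + ε) • G.p₁ w.2 =
      -(ε • G.p₁ (G.gr w - (G.pp w.2 - G.p₁ w.2))) := by
    simp only [Gb.f, h.R₁, map_sub, map_smul, (h.oz _).1, h.o₁.id]; module
  rw [e, norm_neg, norm_smul, Real.norm_of_nonneg e0]
  exact mul_le_mul_of_nonneg_left ((op_le h.o₁ _).trans (h.gb w)) e0

theorem pp_f {ε : ℝ} (e0 : 0 ≤ ε) (w : B × F) :
    ‖G.pp (G.f ε w) - (1 - ε) • G.pp w.2‖ ≤ ε * G.C := by
  have e : G.pp (G.f ε w) - (1 - ε) • G.pp w.2 =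
      -(ε • G.pp (G.gr w - (G.pp w.2 - G.p₁ w.2))) := by
    simp only [Gb.f, h.Rp, map_sub, map_smul, (h.oz _).2, h.op.id]; module
  rw [e, norm_neg, norm_smul, Real.norm_of_nonneg e0]
  exact mul_le_mul_of_nonneg_left ((op_le h.op _).trans (h.gb w)) e0

/-- the slab `‖pp v‖ ≤ C` is invariant -/
theorem pp_inv {ε : ℝ} (e0 : 0 ≤ ε) (e1 : ε ≤ 1) (w : B × F) (a : ‖G.pp w.2‖ ≤ G.C) :
    ‖G.pp (G.f ε w)‖ ≤ G.C := by
  have k := norm_le_norm_sub_add (G.pp (G.f ε w)) ((1 - ε) • G.pp w.2)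
  rw [norm_smul, Real.norm_of_nonneg (by linarith)] at k
  have := pp_f h e0 w
  nlinarith

theorem lin {ε : ℝ} (e0 : 0 ≤ ε) (w : B × F) :
    ‖G.f ε w - ((1 - ε) • G.pp w.2 + (1 + ε) • G.p₁ w.2)‖ ≤ G.C + ε * G.C + ε * G.C := by
  have e : G.f ε w - ((1 - ε) • G.pp w.2 + (1 + ε) • G.p₁ w.2) =
      (G.f ε w - G.p₁ (G.f ε w) - G.pp (G.f ε w)) + (G.p₁ (G.f ε w) - (1 + ε) • G.p₁ w.2) +
        (G.pp (G.f ε w) - (1 - ε) • G.pp w.2) := by abel
  rw [e]
  exact norm_add₃_le.trans (add_le_add (add_le_add (h.Db _ (f_D h ε w)) (p1_f h e0 w))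
    (pp_f h e0 w))

theorem lin_cp {ε : ℝ} (e0 : 0 ≤ ε) (e1 : ε ≤ 1) (w : B × F) :
    ‖G.f ε (w.1, G.cp w.2) - (1 + ε) • G.p₁ w.2‖ ≤ G.C + ε * G.C + G.C := by
  have a := p1_f h e0 (w.1, G.cp w.2)
  have b := pp_inv h e0 e1 (w.1, G.cp w.2) (pp_cp h _)
  have c := h.Db _ (f_D h ε (w.1, G.cp w.2))
  rw [p1_cp h] at a
  generalize G.f ε (w.1, G.cp w.2) = y at a b c
  have e : y - (1 + ε) • G.p₁ w.2 =
      (y - G.p₁ y - G.pp y) + (G.p₁ y - (1 + ε) • G.p₁ w.2) + G.pp y := by abel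
  rw [e]
  exact norm_add₃_le.trans (add_le_add (add_le_add c a) b)

/-- near the critical point the map is the gradient step -/
theorem f_nr {ε : ℝ} (e0 : 0 ≤ ε) (e1 : ε * G.C ≤ 1) (b : B) {v : F} (a : ‖v‖ ≤ G.ρ) :
    G.f ε (b, v) = v - ε • G.gr (b, v) := by
  refine (h.nr (b, v - ε • G.gr (b, v)) ?_).2
  have k := h.gl b v 0
  rw [(h.g0 b).2, sub_zero, sub_zero] at k
  have l := norm_sub_le v (ε • G.gr (b, v))
  rw [norm_smul, Real.norm_of_nonneg e0] at l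
  have := mul_le_mul_of_nonneg_left k e0
  have := mul_le_mul_of_nonneg_right e1 (norm_nonneg v)
  simp only
  nlinarith

theorem cp_nr {v : F} (a : ‖v‖ ≤ G.ρ) : G.cp v = v :=
  cp_id h ((op_le h.op v).trans (a.trans h.ρC))

/-- periodic orbits are trivial -/
theorem per {ε : ℝ} (e0 : 0 < ε)
    (L : ∀ w ∈ G.D, G.g (w.1, G.f ε w) ≤ G.g w - ε / 4 * ‖G.gr w‖ ^ 2) {ι : Type} [Fintype ι]
    (σ : ι ≃ ι) (b : B) (z : ι → F) (hz : ∀ i, z (σ i) = G.f ε (b, z i)) (i : ι) : z i = 0 := by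
  have d : ∀ i, (b, z i) ∈ G.D := fun i => by
    rw [← σ.apply_symm_apply i, hz]; exact f_D h ε (b, _)
  have := C.cyc_eq σ (a := fun i => G.g (b, z i)) (b := fun i => ε / 4 * ‖G.gr (b, z i)‖ ^ 2)
    (fun i => by positivity) (fun i => by rw [hz]; exact L _ (d i)) i
  refine h.crit _ (d i) ?_
  simpa [e0.ne'] using this

theorem per_cp {ε : ℝ} (e0 : 0 < ε) (e1 : ε ≤ 1)
    (L : ∀ w ∈ G.D, G.g (w.1, G.f ε w) ≤ G.g w - ε / 4 * ‖G.gr w‖ ^ 2) {ι : Type} [Fintype ι]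
    (σ : ι ≃ ι) (b : B) (z : ι → F) (hz : ∀ i, z (σ i) = G.f ε (b, G.cp (z i))) (i : ι) :
    z i = 0 := by
  refine per h e0 L σ b z (fun i => ?_) i
  rw [hz, cp_id h]
  rw [← σ.apply_symm_apply i, hz]
  exact pp_inv h e0.le e1 (b, _) (pp_cp h _)

theorem lf {ε η : ℝ} (e0 : 0 ≤ ε) (e1 : ε * G.C ≤ η) {φ : B → F → F}
    (a : ∀ b v, ‖v‖ ≤ G.ρ → φ b v = v - ε • G.gr (b, v)) (c : ∀ b v, φ b v = v → v = 0) :
    Yk.Lf φ η := by
  intro b y hy
  obtain rfl := c b y hy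
  have t : ∀ᶠ v : F in 𝓝 0, ‖v‖ ≤ G.ρ :=
    (continuous_norm.continuousAt.eventually_lt continuousAt_const (by simpa using h.ρ0)).mono
      fun _ => le_of_lt
  have t1 : Tendsto (fun x : B × F × F => x.2.1) (𝓝 (b, 0, 0)) (𝓝 0) :=
    Continuous.tendsto' (by fun_prop) _ _ rfl
  have t2 : Tendsto (fun x : B × F × F => x.2.2) (𝓝 (b, 0, 0)) (𝓝 0) :=
    Continuous.tendsto' (by fun_prop) _ _ rfl
  filter_upwards [t1.eventually t, t2.eventually t] with x a1 a2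
  have e : φ x.1 x.2.1 - x.2.1 - (φ x.1 x.2.2 - x.2.2) =
      -(ε • (G.gr (x.1, x.2.1) - G.gr (x.1, x.2.2))) := by rw [a _ _ a1, a _ _ a2]; module
  rw [e, norm_neg, norm_smul, Real.norm_of_nonneg e0]
  refine (mul_le_mul_of_nonneg_left (h.gl _ _ _) e0).trans ?_
  rw [← mul_assoc]
  exact mul_le_mul_of_nonneg_right e1 (norm_nonneg _)

theorem la {k : ℕ} (hk : 1 ≤ k) {s t : ℝ} (hs : s ^ 2 ≠ 1) (ht : t ^ 2 ≠ 1) :
    LA k (s • G.pp + t • G.p₁) := by
  refine LA.of_sym (fun v w => ?_) (fun v a => ?_) hk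
  · simp [inner_add_left, inner_add_right, inner_smul_left, inner_smul_right, h.o₁.sy, h.op.sy]
  · simp only [ContinuousLinearMap.add_apply, ContinuousLinearMap.smul_apply, map_add, map_smul,
      (h.oz _).1, (h.oz _).2, h.o₁.id, h.op.id, smul_zero, add_zero, zero_add] at a
    have a1 := congrArg G.pp a
    have a2 := congrArg G.p₁ a
    simp only [map_add, map_smul, (h.oz _).1, (h.oz _).2, h.o₁.id, h.op.id, smul_zero, add_zero,
      zero_add] at a1 a2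
    have b1 : (s ^ 2 - 1) • G.pp v = 0 := by rw [sub_smul, sq, mul_smul, a1, one_smul, sub_self]
    have b2 : (t ^ 2 - 1) • G.p₁ v = 0 := by rw [sub_smul, sq, mul_smul, a2, one_smul, sub_self]
    rw [← a, (smul_eq_zero.1 b1).resolve_left (sub_ne_zero.2 hs),
      (smul_eq_zero.1 b2).resolve_left (sub_ne_zero.2 ht)]
    simp
end Gk

open Gk in
/-- **GF** -/
theorem gf : GF := by
  intro B F _ _ _ _ _ _ _ G h k hk
  obtain ⟨e, e0, L⟩ := ly B F G h
  obtain ⟨η, n0, hη⟩ := ex_eta (2 ^ k)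
  have C0 := h.C0
  refine ⟨min (min e 1) (min (1 / G.C) (η / G.C)), by positivity, fun ε p q => ?_⟩
  simp only [le_min_iff, le_div_iff₀ C0] at q
  obtain ⟨⟨q1, q2⟩, q3, q4⟩ := q
  replace L := L ε p.le q1
  have s1 : (1 + ε) ^ 2 ≠ 1 := by nlinarith
  refine ⟨Gf.of_yk (f_ct h ε) _ (la h hk (s := 1 - ε) (by nlinarith) s1) (lin h p.le) n0.le hη
    (fun b z hz i => ?_) (lf h p.le q4 (fun b v a => f_nr h p.le q3 b a) fun b v a => ?_),
    Gf.of_yk ((f_ct h ε).comp (by have := cp_ct h; fun_prop)) _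
      (la h hk (s := 0) (by norm_num) s1) (fun w => by simpa using lin_cp h p.le q2 w) n0.le hη
      (fun b z hz i => ?_) (lf h p.le q4 (fun b v a => ?_) fun b v a => ?_)⟩
  · have := per h p L (Equiv.addRight 1) b z hz
    rw [this, this]
  · exact per h p L (Equiv.refl Unit) b (fun _ => v) (fun _ => a.symm) ()
  · have := per_cp h p q2 L (Equiv.addRight 1) b z hz
    rw [this, this]
  · simp only [cp_nr h a, f_nr h p.le q3 b a]
  · exact per_cp h p q2 L (Equiv.refl Unit) b (fun _ => v) (fun _ => a.symm) ()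

end Crest.Agent.N218.En

end
end

-- ▼ part N218/En/Wrb1

/-!
# Row 218, END wrapper (helper79): the path from the linear map to the clamped map
-/

set_option autoImplicit false
set_option linter.unusedVariables false
set_option linter.unusedSectionVars false

open Set Topology
open scoped InnerProductSpace

noncomputable section

namespace Crest.Agent.N218.En
open Pm Sk

namespace W1
variable {B F : Type} [TopologicalSpace B] [NormedAddCommGroup F] [InnerProductSpace ℝ F]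
  [CompleteSpace F] {G : Gb B F}

theorem la {p : F →L[ℝ] F} (h : Op p) {ε : ℝ} (hε : 0 < ε) {k : ℕ} (hk : 1 ≤ k) :
    LA k ((1 + ε) • p) := by
  refine LA.of_sym (fun v w => by simp [inner_smul_left, inner_smul_right, h.sy]) (fun v e => ?_) hk
  simp only [smul_apply, map_smul, h.id, smul_smul] at e
  have a := congrArg p e
  rw [map_smul, h.id] at a
  have b : ((1 + ε) * (1 + ε) - 1) • p v = 0 := by rw [sub_smul, a, one_smul, sub_self]
  rw [← e, (smul_eq_zero.1 b).resolve_left (by nlinarith), smul_zero]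

theorem p_cp (h : G.Ok) (v : F) : G.p₁ (G.cp v) = G.p₁ v := by
  simp [Gb.cp, (h.oz v).1]

theorem pp_cp (h : G.Ok) (v : F) : ‖G.pp (G.cp v)‖ ≤ G.C := by
  have m : 0 < max G.C ‖G.pp v‖ := lt_max_of_lt_left h.C0
  simp only [Gb.cp, map_add, map_sub, map_smul, h.op.id, sub_self, zero_add]
  rw [norm_smul, Real.norm_of_nonneg (div_nonneg h.C0.le m.le), div_mul_eq_mul_div, div_le_iff₀ m]
  exact mul_le_mul_of_nonneg_left (le_max_right _ _) h.C0.le

theorem bd (h : G.Ok) {ε : ℝ} (e0 : 0 ≤ ε) (e1 : ε ≤ 1) (b : B) (v : F) :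
    ‖G.f ε (b, G.cp v) - ((1 + ε) • G.p₁) v‖ ≤ (2 + ‖G.p₁‖ + ‖G.pp‖) * G.C := by
  have a := h.Db _ (h.RD (b, G.cp v - ε • G.gr (b, G.cp v)))
  have c := h.gb (b, G.cp v)
  have d := pp_cp h v
  rw [h.R₁, h.Rp] at a
  rw [smul_apply, ← p_cp h v, Gb.f]
  dsimp only at a c ⊢
  generalize G.cp v = u at *
  generalize G.Rr (b, u - ε • G.gr (b, u)) = r at *
  obtain ⟨w, hw⟩ : ∃ w, G.gr (b, u) = w + (G.pp u - G.p₁ u) := ⟨_, (sub_add_cancel _ _).symm⟩
  rw [hw] at a c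
  rw [add_sub_cancel_right] at c
  simp only [map_sub, map_add, map_smul, h.o₁.id, h.op.id, (h.oz u).1, (h.oz u).2] at a
  have e : r - (1 + ε) • G.p₁ u = (r - (G.p₁ u - ε • (G.p₁ w + (0 - G.p₁ u))) -
      (G.pp u - ε • (G.pp w + (G.pp u - 0)))) + ((1 - ε) • G.pp u - ε • G.p₁ w - ε • G.pp w) := by
    module
  rw [e]
  refine (norm_add_le _ _).trans ?_
  have n := (norm_sub_le ((1 - ε) • G.pp u - ε • G.p₁ w) (ε • G.pp w)).trans
    (add_le_add_left (norm_sub_le _ _) _)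
  rw [norm_smul, norm_smul, norm_smul, Real.norm_of_nonneg e0,
    Real.norm_of_nonneg (sub_nonneg.2 e1)] at n
  have n1 := (G.p₁.le_opNorm w).trans (mul_le_mul_of_nonneg_left c (norm_nonneg _))
  have n2 := (G.pp.le_opNorm w).trans (mul_le_mul_of_nonneg_left c (norm_nonneg _))
  nlinarith [norm_nonneg (G.pp u), norm_nonneg (G.p₁ w), norm_nonneg (G.pp w)]

end W1

/-- the first half of `WRB` -/
theorem wrb1 (hG : GF) : AllF fun B F _ _ _ _ _ _ _ _ G R => ∀ (A : Type) [AddCommGroup A]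
    (T : Th B A) (k : ℕ), 16 ≤ k → ∃ ε₀ > 0, ∀ ε, 0 < ε → ε ≤ ε₀ → ∃ δ₀ > 0, ∀ δ, 0 < δ → δ < δ₀ →
      Pe (T.pa k (sp F) ((Psi k (R ε).O (R ε).ph).F (tau δ)))
        (T.pa k (sp F) (Ec k univ fun w => G.f ε (w.1, G.cp w.2))) := by
  intro B F _ _ _ _ _ _ _ G h E _ _ _ P a ι ι' _ _ _ A _ T k hk
  obtain ⟨ε₀, e0, hg⟩ := hG B F G h k (by omega)
  refine ⟨min ε₀ 1, lt_min e0 one_pos, fun ε p q => ?_⟩
  have g1 := (hg ε p (q.trans (min_le_left _ _))).2
  have l := W1.la h.o₁ p (k := k) (by omega)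
  have b := W1.bd h p.le (q.trans (min_le_right _ _))
  obtain ⟨L, hL⟩ : ∃ L, L = (1 + ε) • G.p₁ := ⟨_, rfl⟩
  obtain ⟨f, hf⟩ : ∃ f : B × F → F, f = fun w => G.f ε (w.1, G.cp w.2) := ⟨_, rfl⟩
  have e : (G.rg ι ι' a ε).ph = fun w => (1 - cl w.1.2) • L w.2 + cl w.1.2 • f (w.1.1, w.2) := by
    rw [hL, hf]; rfl
  change ∃ δ₀ > 0, ∀ δ, 0 < δ → δ < δ₀ → Pe (T.pa k (sp F) ((Psi k univ _).F (tau δ))) _
  replace b : ∀ x v, ‖f (x, v) - L v‖ ≤ (2 + ‖G.p₁‖ + ‖G.pp‖) * G.C := by rw [hL, hf]; exact b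
  rw [e, ← hf]
  rw [← hf] at g1
  rw [← hL] at l
  have C0 : 0 ≤ (2 + ‖G.p₁‖ + ‖G.pp‖) * G.C := mul_nonneg (by positivity) h.C0.le
  generalize (2 + ‖G.p₁‖ + ‖G.pp‖) * G.C = C at *
  have b' : ∀ (x : B × ℝ) v, ‖(1 - cl x.2) • L v + cl x.2 • f (x.1, v) - L v‖ ≤ C := fun x v => by
    have m := cl_mem x.2
    rw [show (1 - cl x.2) • L v + cl x.2 • f (x.1, v) - L v = cl x.2 • (f (x.1, v) - L v) by module,
      norm_smul, Real.norm_of_nonneg m.1]
    nlinarith [b x.1 v, m.2, norm_nonneg (f (x.1, v) - L v)]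
  have ct := g1.ct
  have g0 : Gf k fun w : B × F => L w.2 := ⟨by fun_prop, ⟨L, 0, l, fun _ => by simp⟩, 1, one_pos,
    fun _ s z s0 _ e => by rw [l s z s0 e, mn_zero]⟩
  have e0 : (Psi k univ fun w : (B × ℝ) × F => (1 - cl w.1.2) • L w.2 + cl w.1.2 • f (w.1.1, w.2)).pull
      (fun x => (x, 0)) = Psi k univ fun w : B × F => L w.2 := by
    simp [Psi, PM.pull, cl_of_le]
  have e1 : (Psi k univ fun w : (B × ℝ) × F => (1 - cl w.1.2) • L w.2 + cl w.1.2 • f (w.1.1, w.2)).pull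
      (fun x => (x, 1)) = Psi k univ f := by
    simp [Psi, PM.pull, cl_of_ge]
  obtain ⟨K, -, hK⟩ := Yk.apr (σ := Equiv.addRight (1 : Ix k)) (tau_sq (k := k))
    (fun i => add_right_comm _ _ _) L
    fun s z s0 e => l s z s0 ((eq_iff (g := fun i => s • mn z i)).2 e)
  obtain ⟨δ₀, d0, hd⟩ := ecf B A T k (sp F) 0 1 (Psi k univ fun w : (B × ℝ) × F =>
      (1 - cl w.1.2) • L w.2 + cl w.1.2 • f (w.1.1, w.2)) hk zero_le_one
    (psi_ok_lin (A := fun _ => L) (by fun_prop) continuous_const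
      (fun _ v e => l 0 v le_rfl fun i => by rw [zero_smul, add_zero, ← e, sub_self])
      fun _ _ => ⟨C, fun x _ v => b' x v⟩)
    (fun x s hs y => ⟨Iff.rfl, fun _ => by simp only [Psi, cl_of_le hs, cl_of_le le_rfl], rfl⟩)
    (fun x s hs y => ⟨Iff.rfl, fun _ => by simp only [Psi, cl_of_ge hs, cl_of_ge le_rfl], rfl⟩)
    (e0 ▸ g0.Adm) (e1 ▸ g1.Adm) ⟨K * C, fun x _ s s0 e => (hK s C x.2 _ s0 C0
      (fun i => b' x.1 (x.2 i)) fun i => by
        rw [add_sub_cancel]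
        exact (eq_iff (g := fun i => s • mn x.2 i) (F := fun v =>
          (1 - cl x.1.2) • L v + cl x.1.2 • f (x.1.1, v))).1 (fun i => congrFun e i) i).2⟩
  refine ⟨δ₀, d0, fun δ u v => ?_⟩
  have := (hd δ u v).2
  have z : T.pa k (sp F) (Psi k univ fun w : B × F => L w.2).Ec = 0 :=
    Ecf.emp T (sp F) hk g0.ok fun x hx => hx.1.1 (by
      rw [l _ x.2 (Real.exp_pos x.1.2).le fun i => congrFun hx.2 i, mn_zero])
  rwa [e0, e1, z, sub_zero] at this

end Crest.Agent.N218.En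

end
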