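import Crest.Agent.N218.K.Wdg
import Crest.Agent.N218.K.Clu
import Crest.Agent.N218.K.Fin0
import Crest.Agent.N218.In.Kit
import Crest.Agent.N218.In.Emb
import Crest.Agent.N218.En.Defs
import Crest.Agent.N218.Pm.Kit1

-- ▼ part N218/K/Sum2
section

/-!
# N218/K/Sum2: additivity of the primary and of the secondary class (helper94)
-/

set_option autoImplicit false
set_option linter.unusedVariables false
set_option linter.unusedSectionVars false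

open unitInterval Topology Set OnePoint Module

noncomputable section

namespace Crest.Agent.N218.K.Pup

section
variable {Γ : Type} [Group Γ] [TopologicalSpace Γ]

theorem ok_split {X : LS Γ} {V : Rep Γ} {Q : PB X V} {S A B : Set X.Z} (h : Q.Ok S)
    (a : IsOpen (Q.O ∩ A)) (b : IsOpen (Q.O ∩ B)) (d : Disjoint A B) (c : Q.O ⊆ A ∪ B)
    (i : ∀ g, ∀ x ∈ Q.O ∩ A, X.act g x ∈ A) : (Q.on A).Ok S := by
  refine ⟨a, fun g x m => ⟨h.inv g x m.1, i g x m⟩, h.ct.mono inter_subset_left,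
    fun g x m => h.eq g x m.1, ?_, fun x m => h.fr ⟨m.1.1, m.2⟩⟩
  have : (Q.on A).Z = Q.Z \ (Q.O ∩ B) := by
    ext x
    exact ⟨fun m => ⟨⟨m.1.1, m.2⟩, fun n => disjoint_left.1 d m.1.2 n.2⟩,
      fun m => ⟨⟨m.1.1, (c m.1.1).resolve_right fun n => m.2 ⟨m.1.1, n⟩⟩, m.1.2⟩⟩
  rw [this]; exact h.cp.diff b

variable [CompactSpace Γ]

theorem cut_add {Y : GS Γ} {M : LS Γ} {W : Rep Γ} {P P₁ P₂ : FP Y M W} {c₁ c₂ : Y.Z × M.Z → ℝ}
    (h₁ : P₁.Cut c₁) (h₂ : P₂.Cut c₂) (s₁ : P₁.O ⊆ P.O) (s₂ : P₂.O ⊆ P.O) (c : P.O ⊆ P₁.O ∪ P₂.O)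
    (e₁ : P₁.f = P.f) (e₂ : P₂.f = P.f) : P.Cut (c₁ + c₂) := by
  have t : tsupport (c₁ + c₂) ⊆ tsupport c₁ ∪ tsupport c₂ := tsupport_add _ _
  refine ⟨h₁.ct.add h₂.ct, fun x => add_nonneg (h₁.nn x) (h₂.nn x),
    (h₁.cp.union h₂.cp).of_isClosed_subset (isClosed_tsupport _) t,
    t.trans (union_subset (h₁.sub.trans s₁) (h₂.sub.trans s₂)), fun x o z => ?_,
    fun g x => by rw [Pi.add_apply, Pi.add_apply, h₁.inv, h₂.inv]⟩
  rcases c o with m | m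
  · exact add_pos_of_pos_of_nonneg (h₁.pos x m (e₁ ▸ z)) (h₂.nn x)
  · exact add_pos_of_nonneg_of_pos (h₁.nn x) (h₂.pos x m (e₂ ▸ z))

theorem dj_of {Y : GS Γ} {M : LS Γ} {W : Rep Γ} {P P₁ P₂ : FP Y M W} {c₁ c₂ : Y.Z × M.Z → ℝ}
    (h₁ : P₁.Cut c₁) (h₂ : P₂.Cut c₂) (d : Disjoint P₁.O P₂.O) (e₁ : P₁.f = P.f)
    (e₂ : P₂.f = P.f) {F₁ F₂ F : H1 (Sb Y M) (Sb Y W.ls)} (r₁ : Rg F₁ (P₁.col c₁))
    (r₂ : Rg F₂ (P₂.col c₂)) (r : Rg F (P.col (c₁ + c₂))) : Dj F₁ F₂ F := by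
  refine sb_ind (fun y => .inl ⟨Hm.f_inf _ _, (Hm.f_inf _ _).trans (Hm.f_inf _ _).symm⟩)
    fun y w => ?_
  rw [r, r₁, r₂, FP.col_eq, FP.col_eq, FP.col_eq, e₁, e₂, Pi.add_apply]
  by_cases z : c₂ (y, w) = 0
  · exact .inl ⟨by rw [z, sc_zero]; rfl, by rw [z, add_zero]⟩
  · have z' : c₁ (y, w) = 0 := by
      by_contra n
      exact disjoint_left.1 d (h₁.mem n) (h₂.mem z)
    exact .inr ⟨by rw [z', sc_zero]; rfl, by rw [z', zero_add]⟩
end

/-- classifying maps with disjoint supports -/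
theorem cl_dj {Γ : Type} [Group Γ] [Fintype Γ] [TopologicalSpace Γ] [DiscreteTopology Γ]
    (χ : Γ →* Circle) (r : ℕ) (X V : Rep Γ) (hd : finrank ℝ X.W < finrank ℝ V.W + 2 * r)
    (P : PB X.ls V) (U U' : Set X.ls.Z) (h : P.Fr) (h1 : (P.on U).Fr) (h2 : (P.on U').Fr)
    (d : Disjoint U U') (c : P.Z ⊆ U ∪ U') : ∃ F₁ F₂ F, Cl χ (cc χ) r (P.on U) F₁ ∧
      Cl χ (cc χ) r (P.on U') F₂ ∧ Cl χ (cc χ) r P F ∧ Dj F₁ F₂ F := by
  have o : IsOpen (P.O ∩ (U ∪ U')) := by rw [inter_union_distrib_left]; exact h1.op.union h2.op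
  have h0 : (P.on (U ∪ U')).Fr :=
    ⟨o, fun g x m => ⟨h.inv g x m.1, m.2.imp (fun u => (h1.inv g x ⟨m.1, u⟩).2)
      fun u => (h2.inv g x ⟨m.1, u⟩).2⟩, h.ct.mono inter_subset_left, fun g x m => h.eq g x m.1,
      (show (P.on (U ∪ U')).Z = P.Z from
        Set.ext fun x => ⟨fun m => ⟨m.1.1, m.2⟩, fun m => ⟨⟨m.1, c m⟩, m.2⟩⟩) ▸ h.cp,
      fun x m => h.fr ⟨m.1.1, m.2⟩⟩
  obtain ⟨P', k, H, p, eO, eH, hH, l0, l1, hk⟩ := cle χ r X V hd _ h0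
  have key : ∀ {A B : Set X.ls.Z}, (P.on A).Fr → (P.on B).Fr → Disjoint A B → A ∪ B = U ∪ U' →
      (P.on A).Bd (P'.on A) := fun {A B} a b d e => by
    have s : ∀ {C : Set X.ls.Z}, C ⊆ U ∪ U' → P.O ∩ (U ∪ U') ∩ C = P.O ∩ C := fun m =>
      by rw [inter_assoc, inter_eq_self_of_subset_right m]
    have sA := s (e ▸ subset_union_left : A ⊆ U ∪ U')
    have sB := s (e ▸ subset_union_right : B ⊆ U ∪ U')
    have oA : IsOpen (P.O ∩ (U ∪ U') ∩ A) := by rw [sA]; exact a.op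
    have oB : IsOpen (P.O ∩ (U ∪ U') ∩ B) := by rw [sB]; exact b.op
    refine ⟨a, ok_split p (by rw [eO]; exact oA) (by rw [eO]; exact oB) d
      (by rw [eO, e]; exact inter_subset_right)
      (fun g x m => (a.inv g x ⟨(eO ▸ m.1 : x ∈ (P.on (U ∪ U')).O).1, m.2⟩).2),
      H.on (Prod.fst ⁻¹' A), ok_split (B := Prod.fst ⁻¹' B) hH ?_ ?_ (d.preimage _) ?_ ?_, ?_, ?_⟩
    · rw [eH]; exact oA.preimage (f := (Prod.fst : X.ls.Z × I → X.ls.Z)) continuous_fst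
    · rw [eH]; exact oB.preimage (f := (Prod.fst : X.ls.Z × I → X.ls.Z)) continuous_fst
    · rw [eH]; exact fun x m => (e ▸ m.2 : x.1 ∈ A ∪ B)
    · exact fun g x m => (a.inv g x.1 ⟨(eH ▸ m.1 : x ∈ Prod.fst ⁻¹' (P.on (U ∪ U')).O).1, m.2⟩).2
    · exact ⟨fun x m => ⟨(l0.sub m.1).1, m.2⟩, fun x m => l0.eq x m.1,
        fun x m => ⟨l0.z ⟨⟨m.1.1, e ▸ .inl m.1.2⟩, m.2⟩, m.1.2⟩⟩
    · exact ⟨fun x m => ⟨l1.sub m.1, m.2⟩, fun x m => l1.eq x m.1,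
        fun x m => ⟨l1.z ⟨m.1.1, m.2⟩, m.1.2⟩⟩
  have b1 := key h1 h2 d rfl
  have b2 := key h2 h1 d.symm (union_comm _ _)
  have b : P.Bd P' := ⟨h, p, H, hH, ⟨fun x m => (l0.sub m).1, l0.eq,
    fun x m => l0.z ⟨⟨m.1, c m⟩, m.2⟩⟩, l1⟩
  have lf : ∀ A, (P'.on A).Lift (UU χ (cc χ) r) k := fun A =>
    ⟨hk.ct.mono inter_subset_left, fun g x m => hk.eq g x m.1, fun x m => hk.nz x ⟨m.1.1, m.2⟩⟩
  have t1 := Tc_ok χ (cc χ) r b1.2.1 (lf U)
  have t2 := Tc_ok χ (cc χ) r b2.2.1 (lf U')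
  obtain ⟨c₁, k₁⟩ := t1.exists_cut
  obtain ⟨c₂, k₂⟩ := t2.exists_cut
  have k₀ : (Tc χ (cc χ) r P' k).Cut (c₁ + c₂) := cut_add k₁ k₂ (fun _ m => m.1) (fun _ m => m.1)
    (fun z m => (eO ▸ m : z.2.1 ∈ (P.on (U ∪ U')).O).2.imp (fun u => ⟨m, u⟩) fun u => ⟨m, u⟩) rfl rfl
  obtain ⟨F₁, r₁, q₁⟩ := k₁.rp t1
  obtain ⟨F₂, r₂, q₂⟩ := k₂.rp t2
  obtain ⟨F, r₀, q₀⟩ := k₀.rp (Tc_ok χ (cc χ) r p hk)
  exact ⟨F₁, F₂, F, ⟨_, k, b1, lf U, q₁⟩, ⟨_, k, b2, lf U', q₂⟩, ⟨_, k, b, hk, q₀⟩,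
    dj_of k₁ k₂ (disjoint_left.2 fun _ m n => disjoint_left.1 d m.2 n.2) rfl rfl r₁ r₂ r₀⟩

end Crest.Agent.N218.K.Pup

namespace Crest.Agent.N218.K

theorem dsum' : DSUM := fun χ r X V hd P U U' h h1 h2 d c l hl =>
  let ⟨F₁, F₂, F, a₁, a₂, a, j⟩ := Pup.cl_dj χ r X V hd P U U' h h1 h2 d c
  ⟨_, _, ⟨F₁, a₁, rfl⟩, ⟨F₂, a₂, rfl⟩, F, a, j.pull hl⟩

theorem esum' : ESUM := by
  intro Γ _ _ _ _ χ r X V hd P U U' h h1 h2 d c l ρ hl hρ h0
  obtain ⟨F₁, F₂, F, a₁, a₂, a, j⟩ := Pup.cl_dj χ r X V hd P U U' h h1 h2 d c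
  obtain ⟨x₁, e₁⟩ := Pup.ecl_ex F₁ (sd _ _) hl (h0 _) hρ
  obtain ⟨x₂, e₂⟩ := Pup.ecl_ex F₂ (sd _ _) hl (h0 _) hρ
  obtain ⟨x, e⟩ := Pup.ecl_ex F (sd _ _) hl (h0 _) hρ
  obtain ⟨y₁, y₂, f₁, f₂, rfl⟩ := j.ecl (sd _ _) (sd _ _) hl e₁ e₂ e
  exact ⟨y₁, y₂, ⟨F₁, a₁, f₁⟩, ⟨F₂, a₂, f₂⟩, F, a, e⟩

end Crest.Agent.N218.K
end
end

-- ▼ part N218/K/Fin
section

/-! # Row 218, block D1 (helper34): the invariants exist -/

namespace Crest.Agent.N218.K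

theorem inve' : INVE := inve0 esum'

theorem invd' : INVD := invd0 dsum'

end Crest.Agent.N218.K
end

-- ▼ part N218/In/Pl
section

/-! # Row 218, block INST (helper66): problems over the plane and their bordisms -/

set_option autoImplicit false
set_option linter.unusedVariables false
set_option linter.unusedSectionVars false

open Set Topology Module unitInterval

noncomputable section

namespace Crest.Agent.N218.In

open K Pm

namespace Emb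
variable {Y B C T T' : Type} [TopologicalSpace Y] [T2Space Y] [NormedAddCommGroup B]
  [NormedSpace ℝ B] [FiniteDimensional ℝ B] [NormedAddCommGroup C] [NormedSpace ℝ C]
  [FiniteDimensional ℝ C] [TopologicalSpace T] [T2Space T] [TopologicalSpace T'] [T2Space T']
  {k : ℕ} {E : Type} [NormedAddCommGroup E] [NormedSpace ℝ E] [FiniteDimensional ℝ E]
  (e : Emb Y B C)

/-- a problem over `Y × T` spread over a part `D` of the plane by `γ`, with equation `φ` -/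
def pl (P : Pb (Y × T) k E) (D : Set ℂ) (γ : ℂ → T) (φ : ℂ → ℝ) :
    PB (XX (B × ℂ) k E).ls (XX (C × ℝ) k E) :=
  ⟨{z : (B × ℂ) × V k E | (z.1.1 ∈ e.Ω ∧ z.1.2 ∈ D) ∧ ((e.π z.1.1, γ z.1.2), z.2) ∈ P.O},
    fun z : (B × ℂ) × V k E => ((e.n z.1.1, φ z.1.2), P.h ((e.π z.1.1, γ z.1.2), z.2))⟩

/-- the domain of a family -/
def plO (P : Pb (Y × T) k E) (D : Set (ℂ × I)) (γ : ℂ × I → T) : Set (((B × ℂ) × V k E) × I) :=
  {z | (z.1.1.1 ∈ e.Ω ∧ (z.1.1.2, z.2) ∈ D) ∧ ((e.π z.1.1.1, γ (z.1.1.2, z.2)), z.1.2) ∈ P.O}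
/-- the map of a family -/
def plF (P : Pb (Y × T) k E) (γ : ℂ × I → T) (φ : ℂ × I → ℝ) (z : ((B × ℂ) × V k E) × I) :
    (C × ℝ) × V k E :=
  ((e.n z.1.1.1, φ (z.1.1.2, z.2)), P.h ((e.π z.1.1.1, γ (z.1.1.2, z.2)), z.1.2))

variable {P : Pb (Y × T) k E} {D A : Set (ℂ × I)} {γ : ℂ × I → T} {φ : ℂ × I → ℝ}

theorem pl_loc (h : P.Ok) (hD : IsOpen D) (hγ : ContinuousOn γ D) (hφ : ContinuousOn φ D) :
    IsOpen (e.plO P D γ) ∧ ContinuousOn (e.plF P γ φ) (e.plO P D γ) := by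
  have a : Continuous fun z : ((B × ℂ) × V k E) × I => z.1.1.1 := by fun_prop
  have b : Continuous fun z : ((B × ℂ) × V k E) × I => (z.1.1.2, z.2) := by fun_prop
  have c : ContinuousOn (fun z : ((B × ℂ) × V k E) × I =>
      ((e.π z.1.1.1, γ (z.1.1.2, z.2)), z.1.2)) {z | z.1.1.1 ∈ e.Ω ∧ (z.1.1.2, z.2) ∈ D} :=
    ((e.cπ.comp a.continuousOn fun _ u => u.1).prodMk
      (hγ.comp b.continuousOn fun _ u => u.2)).prodMk (by fun_prop)
  exact ⟨c.isOpen_inter_preimage ((e.op.preimage a).inter (hD.preimage b)) h.op,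
    ((e.cn.comp a.continuousOn fun _ u => u.1.1).prodMk
      (hφ.comp b.continuousOn fun _ u => u.1.2)).prodMk
      (h.ct.comp (c.mono fun _ u => u.1) fun _ u => u.2)⟩

theorem pl_cpt (h : P.Ok) (hA : IsClosed A) (hγ : ContinuousOn γ A)
    (bd : ∀ K, IsCompact K → ∃ M : ℝ, ∀ p ∈ A, γ p ∈ K → ‖p.1‖ ≤ M) :
    ∃ K', IsCompact K' ∧ K' ⊆ e.plO P A γ ∧
      ∀ z ∈ e.plO P A γ, (e.plF P γ φ z).1.1 = 0 → (e.plF P γ φ z).2 = 0 → z ∈ K' := by
  obtain ⟨M, hM⟩ := bd _ (h.cp.image continuous_fst.snd)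
  have k1 := ((e.cp _ (h.cp.image continuous_fst.fst)).prod
    (((isCompact_closedBall (0 : ℂ) M).prod (isCompact_univ (X := I))).inter_right hA)).prod
    (h.cp.image continuous_snd)
  have c : ContinuousOn (fun z : (B × ℂ × I) × V k E => ((e.π z.1.1, γ z.1.2), z.2))
      {z | z.1.1 ∈ e.Ω ∧ z.1.2 ∈ A} :=
    ((e.cπ.comp continuous_fst.fst.continuousOn fun _ u => u.1).prodMk
      (hγ.comp continuous_fst.snd.continuousOn fun _ u => u.2)).prodMk (by fun_prop)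
  have k2 := k1.of_isClosed_subset ((c.mono fun _ a => ⟨a.1.1.1, a.1.2.2⟩).preimage_isClosed_of_isClosed
    k1.isClosed h.cp.isClosed) inter_subset_left
  refine ⟨_, k2.image (f := fun z : (B × ℂ × I) × V k E => (((z.1.1, z.1.2.1), z.2), z.1.2.2))
    (by fun_prop), ?_, fun z u a b => ?_⟩
  · rintro _ ⟨z, u, rfl⟩
    exact ⟨⟨u.1.1.1.1, u.1.1.2.2⟩, u.2.1⟩
  · have v : ((e.π z.1.1.1, γ (z.1.1.2, z.2)), z.1.2) ∈ P.Z := ⟨u.2, b⟩
    exact ⟨((z.1.1.1, z.1.1.2, z.2), z.1.2), ⟨⟨⟨⟨u.1.1, a, _, v, rfl⟩,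
      ⟨mem_closedBall_zero_iff.2 (hM _ u.1.2 ⟨_, v, rfl⟩), trivial⟩, u.1.2⟩, _, v, rfl⟩, v⟩, rfl⟩

theorem pl_bd0 (h : P.Ok) (op : IsOpen (e.plO P D γ))
    (ct : ContinuousOn (e.plF P γ φ) (e.plO P D γ)) {K' : Set _} (hK : IsCompact K')
    (s : K' ⊆ e.plO P D γ) (z : ∀ x ∈ e.plO P D γ, e.plF P γ φ x = 0 → x ∈ K') :
    (e.pl P {w | (w, 0) ∈ D} (fun w => γ (w, 0)) fun w => φ (w, 0)).Bd
      (e.pl P {w | (w, 1) ∈ D} (fun w => γ (w, 1)) fun w => φ (w, 1)) :=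
  (PB.fam_ok (X := (XX (B × ℂ) k E).ls) (V := XX (C × ℝ) k E) (T := I) op
    (fun g z t u => ⟨u.1, (ok_act h g.toAdd _ _ u.2).1⟩) ct
    (fun g z t u => Prod.ext rfl (ok_act h g.toAdd _ _ u.2).2) (cp_of_sub (E := (C × ℝ) × V k E) hK s ct z)
    fun z t u _ => mem_fr (h.fr _ u.2)).hb_sl

/-- **a proper family over the plane is a bordism** -/
theorem pl_bd (h : P.Ok) (hD : IsOpen D) (hγ : ContinuousOn γ D) (hφ : ContinuousOn φ D)
    (hA : IsClosed A) (s : A ⊆ D) (z : ∀ p ∈ D, φ p = 0 → p ∈ A)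
    (bd : ∀ K, IsCompact K → ∃ M : ℝ, ∀ p ∈ A, γ p ∈ K → ‖p.1‖ ≤ M) :
    (e.pl P {w | (w, 0) ∈ D} (fun w => γ (w, 0)) fun w => φ (w, 0)).Bd
      (e.pl P {w | (w, 1) ∈ D} (fun w => γ (w, 1)) fun w => φ (w, 1)) :=
  have ⟨a, b⟩ := e.pl_loc h hD hγ hφ
  have ⟨K', c, d, f⟩ := e.pl_cpt (φ := φ) h hA (hγ.mono s) bd
  e.pl_bd0 h a b c (fun _ u => ⟨⟨(d u).1.1, s (d u).1.2⟩, (d u).2⟩) fun x u v =>
    f x ⟨⟨u.1.1, z _ u.1.2 (congrArg (·.1.2) v)⟩, u.2⟩ (congrArg (·.1.1) v) (congrArg (·.2) v)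

/-- `P` along `γ` is `P'` along `γ'` -/
def Ag (P : Pb (Y × T) k E) (P' : Pb (Y × T') k E) (t : T) (t' : T') : Prop :=
  ∀ x y, (((x, t), y) ∈ P.O ↔ ((x, t'), y) ∈ P'.O) ∧
    (((x, t), y) ∈ P.O → P.h ((x, t), y) = P'.h ((x, t'), y))

theorem Ag.rfl' (P : Pb (Y × T) k E) (t : T) : Ag P P t t := fun _ _ => ⟨Iff.rfl, fun _ => rfl⟩

/-- **a family pasted from two proper families** -/
theorem pl_bd2 (h : P.Ok) {P' : Pb (Y × T') k E} (h' : P'.Ok) {D₁ D₂ A' : Set (ℂ × I)}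
    {γ' : ℂ × I → T'} (u : D = D₁ ∪ D₂) (o₁ : IsOpen D₁) (o₂ : IsOpen D₂) (hγ : ContinuousOn γ D₁)
    (hγ' : ContinuousOn γ' D₂) (ag : ∀ p ∈ D₂, Ag P P' (γ p) (γ' p)) (hφ : Continuous φ)
    (hA : IsClosed A) (hA' : IsClosed A') (s : A ⊆ D₁) (s' : A' ⊆ D₂)
    (z : ∀ p, φ p = 0 → p ∈ A ∪ A')
    (bd : ∀ K, IsCompact K → ∃ M : ℝ, ∀ p ∈ A, γ p ∈ K → ‖p.1‖ ≤ M)
    (bd' : ∀ K, IsCompact K → ∃ M : ℝ, ∀ p ∈ A', γ' p ∈ K → ‖p.1‖ ≤ M) :
    (e.pl P {w | (w, 0) ∈ D} (fun w => γ (w, 0)) fun w => φ (w, 0)).Bd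
      (e.pl P {w | (w, 1) ∈ D} (fun w => γ (w, 1)) fun w => φ (w, 1)) := by
  subst u
  obtain ⟨a, b⟩ := e.pl_loc h o₁ hγ hφ.continuousOn
  obtain ⟨a', b'⟩ := e.pl_loc h' o₂ hγ' hφ.continuousOn
  obtain ⟨K₁, c, d, f⟩ := e.pl_cpt (φ := φ) h hA (hγ.mono s) bd
  obtain ⟨K₂, c', d', f'⟩ := e.pl_cpt (φ := φ) h' hA' (hγ'.mono s') bd'
  have q : ∀ x ∈ e.plO P' D₂ γ', x ∈ e.plO P (D₁ ∪ D₂) γ ∧ e.plF P γ φ x = e.plF P' γ' φ x :=
    fun x u => have v := (ag _ u.1.2 _ _).1.2 u.2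
      ⟨⟨⟨u.1.1, Or.inr u.1.2⟩, v⟩, Prod.ext rfl ((ag _ u.1.2 _ _).2 v)⟩
  have r : e.plO P (D₁ ∪ D₂) γ = e.plO P D₁ γ ∪ e.plO P' D₂ γ' :=
    Set.ext fun x => ⟨fun u => u.1.2.imp (fun v => ⟨⟨u.1.1, v⟩, u.2⟩)
      fun v => ⟨⟨u.1.1, v⟩, (ag _ v _ _).1.1 u.2⟩,
      fun u => u.elim (fun v => ⟨⟨v.1.1, Or.inl v.1.2⟩, v.2⟩) fun v => (q x v).1⟩
  refine e.pl_bd0 h (r ▸ a.union a') (r ▸ fun x u => ?_) (c.union c') (r ▸ union_subset_union
    (fun _ u => ⟨⟨(d u).1.1, s (d u).1.2⟩, (d u).2⟩)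
    fun _ u => ⟨⟨(d' u).1.1, s' (d' u).1.2⟩, (d' u).2⟩) fun x u v => ?_
  · rcases u with u | u
    · exact (b.continuousAt (a.mem_nhds u)).continuousWithinAt
    · exact ((b'.congr fun y v => (q y v).2).continuousAt (a'.mem_nhds u)).continuousWithinAt
  · refine (z _ (congrArg (·.1.2) v)).imp (fun w => f x ⟨⟨u.1.1, w⟩, u.2⟩ (congrArg (·.1.1) v)
      (congrArg (·.2) v)) fun w => f' x ⟨⟨u.1.1, w⟩, (ag _ (s' w) _ _).1.1 u.2⟩
      (congrArg (·.1.1) v) (((ag _ (s' w) _ _).2 u.2).symm.trans (congrArg (·.2) v))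

/-- the part over `U` -/
def ov (U : Set ℂ) : Set (XX (B × ℂ) k E).W := {z : (B × ℂ) × V k E | z.1.2 ∈ U}

/-- **excision over the plane** -/
theorem pl_on {P' : Pb (Y × T') k E} {D D' U : Set ℂ} {γ : ℂ → T} {γ' : ℂ → T'} {φ φ' : ℂ → ℝ}
    (h : (e.pl P D γ φ).Fr) (h' : (e.pl P' D' γ' φ').Fr) (hU : IsOpen U)
    (ag : ∀ w ∈ U, w ∈ D ∧ w ∈ D' ∧ Ag P P' (γ w) (γ' w) ∧ φ w = φ' w)
    (z : ∀ w ∈ D', φ' w = 0 → w ∈ U) :
    ((e.pl P D γ φ).on (ov U)).Bd (e.pl P' D' γ' φ') :=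
  have l : ((e.pl P D γ φ).on (ov U)).Le (e.pl P' D' γ' φ') :=
    ⟨fun x u => ⟨⟨u.1.1.1, (ag _ u.2).2.1⟩, ((ag _ u.2).2.2.1 _ _).1.1 u.1.2⟩,
      fun x u => Prod.ext (Prod.ext rfl (ag _ u.2).2.2.2) (((ag _ u.2).2.2.1 _ _).2 u.1.2),
      fun x u => have v := z _ u.1.1.2 (congrArg (·.1.2) u.2)
        ⟨⟨⟨u.1.1.1, (ag _ v).1⟩, ((ag _ v).2.2.1 _ _).1.2 u.1.2⟩, v⟩⟩
  l.hb (l.ok h' (h.op.inter (hU.preimage (f := fun z : (B × ℂ) × V k E => z.1.2) (by fun_prop)))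
    fun g x u => ⟨h.inv g x u.1, u.2⟩) h'

theorem pl_z {D U : Set ℂ} {γ : ℂ → T} {φ : ℂ → ℝ} (z : ∀ w ∈ D, φ w = 0 → w ∈ U) :
    (e.pl P D γ φ).Z ⊆ ov U := fun x u => z _ u.1.1.2 (congrArg (·.1.2) u.2)

end Emb

end Crest.Agent.N218.In

end
end

-- ▼ part N218/In/Pan
section

/-! # Row 218, block INST (helper66): the pair of pants -/

set_option autoImplicit false
set_option linter.unusedVariables false
set_option linter.unusedSectionVars false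

open Set Topology Module unitInterval Complex

noncomputable section

namespace Crest.Agent.N218.In

open K Pm

namespace Pn

theorem cl_c : Continuous cl := by unfold cl; fun_prop
theorem cl_0 {t : ℝ} (h : t ≤ 0) : cl t = 0 := max_eq_left ((min_le_right _ _).trans h)
theorem cl_1 {t : ℝ} (h : 1 ≤ t) : cl t = 1 := by rw [cl, min_eq_left h, max_eq_right zero_le_one]
theorem cl_m (t : ℝ) : cl t ∈ Icc (0 : ℝ) 1 := ⟨le_max_left _ _, max_le zero_le_one (min_le_left _ _)⟩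

/-- functions of the argument -/
theorem arg_c {g : ℝ → ℝ} (c : Continuous g) (h : g (-Real.pi) = g Real.pi) :
    ContinuousOn (fun w : ℂ => g w.arg) {w | w ≠ 0} := by
  have : Fact (0 < 2 * Real.pi) := ⟨by positivity⟩
  have p : -Real.pi + 2 * Real.pi = Real.pi := by ring
  have e : (fun w : ℂ => g w.arg) = AddCircle.liftIoc (2 * Real.pi) (-Real.pi) g ∘
      ((↑) ∘ arg : ℂ → Real.Angle) := funext fun w =>
    (AddCircle.liftIoc_coe_apply (by rw [p]; exact arg_mem_Ioc w)).symm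
  rw [e]
  exact fun w hw => ((AddCircle.liftIoc_continuous (by rw [p, h]) c.continuousOn).continuousAt.comp
    (continuousAt_arg_coe_angle hw)).continuousWithinAt

/-- the parameter near the hole -/
def aa (w : ℂ) : ℝ := cl (w.arg / Real.pi + 1 / 2)
/-- the parameter of the cut problem -/
def kp (w : ℂ) : ℝ := cl (‖w‖ - 2) * w.im
/-- the parameter -/
def gm (w : ℂ) : ℝ := kp w + cl (3 - w.re) * aa w

theorem kp_c : Continuous kp := (cl_c.comp (by fun_prop)).mul continuous_im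
theorem gm_c : ContinuousOn gm slitPlane := kp_c.continuousOn.add
  ((cl_c.comp (by fun_prop)).continuousOn.mul (cl_c.comp_continuousOn
    ((ContinuousOn.div_const (fun w h => (continuousAt_arg h).continuousWithinAt)
      _).add continuousOn_const)))

theorem kp_far {w : ℂ} (h : 3 ≤ |w.re|) : kp w = w.im := by
  rw [kp, cl_1 (by linarith [abs_re_le_norm w]), one_mul]
theorem gm_r {w : ℂ} (h : 3 ≤ w.re) : gm w = w.im := by
  rw [gm, kp_far (h.trans (le_abs_self _)), cl_0 (by linarith), zero_mul, add_zero]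
theorem gm_in {w : ℂ} (h : ‖w‖ < 2) : gm w = aa w := by
  rw [gm, kp, cl_0 (by linarith), cl_1 (by linarith [re_le_norm w]), zero_mul, one_mul, zero_add]
theorem kp_bd (w : ℂ) : |w.im| ≤ |kp w| + 3 := by
  rcases le_total 3 ‖w‖ with h | h
  · rw [kp, cl_1 (by linarith), one_mul]; linarith
  · linarith [abs_im_le_norm w, abs_nonneg (kp w)]
theorem gm_bd (w : ℂ) : |w.im| ≤ |gm w| + 4 := by
  have a := kp_bd w
  have b := cl_m (3 - w.re)
  have c := cl_m (w.arg / Real.pi + 1 / 2)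
  have d : |kp w| ≤ |gm w| + 1 := by
    have := mul_nonneg b.1 c.1
    have := mul_le_one₀ b.2 c.1 c.2
    have := le_abs_self (gm w)
    have := neg_abs_le (gm w)
    rw [gm, aa] at *
    exact abs_le.2 ⟨by linarith, by linarith⟩
  linarith

theorem gm_l {w : ℂ} (h : w.re < 0) :
    gm w = (if kp w ≤ 0 then kp w else kp w + 1) ∨ (gm w = 1 ∧ kp w = 0) := by
  have a : ¬ |w.arg| ≤ Real.pi / 2 := fun a => h.not_ge (abs_arg_le_pi_div_two_iff.1 a)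
  have p := Real.pi_pos
  have b := (cl_m (‖w‖ - 2)).1
  rw [gm, cl_1 (by linarith), one_mul, aa]
  rcases lt_or_ge w.im 0 with i | i
  · have := arg_neg_iff.2 i
    rw [abs_of_neg this] at a
    rw [cl_0 (by
      have : w.arg / Real.pi ≤ -(1 / 2) := by rw [div_le_iff₀ p]; linarith
      linarith), if_pos (show kp w ≤ 0 from mul_nonpos_of_nonneg_of_nonpos b i.le), add_zero]
    exact Or.inl rfl
  · have := arg_nonneg_iff.2 i
    rw [abs_of_nonneg this] at a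
    rw [cl_1 (by
      have : 1 / 2 ≤ w.arg / Real.pi := by rw [le_div_iff₀ p]; linarith
      linarith)]
    have c : 0 ≤ kp w := mul_nonneg b i
    rcases c.eq_or_lt with c | c
    · exact Or.inr ⟨by rw [← c, zero_add], c.symm⟩
    · exact Or.inl (by rw [if_neg c.not_ge])

theorem nrm (w : ℂ) : ‖w‖ ≤ |w.re| + |w.im| := norm_le_abs_re_add_abs_im w

theorem bdd {A : Set (ℂ × I)} {γ : ℂ × I → ℝ} (h : ∀ p ∈ A, ‖p.1‖ ≤ |γ p| + 8) (K : Set ℝ)
    (k : IsCompact K) : ∃ M : ℝ, ∀ p ∈ A, γ p ∈ K → ‖p.1‖ ≤ M :=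
  have ⟨M, m⟩ := k.isBounded.exists_norm_le
  ⟨M + 8, fun p a b => (h p a).trans (by linarith [m _ b, Real.norm_eq_abs (γ p)])⟩

variable {Y B C : Type} [TopologicalSpace Y] [T2Space Y] [NormedAddCommGroup B]
  [NormedSpace ℝ B] [FiniteDimensional ℝ B] [NormedAddCommGroup C] [NormedSpace ℝ C]
  [FiniteDimensional ℝ C] {k : ℕ} {E : Type} [NormedAddCommGroup E] [NormedSpace ℝ E]
  [FiniteDimensional ℝ E] (e : Emb Y B C) {P : Pb (Y × ℝ) k E} {Q : Pb (Y × UnitAddCircle) k E}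

/-- translation of the line -/
theorem tr (h : P.Ok) {c : ℝ} (hc : |c| ≤ 4) :
    (e.pl P univ im re).Bd (e.pl P univ im fun w => w.re - c) := by
  have := e.pl_bd (D := univ) (A := {p | p.1.re - p.2 * c = 0}) (γ := fun p => p.1.im)
    (φ := fun p => p.1.re - p.2 * c) h isOpen_univ (by fun_prop) (by fun_prop)
    (isClosed_eq (by fun_prop) continuous_const) (subset_univ _) (fun _ _ a => a)
    (bdd fun p a => by
      have a : p.1.re = p.2 * c := sub_eq_zero.1 a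
      have := nrm p.1
      rw [a, abs_mul, abs_of_nonneg p.2.2.1] at this
      nlinarith [p.2.2.1, p.2.2.2, abs_nonneg c])
  simpa using this

theorem ag01 (l : P.Lp Q) : Emb.Ag P P 1 0 := fun x y => by
  have a := l x 0 y ⟨le_rfl, zero_le_one⟩
  have b := l x 1 y ⟨zero_le_one, le_rfl⟩
  rw [AddCircle.coe_period] at b
  rw [AddCircle.coe_zero] at a
  exact ⟨b.1.trans a.1.symm, fun u => (b.2 u).trans (a.2 (a.1.2 (b.1.1 u))).symm⟩

theorem ag_cut (l : P.Lp Q) {w : ℂ} (h : w.re < 0) : Emb.Ag P P.cut (gm w) (kp w) := by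
  rcases gm_l h with a | ⟨a, b⟩
  · rw [a]; exact Emb.Ag.rfl' P _
  · rw [a, b]
    have := ag01 l
    rw [← if_pos (le_refl (0 : ℝ)) (t := (0 : ℝ)) (e := 0 + 1)] at this
    exact this

/-- the pants -/
theorem pants (h : P.Ok) (h' : P.cut.Ok) (l : P.Lp Q) :
    (e.pl P {w | w ≠ 0} gm fun w => min (w.re - 4) (‖w‖ - 1)).Bd
      (e.pl P {w | w ≠ 0} gm fun w => min (w.re + 4) (‖w‖ - 1)) := by
  let φ : ℂ × I → ℝ := fun p => min (p.1.re - 4 + 8 * p.2) (‖p.1‖ - 1)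
  have c : Continuous φ := by fun_prop
  have c1 : Continuous fun p : ℂ × I => -|p.1.im| := by fun_prop
  have c2 : Continuous fun p : ℂ × I => p.1.re := by fun_prop
  have z : ∀ p, φ p = 0 → 1 ≤ ‖p.1‖ ∧ |p.1.re| ≤ 4 := fun p a => by
    have := abs_re_le_norm p.1
    rcases min_eq_iff.1 a with b | b
    · exact ⟨by linarith [b.2], abs_le.2 ⟨by linarith [p.2.2.2, b.1], by linarith [p.2.2.1, b.1]⟩⟩
    · exact ⟨by linarith [b.1], by linarith [b.1]⟩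
  have := e.pl_bd2 (D := {p | p.1 ≠ 0}) (D₁ := {p | p.1 ∈ slitPlane}) (D₂ := {p | p.1.re < 0})
    (A := {p | φ p = 0 ∧ -|p.1.im| ≤ p.1.re}) (A' := {p | φ p = 0 ∧ p.1.re ≤ -|p.1.im|})
    (γ := fun p => gm p.1) (γ' := fun p => kp p.1) (φ := φ) h h'
    (Set.ext fun p => ⟨fun a => by
      by_contra b
      simp only [mem_union, mem_ofPred, mem_slitPlane_iff, not_or, not_lt, not_not] at b
      exact a (Complex.ext (b.1.1.antisymm b.2) b.1.2), fun a => a.elim slitPlane_ne_zero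
        fun a b => by simp [show p.1 = 0 from b] at a⟩)
    (isOpen_slitPlane.preimage continuous_fst) (isOpen_lt (by fun_prop) continuous_const)
    (gm_c.comp continuous_fst.continuousOn fun _ a => a) (kp_c.comp continuous_fst).continuousOn
    (fun p a => ag_cut l a) c
    ((isClosed_eq c continuous_const).inter (isClosed_le c1 c2))
    ((isClosed_eq c continuous_const).inter (isClosed_le c2 c1))
    (fun p a => mem_slitPlane_iff.2 (or_iff_not_imp_right.2 fun b => by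
      have b : p.1.im = 0 := not_not.1 b
      have := nrm p.1
      have c := a.2
      rw [b, abs_zero] at this c
      rw [abs_of_nonneg (by linarith)] at this
      linarith [(z p a.1).1]))
    (fun p a => by
      have := nrm p.1
      have c := a.2
      have d := abs_nonneg p.1.im
      rw [abs_of_nonpos (by linarith)] at this
      change p.1.re < 0
      linarith [(z p a.1).1])
    (fun p a => (le_total _ _).imp (fun b => ⟨a, b⟩) fun b => ⟨a, b⟩)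
    (bdd fun p a => by linarith [nrm p.1, gm_bd p.1, (z p a.1).2])
    (bdd fun p a => by linarith [nrm p.1, kp_bd p.1, (z p a.1).2])
  convert this using 4 <;> simp
  ring

/-- the circle -/
theorem circ (h : Q.Ok) : (e.pl Q {w | w ≠ 0} (fun w => (aa w : UnitAddCircle)) fun w => ‖w‖ - 1).Bd
    (e.pl Q {w | w ≠ 0} ang fun w => Real.log ‖w‖) := by
  let g : ℝ → ℝ := fun t => cl (t / Real.pi + 1 / 2) - t / (2 * Real.pi)
  have p := Real.pi_pos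
  have c : ContinuousOn (fun w : ℂ => g w.arg) {w | w ≠ 0} :=
    arg_c ((cl_c.comp (by fun_prop)).sub (by fun_prop)) (by
      simp only [g]
      rw [neg_div, div_self p.ne', cl_0 (by norm_num), cl_1 (by norm_num)]
      field_simp
      ring)
  have f : ContinuousOn (Prod.fst : ℂ × I → ℂ) {p | p.1 ≠ 0} := continuous_fst.continuousOn
  have := e.pl_bd (D := {p | p.1 ≠ 0}) (A := {p | ‖p.1‖ = 1})
    (γ := fun p => ang p.1 + (((1 - p.2) * g p.1.arg : ℝ) : UnitAddCircle))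
    (φ := fun p => (1 - p.2) * (‖p.1‖ - 1) + p.2 * Real.log ‖p.1‖) h
    (isOpen_ne.preimage continuous_fst)
    ((ang_on.comp f fun _ a => a).add ((AddCircle.continuous_mk' 1).comp_continuousOn
      (ContinuousOn.mul (by fun_prop) (c.comp f fun _ a => a))))
    (ContinuousOn.add (by fun_prop) (ContinuousOn.mul (by fun_prop) (log_on.comp f fun _ a => a)))
    (isClosed_eq (by fun_prop) continuous_const) (fun p a b => by simp [show p.1 = 0 from b] at a)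
    (fun q a b => by
      have a := norm_pos_iff.2 a
      have u := q.2.2.1
      have v := q.2.2.2
      by_contra n
      rcases lt_or_gt_of_ne n with n | n
      · have := Real.log_neg a n
        rcases u.eq_or_lt with u | u <;> nlinarith
      · have := Real.log_pos n
        rcases u.eq_or_lt with u | u <;> nlinarith)
    fun K _ => ⟨1, fun p a _ => a.le⟩
  convert this using 3 <;> simp
  rw [ang, ← AddCircle.coe_add]
  simp [g, aa]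

/-- exchange of the coordinates -/
def sw : ℂ ≃ₜ ℂ :=
  ⟨⟨fun w => w.im + w.re * Complex.I, fun w => w.im + w.re * Complex.I,
    fun w => Complex.ext (by simp) (by simp), fun w => Complex.ext (by simp) (by simp)⟩,
    by fun_prop, by fun_prop⟩

end Pn

open Pn in
/-- **the pair of pants** -/
theorem pan : PAN := by
  intro m J Y B C _ _ _ _ _ _ _ _ e hd l c hl hc k S P Q hk hP hC hQ lp
  have d : finrank ℝ (B × ℂ) = m + finrank ℝ (C × ℝ) := by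
    simp only [finrank_prod, Complex.finrank_real_complex, finrank_self]; omega
  have g := gq hk
  have a := adm d k S.E
  have bd := J.bd _ _ _ g a
  obtain ⟨s, hs⟩ := J.iso _ _ _ _ _ g a a
    ⟨((Homeomorph.refl B).prodCongr sw).prodCongr (Homeomorph.refl _), fun _ _ => rfl⟩
    ⟨.refl ℝ _, fun _ _ => rfl⟩
  have L : ∀ R : Pb (Y × ℝ) k S.E, R.Ok → l.inv J k S R = s • J.ν _ _ _ (e.pl R univ im re) :=
    fun R r => by
      rw [← hs _ (tr e r (c := 0) (by simp)).1]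
      refine congrArg (J.ν _ _ _) (congrArg₂ PB.mk (Set.ext fun z => ?_) (funext fun z => ?_))
      · obtain ⟨⟨b, w⟩, y⟩ := z
        change _ ∧ _ ↔ (b ∈ e.Ω ∧ True) ∧ ((e.π b, (sw w).im), y) ∈ R.O
        rw [hl.Ω, hl.π, and_true, show (sw w).im = w.re by simp [sw]]
        rfl
      · obtain ⟨⟨b, w⟩, y⟩ := z
        change (l.n _, R.h (l.π _, y)) = ((e.n b, (sw w).re), R.h ((e.π b, (sw w).im), y))
        rw [hl.n, hl.π]
        simp [sw]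
  have Cc : c.inv J k S Q = J.ν _ _ _ (e.pl Q {w | w ≠ 0} ang fun w => Real.log ‖w‖) :=
    congrArg (J.ν _ _ _) (congrArg₂ PB.mk (Set.ext fun z => by
      change _ ∧ _ ↔ _; rw [hc.Ω, hc.π]; rfl)
      (funext fun z => by rw [hc.n, hc.π]))
  have p := pants e hP hC lp
  have t₁ := tr e hP (c := 4) (by norm_num)
  have t₂ := tr e hC (c := -4) (by norm_num)
  have q := circ e hQ
  have ne : ∀ w : ℂ, 3 < |w.re| → w ≠ 0 := fun w h e => by norm_num [e] at h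
  have o₁ := e.pl_on p.1 t₁.2.1 (U := {w | 3 < w.re}) (isOpen_lt continuous_const continuous_re)
    (fun w h => ⟨ne w (h.trans_le (le_abs_self _)), trivial,
      by rw [gm_r h.le]; exact Emb.Ag.rfl' _ _, min_eq_left (by linarith [re_le_norm w])⟩)
    fun w _ h => by change 3 < w.re; linarith
  have o₂ := e.pl_on p.2.1 t₂.2.1 (U := {w | w.re < -3}) (isOpen_lt continuous_re continuous_const)
    (fun w h => have u : 3 < |w.re| := lt_abs.2 (Or.inr (by linarith [h.out]))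
      ⟨ne w u, trivial, by rw [← kp_far u.le]; exact ag_cut lp (by linarith [h.out]), by
        rw [min_eq_left (by linarith [abs_re_le_norm w, h.out]), sub_neg_eq_add]⟩)
    fun w _ h => by change w.re < -3; linarith
  have o₃ := e.pl_on p.2.1 q.1 (U := {w | w ≠ 0 ∧ ‖w‖ < 2})
    (isOpen_ne.inter (isOpen_lt continuous_norm continuous_const))
    (fun w h => ⟨h.1, h.1, by rw [gm_in h.2]; exact fun x y => lp x _ y (cl_m _),
      min_eq_right (by linarith [abs_re_le_norm w, neg_abs_le w.re, h.2])⟩)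
    fun w u h => ⟨u, by linarith⟩
  have o₀ := (PB.on_le (e.pl_z (P := P) (γ := gm) (D := {w | w ≠ 0}) (U := {w | 3 < w.re})
    (φ := fun w => min (w.re - 4) (‖w‖ - 1)) fun w _ h => by
      rw [min_eq_left (by linarith [re_le_norm w])] at h
      change 3 < w.re
      linarith)).hb o₁.1 p.1
  have sm := J.sum _ _ _ g a _ _ _ p.2.1 o₂.1 o₃.1 (disjoint_left.2 fun z u v => by
      have u : z.1.2.re < -3 := u
      linarith [abs_re_le_norm z.1.2, neg_abs_le z.1.2.re, v.2])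
    (e.pl_z (U := {w | w.re < -3} ∪ {w | w ≠ 0 ∧ ‖w‖ < 2}) fun w u h => by
      rcases min_eq_iff.1 h with b | b
      · exact Or.inl (by change w.re < -3; linarith [b.1])
      · exact Or.inr ⟨u, by linarith [b.1]⟩)
  rw [L P hP, L _ hC, Cc, bd _ _ t₁, bd _ _ t₂, ← bd _ _ o₁, bd _ _ o₀, bd _ _ p, sm, bd _ _ o₂,
    bd _ _ o₃, bd _ _ q]
  rcases Int.units_eq_one_or s with rfl | rfl
  · exact Or.inl (by rw [one_smul, one_smul, add_sub_cancel_left])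
  · exact Or.inr (by rw [Units.neg_smul, Units.neg_smul, one_smul, one_smul]; abel)

end Crest.Agent.N218.In

end
end

-- ▼ part N218/In/Cst
section

/-! # Row 218, block INST (helper21): constant loops bound -/

set_option autoImplicit false

open Set Topology Module unitInterval

noncomputable section

namespace Crest.Agent.N218.In

open K Pm

variable {B C : Type} [NormedAddCommGroup B] [NormedSpace ℝ B] [FiniteDimensional ℝ B]
  [NormedAddCommGroup C] [NormedSpace ℝ C] [FiniteDimensional ℝ C] {k : ℕ} {E : Type}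
  [NormedAddCommGroup E] [NormedSpace ℝ E] [FiniteDimensional ℝ E]

/-- a problem times a moving plane curve -/
def xc (F : PB (XX B k E).ls (XX C k E)) (W : Set (ℂ × I)) (φ : ℂ × I → ℝ) :
    PB (XX (B × ℂ) k E).ls.cy (XX (C × ℝ) k E) :=
  PB.fam {z : ((B × ℂ) × V k E) × I | (z.1.1.1, z.1.2) ∈ F.O ∧ (z.1.1.2, z.2) ∈ W}
    fun z : ((B × ℂ) × V k E) × I =>
      (((F.f (z.1.1.1, z.1.2)).1, φ (z.1.1.2, z.2)), (F.f (z.1.1.1, z.1.2)).2)

theorem xc_ok {F : PB (XX B k E).ls (XX C k E)} (h : F.Fr) {W : Set (ℂ × I)} {φ : ℂ × I → ℝ}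
    (o : IsOpen W) (c : ContinuousOn φ W) (z : IsCompact {w ∈ W | φ w = 0}) :
    (xc F W φ).Ok (Prod.fst ⁻¹' (XX (B × ℂ) k E).ls.fr) := by
  have a : Continuous fun z : ((B × ℂ) × V k E) × I => ((z.1.1.1, z.1.2) : B × V k E) := by fun_prop
  have b : Continuous fun z : ((B × ℂ) × V k E) × I => (z.1.1.2, z.2) := by fun_prop
  have f : ContinuousOn (fun z : ((B × ℂ) × V k E) × I => (F.f (z.1.1.1, z.1.2) : C × V k E))
      {z | (z.1.1.1, z.1.2) ∈ F.O ∧ (z.1.1.2, z.2) ∈ W} := h.ct.comp a.continuousOn fun _ u => u.1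
  refine PB.fam_ok ((h.op.preimage a).inter (o.preimage b))
    (fun g x t u => ⟨h.inv g (x.1.1, x.2) u.1, u.2⟩)
    ((f.fst.prodMk (c.comp b.continuousOn fun _ u => u.2)).prodMk f.snd) (fun g x t u => ?_) ?_
    fun x t u v g e => h.fr (a := (x.1.1, x.2)) ⟨u.1, Prod.ext (congrArg (·.1.1) v)
      (congrArg (·.2) v)⟩ g (Prod.ext rfl (congrArg (·.2) e))
  · have := h.eq g (x.1.1, x.2) u.1
    exact Prod.ext (Prod.ext (congrArg (·.1) this) rfl) (congrArg (·.2) this)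
  · have := (h.cp.prod z).image (f := fun p : (B × V k E) × ℂ × I =>
      ((((p.1.1, p.2.1), p.1.2), p.2.2) : ((B × ℂ) × V k E) × I)) (by fun_prop)
    refine (congrArg IsCompact (Set.ext fun p => Iff.intro ?_ ?_)).mp this
    swap
    · exact fun ⟨u, v⟩ => ⟨((p.1.1.1, p.1.2), (p.1.1.2, p.2)), ⟨⟨u.1, Prod.ext
        (congrArg (·.1.1) v) (congrArg (·.2) v)⟩, u.2, congrArg (·.1.2) v⟩, rfl⟩
    rintro ⟨q, ⟨⟨u, v⟩, u', v'⟩, rfl⟩
    exact ⟨⟨u, u'⟩, Prod.ext (Prod.ext (congrArg (·.1) v) v') (congrArg (·.2) v)⟩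

theorem lg_lo (w : ℂ) : -1 < Real.log (max ‖w‖ (1 / 2)) := by
  have := Real.log_le_log (by norm_num) (le_max_right ‖w‖ (1 / 2))
  rw [one_div, Real.log_inv] at this
  rw [one_div]
  linarith [Real.log_two_lt_d9]

theorem cst : CST := fun {m} J Y B C _ _ _ _ _ _ _ _ e hd c hc k S P hk h => by
  have d : finrank ℝ (B × ℂ) = m + finrank ℝ (C × ℝ) := by
    simp only [finrank_prod, Complex.finrank_real_complex, finrank_self]; omega
  have F := e.pb_fr h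
  have p : ∀ w : ℂ, 0 < max ‖w‖ (1 / 2) := fun w => lt_max_of_lt_right (by norm_num)
  have ct : Continuous fun w : ℂ × I => Real.log (max ‖w.1‖ (1 / 2)) + w.2 :=
    ((continuous_fst.norm.max continuous_const).log fun w => (p w.1).ne').add
      (continuous_subtype_val.comp continuous_snd)
  have one : ∀ w : ℂ, Real.log (max ‖w‖ (1 / 2)) = 0 → ‖w‖ = 1 := fun w z => by
    rcases max_eq_iff.1 (Real.eq_one_of_pos_of_log_eq_zero (p w) z) with a | a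
    exacts [a.1, by norm_num at a]
  have H := xc_ok F (W := {w | 1 / 2 < ‖w.1‖ ∨ 0 < (w.2 : ℝ)})
    (φ := fun w => Real.log (max ‖w.1‖ (1 / 2)) + w.2)
    ((isOpen_lt continuous_const continuous_fst.norm).union
      (isOpen_lt continuous_const (continuous_subtype_val.comp continuous_snd))) ct.continuousOn (by
      refine ((isCompact_closedBall (0 : ℂ) 1).prod isCompact_univ).of_isClosed_subset ?_
        fun w u => ⟨mem_closedBall_zero_iff.2 ((le_max_left _ _).trans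
          ((Real.log_nonpos_iff (p w.1).le).1 (by linarith [u.2, w.2.2.1]))), trivial⟩
      convert isClosed_eq ct continuous_const using 1
      ext w
      refine ⟨fun u => u.2, fun u => ⟨or_iff_not_imp_right.2 fun z => ?_, u⟩⟩
      have : (w.2 : ℝ) = 0 := le_antisymm (not_lt.1 z) w.2.2.1
      rw [one w.1 (by simpa [this] using u)]; norm_num)
  have G := xc_ok F (W := {w | w.1 ≠ 0}) (φ := fun w => Real.log ‖w.1‖)
    (isOpen_ne.preimage continuous_fst) (log_on.comp continuousOn_fst fun _ u => u) (by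
      convert (isCompact_sphere (0 : ℂ) 1).prod (isCompact_univ (X := I)) using 1
      ext w
      refine ⟨fun u => ⟨mem_sphere_zero_iff_norm.2 ((log_zero u.1).1 u.2), trivial⟩, fun u => ?_⟩
      have a := mem_sphere_zero_iff_norm.1 u.1
      exact ⟨fun z => by simp [show w.1 = 0 from z] at a, by rw [a, Real.log_one]⟩)
  have E0 : c.pb (P.pull Prod.fst) =
      (xc (e.pb P) {w | w.1 ≠ 0} fun w => Real.log ‖w.1‖).sl (0 : I) := by
    unfold Emb.pb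
    simp only [hc.Ω, hc.π, hc.n]
    congr 1
    ext z
    exact ⟨fun u => ⟨⟨u.1.1, u.2⟩, u.1.2⟩, fun u => ⟨⟨u.1.1, u.2⟩, u.1.2⟩⟩
  rw [Emb.inv, E0]
  refine (J.bd _ _ _ (gq hk) (adm d k S.E) _ _ ⟨G.sl 0, H.sl 1, _, H, ⟨fun z u => ⟨u.1, ?_⟩,
    fun z u => ?_, fun z u => ⟨u.1.1, .inl ?_⟩⟩, PB.Le.rfl' _⟩).trans
    (J.emp _ _ _ (gq hk) (adm d k S.E) _ (H.sl 1) (eq_empty_of_forall_notMem fun z u => ?_))
  · have : 1 / 2 < ‖z.1.2‖ := u.2.resolve_right (lt_irrefl _)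
    exact norm_pos_iff.1 (by linarith)
  · have : 1 / 2 < ‖z.1.2‖ := u.2.resolve_right (lt_irrefl _)
    exact Prod.ext (Prod.ext rfl ((add_zero _).trans (congrArg _ (max_eq_left this.le)))) rfl
  · have : ‖z.1.2‖ = 1 := (log_zero u.1.2).1 (congrArg (·.1.2) u.2)
    change 1 / 2 < ‖z.1.2‖
    rw [this]; norm_num
  · have : Real.log (max ‖z.1.2‖ (1 / 2)) + 1 = 0 := congrArg (·.1.2) u.2
    linarith [lg_lo z.1.2]

end Crest.Agent.N218.In

end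
end

-- ▼ part N218/En/End

/-! # Row 218, END wrapper (helper92): the glue -/

set_option autoImplicit false
set_option linter.unusedVariables false
set_option linter.unusedSectionVars false

open Set Topology Module
open scoped InnerProductSpace

noncomputable section

namespace Crest.Agent.N218.En
open Pm Sk

section lin
variable {F E F' E' : Type} [NormedAddCommGroup F] [InnerProductSpace ℝ F] [NormedAddCommGroup E]
  [InnerProductSpace ℝ E] [NormedAddCommGroup F'] [InnerProductSpace ℝ F'] [NormedAddCommGroup E']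
  [InnerProductSpace ℝ E']

theorem P2_ext {v w : P2 F E} (a : v.fst = w.fst) (b : v.snd = w.snd) : v = w :=
  (WithLp.ofLp_injective 2) (Prod.ext a b)

theorem P2_inner (v w : P2 F E) : ⟪v, w⟫_ℝ = ⟪v.fst, w.fst⟫_ℝ + ⟪v.snd, w.snd⟫_ℝ :=
  WithLp.prod_inner_apply v w

theorem op_one : Op (1 : F →L[ℝ] F) := ⟨fun _ => rfl, fun _ _ => rfl⟩
theorem op_zero : Op (0 : F →L[ℝ] F) := ⟨fun _ => rfl, fun _ _ => by simp⟩
theorem Op.pm {p : F →L[ℝ] F} {q : E →L[ℝ] E} (a : Op p) (b : Op q) : Op (pm p q) :=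
  ⟨fun v => P2_ext (a.id _) (b.id _), fun v w => by
    simp only [P2_inner, pm_fst, pm_snd, a.sy, b.sy]⟩

theorem cont_pm {B : Type} [TopologicalSpace B] {A : B → F →L[ℝ] F'} {A' : B → E →L[ℝ] E'}
    (a : Continuous A) (b : Continuous A') : Continuous fun x => pm (A x) (A' x) := by
  unfold pm
  refine continuous_const.clm_comp (Continuous.clm_comp ?_ continuous_const)
  exact (ContinuousLinearMap.prodMapL ℝ F F' E E').continuous.comp (a.prodMk b)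

theorem rk_P2 [FiniteDimensional ℝ F] [FiniteDimensional ℝ E] :
    finrank ℝ (P2 F E) = finrank ℝ F + finrank ℝ E :=
  (WithLp.linearEquiv 2 ℝ (F × E)).finrank_eq.trans finrank_prod

theorem rk_pm [FiniteDimensional ℝ F] [FiniteDimensional ℝ E] (p : F →L[ℝ] F) (q : E →L[ℝ] E) :
    finrank ℝ (LinearMap.range (pm p q : P2 F E →ₗ[ℝ] P2 F E)) =
      finrank ℝ (LinearMap.range (p : F →ₗ[ℝ] F)) + finrank ℝ (LinearMap.range (q : E →ₗ[ℝ] E)) := by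
  rw [← finrank_prod]
  refine LinearEquiv.finrank_eq (LinearEquiv.ofBijective (LinearMap.prod
    (((WithLp.fstₗ 2 ℝ F E).domRestrict _).codRestrict _ ?_)
    (((WithLp.sndₗ 2 ℝ F E).domRestrict _).codRestrict _ ?_)) ⟨fun v w h => ?_, ?_⟩)
  · rintro ⟨_, v, rfl⟩; exact ⟨v.fst, rfl⟩
  · rintro ⟨_, v, rfl⟩; exact ⟨v.snd, rfl⟩
  · exact Subtype.ext (P2_ext (congrArg (fun x => x.1.1) h) (congrArg (fun x => x.2.1) h))
  · rintro ⟨⟨_, a, rfl⟩, ⟨_, b, rfl⟩⟩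
    exact ⟨⟨_, WithLp.toLp 2 (a, b), rfl⟩, rfl⟩

/-- first inclusion -/
def il : E →L[ℝ] P2 E E' :=
  ((WithLp.prodContinuousLinearEquiv 2 ℝ E E').symm : E × E' →L[ℝ] P2 E E').comp
    (ContinuousLinearMap.inl ℝ E E')

theorem Fr.st {B : Type} [TopologicalSpace B] {P : B → F →L[ℝ] F} {ι : B → F' →L[ℝ] F}
    {ι' : B → F →L[ℝ] F'} (h : Fr P ι ι') :
    Fr (fun b => pm (P b) (pm (1 : E →L[ℝ] E) (0 : E' →L[ℝ] E'))) (fun b => pm (ι b) il)
      (fun b => pm (ι' b) (WithLp.fstL 2 ℝ E E')) :=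
  ⟨cont_pm h.ic continuous_const, cont_pm h.ic' continuous_const, fun b z v => by
    simp only [P2_inner, pm_fst, pm_snd, h.ad]
    congr 1
    change ⟪z.snd, v.snd.fst⟫_ℝ + ⟪(0 : E'), v.snd.snd⟫_ℝ = ⟪z.snd, v.snd.fst⟫_ℝ
    simp, fun b z => P2_ext (h.li _ _) rfl, fun b v => P2_ext (h.ri _ _) rfl⟩
end lin

theorem endt_of (hGF : GF) (hDG : DG) (hTRL : TRL) (hJET : JET) (hSTA : STA) (hSTE : STE)
    (hSGN : SGN) (hTRV : TRV) (hWRA : WRA) (hWRB : WRB) (hDIM : DIM) (hCXE : CXE)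
    (hDYN : Rd.DYN) (hRED : Rd.RED) : ENDT := by
  intro T k hk Φ M c B ξ γ gr zz k' rs hD hK
  have k16 : 16 ≤ k := by omega
  have k1 : 1 ≤ k := by omega
  obtain ⟨G, G₁, oG, o₁, d₁, zc, e₁⟩ := hDG Φ M c B ξ γ gr zz k' rs hD hK
  obtain ⟨G', G₂, oG', o₂, q₂, e₂⟩ := hJET _ _ G₁ o₁ d₁
  obtain ⟨P, a, n₂⟩ := hSGN _ _ G₂.H q₂.ct q₂.sy q₂.inj
  obtain ⟨l, m, ι, ι', f₃⟩ := hTRV _ P n₂.ct n₂.op
  obtain ⟨o₃, q₃, n₃⟩ := hSTA _ _ G₂ o₂ (C.Eu l) 1 op_one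
  replace q₃ := q₃ q₂
  replace n₃ := n₃ P a n₂
  set G₃ := G₂.st (1 : C.Eu l →L[ℝ] C.Eu l) with hG₃
  have rk : finrank ℝ (LinearMap.range G₃.p₁.toLinearMap) = m := by
    obtain ⟨ε, p, h⟩ := hWRA _ _ G₃ o₃ _ _ _ ι ι' q₃ n₃ f₃
    obtain ⟨t, t', η, κ, R₁, o⟩ := hDYN _ _ _ _ _ _ _ _ (h ε p le_rfl)
    obtain ⟨x⟩ : Nonempty S11 := ⟨⟨Φ.e, by simpa using Φ.e_unit⟩⟩
    exact (hDIM _ _ _ _ _ _ _ _ _ _ x o o₃.o₁.id (f₃.li x)).trans (by simp)
  set N := finrank ℝ (P2 (C.Fb (C.Eu M)) (C.Eu l)) with hN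
  have oπ : Op (pm (1 : C.Eu m →L[ℝ] C.Eu m) (0 : C.Eu (N + m) →L[ℝ] C.Eu (N + m))) :=
    op_one.pm op_zero
  obtain ⟨o₄, q₄, n₄⟩ := hSTA _ _ G₃ o₃ _ _ oπ
  replace q₄ := q₄ q₃
  replace n₄ := n₄ _ _ n₃
  have f₄ := f₃.st (E := C.Eu m) (E' := C.Eu (N + m))
  set G₄ := G₃.st (pm (1 : C.Eu m →L[ℝ] C.Eu m) (0 : C.Eu (N + m) →L[ℝ] C.Eu (N + m))) with hG₄
  obtain ⟨n₁, u₁, π₁, a₁, b₁, c₁⟩ := hCXE _ G₄.p₁ o₄.o₁
    ⟨N + m, by rw [rk_P2, ← hN, rk_P2 (F := C.Eu m)]; simp; ring⟩ ⟨m, by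
      change finrank ℝ (LinearMap.range (pm G₃.p₁ _).toLinearMap) = _
      rw [rk_pm, rk_pm, rk, ContinuousLinearMap.one_def, ContinuousLinearMap.coe_id,
        LinearMap.range_id, finrank_top, ContinuousLinearMap.coe_zero, LinearMap.range_zero]
      simp⟩
  obtain ⟨n₂', u₂, π₂, a₂, b₂, c₂⟩ := hCXE (P2 (C.Eu m) (C.Eu m)) 1 op_one
    ⟨m, by rw [rk_P2]; simp⟩ ⟨m, by
      rw [ContinuousLinearMap.one_def, ContinuousLinearMap.coe_id, LinearMap.range_id, finrank_top,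
        rk_P2]; simp⟩
  obtain ⟨ε₁, p₁, g₁⟩ := hGF _ _ G oG k k1
  obtain ⟨ε₂, p₂, g₂⟩ := hGF _ _ G' oG' k k1
  obtain ⟨ε₃, p₃, g₃⟩ := hGF _ _ G₂ o₂ k k1
  obtain ⟨ε₄, p₄, g₄⟩ := hGF _ _ G₃ o₃ k k1
  obtain ⟨ε₅, p₅, g₅⟩ := hWRA _ _ G₄ o₄ _ _ _ _ _ q₄ n₄ f₄
  obtain ⟨ε₆, p₆, g₆⟩ := hWRB _ _ G₄ o₄ _ _ _ _ _ q₄ n₄ f₄ _ T k k16
  refine ⟨min (min (min ε₁ ε₂) (min ε₃ ε₄)) (min (min ε₅ ε₆) (1 / 2)), by positivity,
    fun ε e0 e => ?_⟩
  simp only [le_min_iff] at e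
  obtain ⟨⟨⟨l₁, l₂⟩, l₃, l₄⟩, ⟨l₅, l₆⟩, l₇⟩ := e
  obtain ⟨D, c', κ, R₀, M', oD, r₁, r₂, δ₁, d1, hR⟩ := hRED _ _ _ _ _ _ _ _ (g₅ ε e0 l₅) _ T _ _ u₁ u₂
    (fun _ => π₁) (fun _ => π₂) k ⟨continuous_const, fun _ => a₁, fun _ => b₁⟩
    ⟨continuous_const, fun _ => a₂, fun _ => b₂⟩ (fun _ => c₁)
    (fun x z => (c₂ z).trans (f₄.li x _).symm) k16
  obtain ⟨δ₂, d2, hW⟩ := g₆ ε e0 l₆
  have d0 : 0 < min δ₁ δ₂ / 2 := by positivity
  have dl : min δ₁ δ₂ / 2 < min δ₁ δ₂ := half_lt_self (lt_min d1 d2)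
  refine ⟨n₁, n₂', D, c', κ, R₀, M', _, oD, ⟨fun x x' => by rw [r₁], fun x x' => by rw [r₂]⟩, d0,
    .inl (Pe.symm ((hR _ d0 (dl.trans_le (min_le_left _ _))).2.trans
      ((hW _ d0 (dl.trans_le (min_le_right _ _))).trans ?_)))⟩
  refine (hSTE _ _ _ _ T k (G₃.f ε) _ ε k16 oπ e0 l₇ (g₄ ε e0 l₄).1).trans
    ((hSTE _ _ _ _ T k (G₂.f ε) _ ε k16 op_one e0 l₇ (g₃ ε e0 l₃).1).trans (.inl ?_))
  have s₁ := (g₂ ε e0 l₂).1.pa T k16 (f := G₁.f ε) (g := G₂.f ε) (fun x => (e₂ ε x.1 x.2).1.symm)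
    fun x => (e₂ ε x.1 x.2).2.symm
  have s₂ := (g₁ ε e0 l₁).1.pa T k16 (f := fun x => G.f ε ((x.1, 0), x.2)) (g := G₁.f ε)
    (fun x => rfl) fun x => (e₁ ε x.1 x.2).2.symm
  have s₃ := hTRL _ _ _ T k _ _ k16 zc ((g₁ ε e0 l₁).1.pull (φ := fun x : S11 => (x, 0)) (by fun_prop))
  rw [← s₁, ← s₂, s₃]
  unfold ev
  congr 2
  funext w
  rw [(e₁ ε w.1 _).1]
  simp

end Crest.Agent.N218.En

end
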