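import Crest.Agent.N218.Pm.D5b
import Crest.Agent.N218.Pm.Arc_Mg
import Crest.Agent.N218.Pm.Loop
import Crest.Agent.N218.En.Defs
import Crest.Agent.N218.Sk.Hom
import Crest.Agent.N218.C.Toe

-- ▼ part N218/Pm/Alg
section

/-!
# Row 218, block ALG (helper45): `D5` and `ALG`
-/

set_option autoImplicit false
set_option linter.unusedVariables false
set_option linter.unusedSectionVars false

open Set Topology unitInterval

noncomputable section

namespace Crest.Agent.N218.Pm.Dh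

open Sq

variable {X E₁ E₂ : Type} [TopologicalSpace X] [NormedAddCommGroup E₁] [InnerProductSpace ℂ E₁]
  [NormedAddCommGroup E₂] [InnerProductSpace ℂ E₂] {D : Data X E₁ E₂} {c κ R₀ M : ℝ}

theorem g_sw (D : Data X E₁ E₂) (k : ℕ) : D.G k = SW k {v | (v.1, fun _ => v.2) ∈ (D.G 0).O}
    (fun v => (D.G 0).P (v.1, fun _ => v.2) 0) fun b => (rot (D.π₁ b.1)
      (Real.pi * (1 - cl (b.2 - 2)))).prodMap (rot (D.π₂ b.1) (Real.pi * cl (b.2 - 2))) := by
  unfold Data.G PM.wn SW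
  congr 1
  · ext w
    simp only [Data.path, PM.glue, mem_ofPred_eq]
    split_ifs <;> simp [Data.a₁, Data.a₂, Data.a₃, Data.a₄, s1, s2]
  · funext w i
    simp only [Data.path, PM.glue]
    split_ifs <;> rfl

theorem rot_rot {E : Type} [NormedAddCommGroup E] [InnerProductSpace ℂ E] {π : E →L[ℂ] E}
    (h : ∀ y, π (π y) = π y) (y : E) : rot π Real.pi (rot π Real.pi y) = y := by
  simp only [rot_pi, map_sub, π.map_smul_of_tower, h]; module

theorem pen1 {E : Type} [NormedAddCommGroup E] [InnerProductSpace ℂ E] {π : E →L[ℂ] E}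
    (h : ∀ y, π (π y) = π y) {C : E →L[ℝ] E} {c μ t : ℝ} (hC : ‖C‖ ≤ c) (hc : c < 1) (hμ : 1 < μ)
    (h1 : ∀ y, π (C y) = 0) (ht : t ∈ Icc (0 : ℝ) 1) {v : E}
    (e : t • (v - (C v + μ • π v)) + (1 - t) • rot π Real.pi v = 0) : v = 0 := by
  have a := congrArg π e
  simp only [rot_pi, map_add, map_sub, π.map_smul_of_tower, h, h1, map_zero] at a
  have p : π v = 0 := (smul_eq_zero.1 (show (t * (1 - μ) - (1 - t)) • π v = 0 by
    linear_combination (norm := module) a)).resolve_left fun z => by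
      rcases ht.1.eq_or_lt with rfl | t0
      · norm_num at z
      · nlinarith [mul_pos t0 (sub_pos.2 hμ), ht.2]
  simp only [rot_pi, p, smul_zero, add_zero, sub_zero] at e
  have b : v = t • C v := by linear_combination (norm := module) e
  have n := congrArg norm b
  rw [norm_smul, Real.norm_of_nonneg ht.1] at n
  have := (C.le_opNorm v).trans (mul_le_mul_of_nonneg_right hC (norm_nonneg v))
  exact norm_le_zero_iff.1 (by nlinarith [ht.1, ht.2, norm_nonneg v, norm_nonneg (C v)])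

variable [FiniteDimensional ℂ E₁] [FiniteDimensional ℂ E₂]

theorem pm_cont {T E F : Type} [TopologicalSpace T] [NormedAddCommGroup E] [NormedSpace ℝ E]
    [NormedAddCommGroup F] [NormedSpace ℝ F] {a : T → E →L[ℝ] E} {b : T → F →L[ℝ] F}
    (ha : Continuous a) (hb : Continuous b) : Continuous fun t => (a t).prodMap (b t) :=
  (ContinuousLinearMap.prodMapL ℝ E E F F).continuous.comp (ha.prodMk hb)

theorem rs_cont {T E : Type} [TopologicalSpace T] [NormedAddCommGroup E] [NormedSpace ℂ E]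
    {a : T → E →L[ℂ] E} (ha : Continuous a) : Continuous fun t => (a t).restrictScalars ℝ :=
  (ContinuousLinearMap.restrictScalarsL ℂ E E ℝ ℝ).continuous.comp ha

theorem tvL (hD : D.Ok c κ R₀ M) : Tv (fun x => (1 - (D.C x + D.μ • (D.π₁ x).restrictScalars ℝ)).prodMap
    (1 : E₂ →L[ℝ] E₂)) (fun x => (rot (D.π₁ x) Real.pi).prodMap 1)
    fun b => (rot (D.π₁ b.1) (Real.pi * (1 - b.2))).prodMap 1 :=
  ⟨pm_cont (continuous_const.sub (hD.Cc.add ((rs_cont hD.p₁.ct).const_smul D.μ))) continuous_const,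
    pm_cont (rot_cont hD.p₁.ct continuous_const) continuous_const,
    pm_cont (rot_cont (hD.p₁.ct.comp continuous_fst) (by fun_prop)) continuous_const,
    fun b v e => Prod.ext (rot_inj (hD.p₁.id _) (congrArg Prod.fst e)) (congrArg Prod.snd e :),
    fun x => by simp, fun x => ContinuousLinearMap.ext fun v => Prod.ext (by simp [rot_zero]) rfl,
    fun x v => Prod.ext (rot_rot (hD.p₁.id x) _) rfl, fun x t ht v e => Prod.ext
      (pen1 (hD.p₁.id x) (hD.Cn x) hD.hc hD.hμ (fun y => (hD.Cp x y).1) ht (congrArg Prod.fst e))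
      (by simpa [← add_smul] using congrArg Prod.snd e)⟩

theorem tvR (hD : D.Ok c κ R₀ M) : Tv (fun x => (1 : E₁ →L[ℝ] E₁).prodMap
    (1 - (0 + D.μ • (D.π₂ x).restrictScalars ℝ))) (fun x => (1 : E₁ →L[ℝ] E₁).prodMap
      (rot (D.π₂ x) Real.pi)) fun b => (1 : E₁ →L[ℝ] E₁).prodMap
        (rot (D.π₂ b.1) (Real.pi * (1 - b.2))) :=
  ⟨pm_cont continuous_const (continuous_const.sub (continuous_const.add
      ((rs_cont hD.p₂.ct).const_smul D.μ))),
    pm_cont continuous_const (rot_cont hD.p₂.ct continuous_const),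
    pm_cont continuous_const (rot_cont (hD.p₂.ct.comp continuous_fst) (by fun_prop)),
    fun b v e => Prod.ext (congrArg Prod.fst e :) (rot_inj (hD.p₂.id _) (congrArg Prod.snd e)),
    fun x => by simp, fun x => ContinuousLinearMap.ext fun v => Prod.ext rfl (by simp [rot_zero]),
    fun x v => Prod.ext rfl (rot_rot (hD.p₂.id x) _), fun x t ht v e => Prod.ext
      (by simpa [← add_smul] using congrArg Prod.fst e)
      (pen1 (C := 0) (c := 0) (hD.p₂.id x) (by simp) one_pos hD.hμ (by simp) ht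
        (congrArg Prod.snd e))⟩

variable [CompactSpace X] [T2Space X]

theorem step {A : Type} [AddCommGroup A] (T : Th X A) (hD : D.Ok c κ R₀ M) {δ : ℝ} (hδ : 0 < δ)
    (h : ∀ k, (D.G k).Ok ∧ ∀ x s δ', s ≤ 0 ∨ 6 ≤ s → (D.G k).NoZ δ' (x, s)) {k : ℕ} (hk : 16 ≤ k)
    {n : ℕ} (e : (2 * n) • T.pa k (sp (E₁ × E₂)) ((D.G k).F (tau δ)) = 0) :
    n • T.pa (k + 1) (sp (E₁ × E₂)) ((D.G (k + 1)).F (tau δ)) = 0 := by
  obtain ⟨a, b, ha, hb, s⟩ := pa_pd T hk hδ (h k).1 (tvL hD) (tvR hD)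
    (fun x s m => ⟨(at_wn _ _ _).tr ((p1 x _ _ (by linarith)).tr fun w =>
      ⟨⟨fun _ => trivial, fun _ i => (hD.l₁ x s _ m).1⟩, fun _ => funext fun i =>
        Prod.ext (congrArg ((w i).1 - ·) (hD.l₁ x s _ m).2) rfl⟩), by
      simp only [Data.G, PM.wn, Data.nu, Ln, cl_le (t := s - 2) (by linarith), sub_zero, mul_one,
        mul_zero]
      congr 2; exact ContinuousLinearMap.ext (rot_zero _)⟩)
    fun x s m => ⟨(at_wn _ _ _).tr ((p4 x _ _ (by linarith)).tr fun w =>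
      ⟨⟨fun _ => trivial, fun _ i => (hD.r₂ x (s - 5) _ (by linarith)).1⟩, fun _ => funext fun i =>
        Prod.ext rfl (congrArg ((w i).2 - ·) ((hD.r₂ x (s - 5) _ (by linarith)).2.trans
          (zero_add _).symm))⟩), by
      simp only [Data.G, PM.wn, Data.nu, Ln, cl_ge (t := s - 2) (by linarith), sub_self, mul_one,
        mul_zero]
      congr 2; exact ContinuousLinearMap.ext (rot_zero _)⟩
  have r := T.pa_res k (sp (E₁ × E₂)) (sp ((E₁ × E₂) × E₁ × E₂)) spE.symm _ hk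
    (PM.fok (h (k + 1)).1 (tau_ok hδ) (PM.cs_of 0 6 (fun x s m => (h _).2 x s δ (.inl m.le))
      fun x s m => (h _).2 x s δ (.inr m.le))) fun y => spE.injective (by
        rw [spE.apply_symm_apply, spE_apply, spl_sh, ← spE_apply, spE.apply_symm_apply])
  rw [g_sw D (k + 1), sw_cj, ← g_sw, ← g_sw, s] at r
  have z : n • (a + b) = 0 := by
    rw [mul_comm, mul_smul, two_smul] at e
    rcases ha with rfl | rfl <;> rcases hb with rfl | rfl
    · exact e
    · simp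
    · simp
    · rw [← neg_add, smul_neg, e, neg_zero]
  rcases r with r | r
  · rw [← r, z]
  · rw [← neg_eq_zero, ← smul_neg, ← r, z]

end Dh

/-- **D5** -/
theorem d5h : D5 := by
  intro X _ _ _ A _ T E₁ E₂ _ _ _ _ _ _ D c κ R₀ M k δ hD hk hδ h
  obtain ⟨j, rfl⟩ : ∃ j, k = j + 1 + 1 + 1 + 1 + 1 := ⟨k - 5, by omega⟩
  have e := T.tor j (sp (E₁ × E₂)) _ (by omega) (PM.fok (h j).1 (tau_ok hδ) (PM.cs_of 0 6
    (fun x s m => (h _).2 x s δ (.inl m.le)) fun x s m => (h _).2 x s δ (.inr m.le)))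
  simpa using Dh.step T hD hδ h (n := 1) (by omega) (Dh.step T hD hδ h (n := 2) (by omega)
    (Dh.step T hD hδ h (n := 4) (by omega) (Dh.step T hD hδ h (n := 8) (by omega)
      (Dh.step T hD hδ h (n := 16) (by omega) e))))

/-- **ALG** -/
theorem alg : ALG := alg_of arc d5h loop

end Crest.Agent.N218.Pm

end
end

-- ▼ part N218/En/Dg
section

/-! Row 218, END wrapper (helper7): from the output of block (C) to gradient data. -/

set_option autoImplicit false
open Set Topology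
open scoped InnerProductSpace ContDiff

noncomputable section

namespace Crest.Agent.N218.En
open Pm Sk C

namespace Dg

theorem thick {E : Type*} [NormedAddCommGroup E] {K O : Set E} (hK : IsCompact K) (hO : IsOpen O)
    (h : K ⊆ O) : ∃ δ > 0, ∀ k ∈ K, ∀ u, ‖u - k‖ ≤ δ → u ∈ O := by
  obtain ⟨δ, d, e⟩ := hK.exists_cthickening_subset_open hO h
  exact ⟨δ, d, fun k hk u hu => e (Metric.mem_cthickening_of_dist_le u k δ K hk
    (by rwa [dist_eq_norm]))⟩

theorem tube {T E : Type*} [TopologicalSpace T] [CompactSpace T] [NormedAddCommGroup E]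
    {O : Set (T × E)} (hO : IsOpen O) (h : ∀ t, (t, (0 : E)) ∈ O) :
    ∃ δ > 0, ∀ t v, ‖v‖ ≤ δ → (t, v) ∈ O := by
  obtain ⟨u, v, -, hv, a, b, c⟩ := generalized_tube_lemma isCompact_univ isCompact_singleton hO
    (show (univ : Set T) ×ˢ {(0 : E)} ⊆ O from fun p hp => by
      have := h p.1; rwa [← show p.2 = 0 from hp.2] at this)
  obtain ⟨δ, d, e⟩ := Metric.nhds_basis_closedBall.mem_iff.1 (hv.mem_nhds (b rfl))
  exact ⟨δ, d, fun t w hw => c ⟨a (mem_univ t), e (mem_closedBall_zero_iff.2 hw)⟩⟩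

variable {Z : Type} [NormedAddCommGroup Z] [InnerProductSpace ℝ Z]

/-- the gradient data over `T` -/
def mk {T : Type} (ρ : X × Y → ℝ) (r : X × Y → Y) (B : Z →L[ℝ] Z) (ξ : X × Z → X)
    (γ : X × Fb Z → ℝ) (gr : X × Fb Z → Fb Z) (zz : X → Fb Z) (k : ℝ × X × Y → Y) (σ : T → S11)
    (s : T → ℝ) (b C δ ρ₀ : ℝ) : Gb T (Fb Z) where
  p₁ := pm 0 ((1 / 2 : ℝ) • (1 - B))
  pp := pm 0 ((1 / 2 : ℝ) • (1 + B))
  D := {w | ρ (ξ (σ w.1, (w.2 + zz (σ w.1)).snd), (w.2 + zz (σ w.1)).fst) ≤ b}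
  Rr := fun w => Rt (fun p => k (s w.1, p)) (fun z => ξ (σ w.1, z))
    (Rt r (fun z => ξ (σ w.1, z)) (w.2 + zz (σ w.1))) - zz (σ w.1)
  g := fun w => (1 / 2 * ⟪B (w.2 + zz (σ w.1)).snd, (w.2 + zz (σ w.1)).snd⟫_ℝ +
    γ (σ w.1, w.2 + zz (σ w.1))) - (1 / 2 * ⟪B (zz (σ w.1)).snd, (zz (σ w.1)).snd⟫_ℝ +
    γ (σ w.1, zz (σ w.1)))
  gr := fun w => Bz B (w.2 + zz (σ w.1)) + gr (σ w.1, w.2 + zz (σ w.1))
  H := fun t => Toe.BL B + (fderiv ℝ gr (σ t, zz (σ t))).comp (ContinuousLinearMap.inr ℝ X (Fb Z))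
  C := C
  δ := δ
  ρ := ρ₀

theorem op_pm {π : Z →L[ℝ] Z} (h : Op π) : Op (pm (0 : Y →L[ℝ] Y) π) :=
  ⟨fun v => Fb.ext rfl (h.id _), fun v w => by simp [WithLp.prod_inner_apply, pm_apply, h.sy]⟩

variable [CompleteSpace Z] {ρ : X × Y → ℝ} {r : X × Y → Y} {w R c : ℝ} {B : Z →L[ℝ] Z}
  {ξ : X × Z → X} {γ : X × Fb Z → ℝ} {gr : X × Fb Z → Fb Z} {zz : X → Fb Z}
  {k rs : ℝ × X × Y → Y}

theorem n1 (x : S11) : ‖(x : X)‖ = 1 := mem_sphere_zero_iff_norm.1 x.2

theorem one (h : Dyn ρ r w c B ξ γ gr zz) (x : S11) : One ρ r w c (fun z => ξ (x, z))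
    (fun p => 1 / 2 * ⟪B p.snd, p.snd⟫_ℝ + γ (x, p)) (fun p => Bz B p + gr (x, p)) := by
  simpa only [one_smul, one_mul] using
    h.one x 1 1 (n1 x) ⟨zero_le_one, le_rfl⟩ ⟨zero_le_one, le_rfl⟩ (Or.inr rfl)

theorem cz (h : Dyn ρ r w c B ξ γ gr zz) : Continuous fun x : S11 => zz x :=
  h.zc.domRestrict

theorem lx (h : Dyn ρ r w c B ξ γ gr zz) (x : S11) (a b : Fb Z) :
    ‖((ξ (x, a.snd), a.fst) : X × Y) - (ξ (x, b.snd), b.fst)‖ ≤ (|c| + 1) * ‖a - b‖ := by
  have f1 := WithLp.norm_fst_le (p := 2) Y (a - b)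
  have f2 := WithLp.norm_snd_le (p := 2) Y (a - b)
  have f3 := ((one h x).lx a.snd b.snd).trans (mul_le_mul (le_abs_self c) f2 (norm_nonneg _)
    (abs_nonneg c))
  rw [Prod.norm_def]
  refine max_le (f3.trans ?_) (le_trans f1 ?_) <;> nlinarith [norm_nonneg (a - b), abs_nonneg c]

theorem cpt (H : Ret ρ r w R) {b : ℝ} (hb : b ≤ w) : IsCompact {u : X × Y | ‖u.1‖ = 1 ∧ ρ u ≤ b} :=
  ((isCompact_sphere (0 : X) 1).prod (isCompact_closedBall (0 : Y) R)).of_isClosed_subset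
    ((isClosed_eq continuous_fst.norm continuous_const).inter (isClosed_le H.ρc continuous_const))
    fun u hu => ⟨mem_sphere_zero_iff_norm.2 hu.1,
      mem_closedBall_zero_iff.2 (H.bl u.1 u.2 hu.1 (hu.2.trans hb)).le⟩

/-- a margin around a compact sublevel set -/
theorem mar (h : Dyn ρ r w c B ξ γ gr zz) (H : Ret ρ r w R) {b : ℝ} (hb : b ≤ w) {O : Set (X × Y)}
    (hO : IsOpen O) (e : ∀ u : X × Y, ‖u.1‖ = 1 → ρ u ≤ b → u ∈ O) : ∃ δ > 0, ∀ (x : S11)
      (p p' : Fb Z), ρ (ξ (x, p.snd), p.fst) ≤ b → ‖p' - p‖ ≤ δ → (ξ (x, p'.snd), p'.fst) ∈ O := by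
  obtain ⟨δ, d, m⟩ := thick (cpt H hb) hO fun u hu => e u hu.1 hu.2
  refine ⟨δ / (|c| + 1), by positivity, fun x p p' a b => m (ξ (x, p.snd), p.fst)
    ⟨(one h x).un p.snd, a⟩ (ξ (x, p'.snd), p'.fst) ((lx h x p' p).trans ?_)⟩
  rwa [le_div_iff₀' (by positivity)] at b

theorem ok (h : Dyn ρ r w c B ξ γ gr zz) (K : Kf ρ r w c ξ γ k rs) (H : Ret ρ r w R) {T : Type}
    [TopologicalSpace T] {σ : T → S11} {s : T → ℝ} (hσ : Continuous σ) (hs : Continuous s)
    (s1 : ∀ t, s t ∈ Icc (0 : ℝ) 1) {b N δ ρ₀ : ℝ} (b0 : 0 ≤ b) (b1 : b ≤ w / 2)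
    (b2 : b = w / 2 ∨ ∀ t, s t = 1) (hN : ∀ x : S11, ‖zz x‖ ≤ N) (N0 : 0 ≤ N) (d0 : 0 < δ)
    (r0 : 0 < ρ₀) (hd : ∀ (x : S11) (p p' : Fb Z), ρ (ξ (x, p.snd), p.fst) ≤ w / 2 →
      ‖p' - p‖ ≤ δ → ρ (ξ (x, p'.snd), p'.fst) ≤ w)
    (hr : ∀ (x : S11) v, ‖v‖ ≤ 2 * ρ₀ → ρ (ξ (x, (v + zz x).snd), (v + zz x).fst) ≤ 0) :
    (mk ρ r B ξ γ gr zz k σ s b (2 * |c| + |R| + N + ρ₀) δ ρ₀).Ok := by
  have c0 := abs_nonneg c
  have c1 := le_abs_self c
  have R0 := abs_nonneg R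
  have R1 := le_abs_self R
  have w0 := H.w0
  have un := fun x : S11 => (one h x).un
  have z1 : Continuous fun u : T × Fb Z => zz (σ u.1) := (cz h).comp (hσ.comp continuous_fst)
  have z2 : Continuous fun u : T × Fb Z => u.2 + zz (σ u.1) := continuous_snd.add z1
  have x1 : Continuous fun u : T × Fb Z => (σ u.1 : X) :=
    continuous_subtype_val.comp (hσ.comp continuous_fst)
  have y1 := (WithLp.continuous_fst 2 Y Z).comp z2
  have y2 := (WithLp.continuous_snd 2 Y Z).comp z2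
  have y3 := (WithLp.continuous_snd 2 Y Z).comp z1
  have x2 := h.sx.continuous.comp (x1.prodMk y2)
  have id' : ∀ (t : T) (v : Fb Z), ρ (ξ (σ t, (v + zz (σ t)).snd), (v + zz (σ t)).fst) ≤ 0 →
      (mk ρ r B ξ γ gr zz k σ s b (2 * |c| + |R| + N + ρ₀) δ ρ₀).Rr (t, v) = v := fun t v e => by
    have a : Rt r (fun z => ξ (σ t, z)) (v + zz (σ t)) = v + zz (σ t) :=
      Fb.ext (H.fix _ _ (un _ _) e) rfl
    refine sub_eq_iff_eq_add.2 ?_
    rw [a]
    exact Fb.ext (K.kf _ _ _ (un _ _) e) rfl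
  refine ⟨op_pm ⟨fun v => ?_, fun v u => ?_⟩, op_pm ⟨fun v => ?_, fun v u => ?_⟩,
    fun v => ⟨Fb.ext rfl ?_, Fb.ext rfl ?_⟩, by simp only [mk]; linarith, d0, r0,
    by simp only [mk]; linarith, isClosed_le (H.ρc.comp (x2.prodMk y1)) continuous_const,
    fun u hu => ?_, ?_, fun u => ?_, fun u => Fb.ext rfl (by simp [mk]; module),
    fun u => Fb.ext rfl (by simp [mk]; module), ?_, ((cont_Bz B).comp z2).add
      (h.sr.continuous.comp (x1.prodMk z2)), fun t v => ?_, fun u => ?_, fun t v v' => ?_,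
    fun t v v' a e => ?_, fun u => ?_, fun u a e => ?_,
    fun u a => ⟨(hr _ _ a).trans b0, id' _ _ (hr _ _ a)⟩, fun t => ⟨by simp [mk], ?_⟩⟩
  · simp [h.sq]; module
  · simp [inner_sub_left, inner_sub_right, inner_smul_left, inner_smul_right, h.sy]
  · simp [h.sq]; module
  · simp [inner_add_left, inner_add_right, inner_smul_left, inner_smul_right, h.sy]
  · simp [mk, h.sq]; module
  · simp [mk, h.sq]; module
  · have e : u.2 - (pm 0 ((1 / 2 : ℝ) • (1 - B))) u.2 - (pm 0 ((1 / 2 : ℝ) • (1 + B))) u.2 =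
        WithLp.toLp 2 ((u.2 + zz (σ u.1)).fst - (zz (σ u.1)).fst, 0) :=
      Fb.ext (by simp) (by simp; module)
    have a := H.bl _ _ (un _ _) (le_trans hu (by linarith : b ≤ w))
    have d := (WithLp.norm_fst_le (p := 2) Y (zz (σ u.1))).trans (hN _)
    simp only [mk]
    rw [e, WithLp.norm_toLp_fst]
    linarith [norm_sub_le (u.2 + zz (σ u.1)).fst (zz (σ u.1)).fst]
  · exact ((WithLp.prod_continuous_toLp 2 Y Z).comp ((K.kc.comp ((hs.comp continuous_fst).prodMk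
      (x2.prodMk (H.rs.continuous.comp (x2.prodMk y1))))).prodMk y2)).sub z1
  · have a := H.half _ (u.2 + zz (σ u.1)).fst (un (σ u.1) (u.2 + zz (σ u.1)).snd)
    have d := K.kr _ (s1 u.1) _ _ (un _ _) (a.trans (by linarith))
    simp only [mk, mem_ofPred_eq, sub_add_cancel, Rt_fst, Rt_snd]
    rw [d]
    rcases b2 with e | e
    · linarith [mul_nonneg (s1 u.1).1 (le_max_right (ρ (ξ (σ u.1, (u.2 + zz (σ u.1)).snd),
        r (ξ (σ u.1, (u.2 + zz (σ u.1)).snd), (u.2 + zz (σ u.1)).fst))) 0)]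
    · rw [e, one_mul]
      linarith [le_max_left (ρ (ξ (σ u.1, (u.2 + zz (σ u.1)).snd),
        r (ξ (σ u.1, (u.2 + zz (σ u.1)).snd), (u.2 + zz (σ u.1)).fst))) 0]
  · exact ((continuous_const.mul ((B.continuous.comp y2).inner y2)).add
      (h.sg.continuous.comp (x1.prodMk z2))).sub ((continuous_const.mul
      ((B.continuous.comp y3).inner y3)).add (h.sg.continuous.comp (x1.prodMk z1)))
  · have := ((one h (σ t)).gd (v + zz (σ t))).hasFDerivAt.comp v
      ((hasFDerivAt_id v).add_const (zz (σ t)))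
    exact hasGradientAt_iff_hasFDerivAt.2 ((this.sub_const (1 / 2 * ⟪B (zz (σ t)).snd,
      (zz (σ t)).snd⟫_ℝ + γ (σ t, zz (σ t)))).congr_fderiv (ContinuousLinearMap.comp_id _))
  · have e : (mk ρ r B ξ γ gr zz k σ s b (2 * |c| + |R| + N + ρ₀) δ ρ₀).gr u -
        ((pm 0 ((1 / 2 : ℝ) • (1 + B))) u.2 - (pm 0 ((1 / 2 : ℝ) • (1 - B))) u.2) =
        WithLp.toLp 2 (0, B (zz (σ u.1)).snd) + gr (σ u.1, u.2 + zz (σ u.1)) :=
      Fb.ext (by simp [mk]) (by simp [mk]; module)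
    have d := (WithLp.norm_snd_le (p := 2) Y (zz (σ u.1))).trans (hN _)
    refine (congrArg norm e).trans_le ((norm_add_le _ _).trans ?_)
    rw [WithLp.norm_toLp_snd, h.norm_B]
    simp only [mk]
    linarith [h.gb _ (u.2 + zz (σ u.1)) (n1 (σ u.1))]
  · have := (one h (σ t)).lg (v + zz (σ t)) (v' + zz (σ t))
    rw [add_sub_add_right_eq_sub] at this
    exact this.trans (mul_le_mul_of_nonneg_right (by simp only [mk]; linarith) (norm_nonneg _))
  · have a1 := hd (σ t) _ (v' + zz (σ t)) (le_trans a b1) (by rwa [add_sub_add_right_eq_sub])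
    have a2 := (one h (σ t)).mono _ a1
    have a3 := K.kg _ (s1 t) _ _ _ (n1 (σ t)) ((H.half _ (v' + zz (σ t)).fst
      (un (σ t) (v' + zz (σ t)).snd)).trans (by linarith))
    simp only [mk, sub_add_cancel, Rt_snd] at a2 ⊢
    exact sub_le_sub_right ((add_le_add_right a3 _).trans a2) _
  · simp only [mk, sub_add_cancel, Rt_snd]
    linarith [(abs_le.1 (K.gb _ (u.2 + zz (σ u.1)) (n1 (σ u.1)))).1,
      (abs_le.1 (K.gb _ (Rt (fun p => k (s u.1, p)) (fun z => ξ (σ u.1, z))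
        (Rt r (fun z => ξ (σ u.1, z)) (u.2 + zz (σ u.1)))) (n1 (σ u.1)))).2]
  · exact add_eq_right.1 ((h.zu _ _ (n1 _) (lt_of_le_of_lt a (by linarith))).1 e)
  · simpa [mk] using (h.zu _ _ (n1 (σ t)) ((h.zi _ (n1 _)).trans w0)).2 rfl

theorem hsym (h : Dyn ρ r w c B ξ γ gr zz) (u : X × Fb Z) (a b : Fb Z) :
    ⟪fderiv ℝ gr u (0, a), b⟫_ℝ = fderiv ℝ (fderiv ℝ γ) u (0, a) (0, b) := by
  have e : (fun u => ⟪gr u, b⟫_ℝ) = fun u => fderiv ℝ γ u (0, b) := funext fun u => by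
    have := ((h.sg.differentiable (by simp) u).hasFDerivAt.comp u.2
      (hasFDerivAt_prodMk_right u.1 u.2)).unique (h.gd u.1 u.2).hasFDerivAt
    exact (ContinuousLinearMap.ext_iff.1 this b).symm
  have a1 := ((h.sr.differentiable (by simp) u).hasFDerivAt.inner ℝ (hasFDerivAt_const b u))
  rw [e] at a1
  simpa using ContinuousLinearMap.ext_iff.1 (a1.unique (has_d2a h.sg u (0, b))) (0, a)

end Dg

open Dg in
theorem dg : DG := by
  intro Φ M c B ξ γ gr zz k rs h K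
  have H : Ret Φ.ρ Φ.r Φ.w Φ.R := Φ.ret le_rfl
  have w0 := H.w0
  have z1 := cz h
  obtain ⟨N, hN⟩ := isCompact_univ.exists_bound_of_continuousOn z1.continuousOn
  have z2 : Continuous fun u : S11 × Fb (Eu M) => ((u.1 : X), u.2 + zz u.1) :=
    (continuous_subtype_val.comp continuous_fst).prodMk (continuous_snd.add (z1.comp continuous_fst))
  obtain ⟨ρ₁, r0, hr⟩ := tube (isOpen_lt (H.ρc.comp ((h.sx.continuous.comp (z2.fst.prodMk
    ((WithLp.continuous_snd 2 Y _).comp z2.snd))).prodMk ((WithLp.continuous_fst 2 Y _).comp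
    z2.snd))) continuous_const) fun x => by simpa using h.zi x (n1 x)
  obtain ⟨δ₁, d1, m1⟩ := mar h H (half_le_self w0.le) (isOpen_lt H.ρc (continuous_const (y := Φ.w)))
    fun u _ a => lt_of_le_of_lt a (half_lt_self w0)
  obtain ⟨δ₂, d2, m2⟩ := mar h H w0.le (isOpen_lt ((K.kc.comp ((continuous_const (y := (1 : ℝ))).prodMk
    (continuous_fst.prodMk H.rs.continuous))).sub continuous_snd).norm
    (continuous_const (y := ρ₁ / 2))) fun u a b => by
      simp [H.fix u.1 u.2 a b, K.kf 1 u.1 u.2 a b, r0]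
  have N0 : 0 ≤ |N| := abs_nonneg N
  have ok' := fun {T : Type} [TopologicalSpace T] {σ : T → S11} {s : T → ℝ} (a : Continuous σ)
    (b : Continuous s) s1 {b' : ℝ} b0 b1 b2 => ok h K H a b s1 (b := b') (δ := min δ₁ δ₂) b0 b1 b2
      (fun x => (hN x trivial).trans (le_abs_self N)) N0 (lt_min d1 d2) (half_pos r0)
      (fun x p p' a b => (m1 x p p' a (b.trans (min_le_left _ _))).le)
      fun x v a => (hr x v (by linarith)).le
  have cD : Continuous (fderiv ℝ gr) := h.sr.continuous_fderiv (by simp)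
  refine ⟨_, _, ok' (T := S11 × unitInterval) (σ := Prod.fst) (s := fun t => t.2) continuous_fst
    (continuous_subtype_val.comp continuous_snd)
    (fun t => t.2.2) (half_pos w0).le le_rfl (Or.inl rfl), ok' (σ := id) (s := fun _ => 1)
    continuous_id continuous_const (fun _ => ⟨zero_le_one, le_rfl⟩) le_rfl (half_pos w0).le
    (Or.inr fun _ => rfl), ⟨⟨?_, fun x v u => ?_, fun x v e => h.zh x v (n1 x) e, fun u a => ?_⟩,
    fun θ t0 => ?_, fun x v v' a b => ?_⟩, z1, fun ε x v => ⟨?_, rfl⟩⟩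
  · exact continuous_const.add ((cD.comp (continuous_subtype_val.prodMk z1)).clm_comp
      continuous_const)
  · have a := hsym h (x, zz x) v u
    have b := hsym h (x, zz x) u v
    rw [d2_symm h.sg, ← a, real_inner_comm] at b
    simp only [mk, id, add_apply, ContinuousLinearMap.comp_apply, ContinuousLinearMap.inr_apply,
      inner_add_left, inner_add_right, Toe.BL_apply, b, Toe.inner_Bz]
    rw [real_inner_comm (Bz B u), Toe.inner_Bz, h.sy, real_inner_comm]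
  · have un := (one h u.1).un (u.2 + zz u.1).snd
    have e : Rt Φ.r (fun z => ξ (u.1, z)) (u.2 + zz u.1) = u.2 + zz u.1 :=
      Fb.ext (H.fix _ _ un a) rfl
    refine sub_eq_iff_eq_add.2 ?_
    simp only [id]
    rw [e]
    exact Fb.ext (K.kf _ _ _ un a) rfl
  · obtain ⟨δ, d, m⟩ := tube (isOpen_lt ((cD.comp z2).sub (cD.comp
      ((continuous_subtype_val.prodMk z1).comp continuous_fst))).norm (continuous_const (y := θ)))
      fun x => by simpa using t0
    refine ⟨δ, d, fun x v a => ?_⟩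
    have D : ∀ u : Fb (Eu M), HasFDerivAt (fun u => gr (x, u + zz x))
        ((fderiv ℝ gr (x, u + zz x)).comp (ContinuousLinearMap.inr ℝ X _)) u := fun u =>
      (h.sr.differentiable (by simp) _).hasFDerivAt.comp u
        (((hasFDerivAt_prodMk_right (𝕜 := ℝ) (x : X) (u + zz x)).comp u
          ((hasFDerivAt_id u).add_const (zz x))).congr_fderiv (ContinuousLinearMap.comp_id _))
    have := (convex_closedBall (0 : Fb (Eu M)) δ).norm_image_sub_le_of_norm_hasFDerivWithin_le'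
      (φ := (fderiv ℝ gr (x, zz x)).comp (ContinuousLinearMap.inr ℝ X _)) (C := θ)
      (fun u _ => (D u).hasFDerivWithinAt) (fun u hu => by
        rw [← ContinuousLinearMap.sub_comp]
        refine ContinuousLinearMap.opNorm_le_bound _ t0.le fun y => ?_
        simpa using (ContinuousLinearMap.le_opNorm _ ((0 : X), y)).trans (mul_le_mul_of_nonneg_right
          (m x u (mem_closedBall_zero_iff.1 hu)).le (norm_nonneg _)))
      (Metric.mem_closedBall_self d.le) (mem_closedBall_zero_iff.2 a)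
    have z0 := eq_neg_of_add_eq_zero_right ((h.zu _ _ (n1 x) ((h.zi _ (n1 _)).trans w0)).2 rfl)
    rw [zero_add, sub_zero, z0] at this
    refine le_of_eq_of_le (congrArg norm ?_) this
    simp only [mk, id, add_apply, ← Toe.BL_apply (B := B), map_add]
    abel
  · have := m2 x (v + zz x) (v' + zz x) a
      (by rw [add_sub_add_right_eq_sub]; exact b.trans (min_le_right _ _))
    have e : (mk Φ.ρ Φ.r B ξ γ gr zz k id (fun _ => 1) 0 (2 * |c| + |Φ.R| + |N| + ρ₁ / 2)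
        (min δ₁ δ₂) (ρ₁ / 2)).Rr (x, v') - v' = WithLp.toLp 2 (k (1, ξ (x, (v' + zz x).snd),
          Φ.r (ξ (x, (v' + zz x).snd), (v' + zz x).fst)) - (v' + zz x).fst, 0) :=
      Fb.ext (by simp [mk]; abel) (by simp [mk])
    rw [e, WithLp.norm_toLp_fst]
    exact this.le
  · simp only [Gb.f, mk, fe, fm]
    rw [sub_add_eq_add_sub]
    congr 1
    exact Fb.ext (K.k0 _ _ ((one h x).un _)) rfl

end Crest.Agent.N218.En
end
end

-- ▼ part N218/En/Trl
section

/-! Row 218, END wrapper (helper82): translations. -/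

set_option autoImplicit false
open Set Topology

noncomputable section

namespace Crest.Agent.N218.En
open Pm Sk

/-- good families are stable under translations -/
theorem gf_tr {B F : Type} [TopologicalSpace B] [CompactSpace B] [NormedAddCommGroup F]
    [NormedSpace ℝ F] {k : ℕ} {f : B × F → F} (h : Gf k f) {c : B → F} (hc : Continuous c) :
    Gf k fun w : B × F => f (w.1, w.2 - c w.1) + c w.1 := by
  obtain ⟨A, C, hA, hC⟩ := h.lin
  obtain ⟨δ, d0, hd⟩ := h.adm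
  have hf := h.ct
  obtain ⟨C', h'⟩ := isCompact_univ.exists_bound_of_continuousOn
    (f := fun b => c b - A (c b)) (by fun_prop)
  refine ⟨by fun_prop, ⟨A, C + C', hA, fun x => ?_⟩, δ, d0, fun b s z s0 a e => ?_⟩
  · have e : f (x.1, x.2 - c x.1) + c x.1 - A x.2 =
        (f (x.1, x.2 - c x.1) - A (x.2 - c x.1)) + (c x.1 - A (c x.1)) := by
      rw [map_sub]; abel
    rw [e]
    exact (norm_add_le _ _).trans (add_le_add (hC (x.1, x.2 - c x.1)) (h' _ trivial))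
  · have m : mn (fun i => z i - c b : V k F) = mn z := funext fun i => by
      simp only [mn, sub_sub_sub_cancel_right]
    rw [← m] at a e ⊢
    refine hd b s _ s0 a fun i => Eq.trans ?_ (e i)
    abel

theorem trl : TRL := fun B F _ _ _ _ _ _ A _ T k f c hk hc h =>
  (gf_tr (h.pull (φ := (Prod.fst : B × unitInterval → B)) continuous_fst)
    (c := fun b : B × unitInterval => (b.2 : ℝ) • c b.1) (by fun_prop)).pa T hk
    (fun x => by simp) fun x => by simp

end Crest.Agent.N218.En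

end
end

-- ▼ part N218/En/Jet
section

/-! Row 218 (helper50): leaf JET, the cut of the gradient data to the `2`-jet. -/

set_option autoImplicit false

open Set Topology
open scoped InnerProductSpace ContDiff

noncomputable section

namespace Crest.Agent.N218.En

section pull
variable {B B' F : Type} [TopologicalSpace B] [TopologicalSpace B'] [NormedAddCommGroup F]
  [InnerProductSpace ℝ F]

/-- change of the base -/
def Gb.pull (G : Gb B F) (φ : B' → B) : Gb B' F where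
  p₁ := G.p₁
  pp := G.pp
  D := {w | (φ w.1, w.2) ∈ G.D}
  Rr := fun w => G.Rr (φ w.1, w.2)
  g := fun w => G.g (φ w.1, w.2)
  gr := fun w => G.gr (φ w.1, w.2)
  H := fun b => G.H (φ b)
  C := G.C
  δ := G.δ
  ρ := G.ρ

theorem Gb.Ok.pull [CompleteSpace F] {G : Gb B F} (h : G.Ok) {φ : B' → B} (hφ : Continuous φ) :
    (G.pull φ).Ok := by
  have c : Continuous fun w : B' × F => (φ w.1, w.2) := by fun_prop
  exact ⟨h.o₁, h.op, h.oz, h.C0, h.δ0, h.ρ0, h.ρC, h.Dc.preimage c, fun w hw => h.Db _ hw,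
    h.Rc.comp c, fun w => h.RD (φ w.1, w.2), fun w => h.R₁ _, fun w => h.Rp _, h.gc.comp c,
    h.grc.comp c, fun b v => h.gd (φ b) v, fun w => h.gb (φ w.1, w.2), fun b => h.gl (φ b),
    fun b => h.mono (φ b), fun w => h.big (φ w.1, w.2), fun w hw => h.crit _ hw,
    fun w hw => h.nr (φ w.1, w.2) hw, fun b => h.g0 _⟩
end pull

namespace Jt

/-- the step -/
def s0 : ℝ → ℝ := Real.smoothTransition
/-- its derivative -/
def s1 : ℝ → ℝ := deriv s0

theorem s0_sm : ContDiff ℝ ∞ s0 := Real.smoothTransition.contDiff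
theorem s1_sm : ContDiff ℝ ∞ s1 := (contDiff_infty_iff_deriv.1 s0_sm).2
theorem s0_d (x : ℝ) : HasDerivAt s0 (s1 x) x := (s0_sm.differentiable (by simp) x).hasDerivAt
theorem s0_z {x : ℝ} (h : x ≤ 0) : s0 x = 0 := Real.smoothTransition.zero_of_nonpos h
theorem s0_o {x : ℝ} (h : 1 ≤ x) : s0 x = 1 := Real.smoothTransition.one_of_one_le h
theorem s0_n (x : ℝ) : 0 ≤ s0 x := Real.smoothTransition.nonneg x
theorem s0_l (x : ℝ) : s0 x ≤ 1 := Real.smoothTransition.le_one x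
theorem s1_z {x : ℝ} (h : x ≤ 0) : s1 x = 0 :=
  IsLocalMin.deriv_eq_zero (Filter.Eventually.of_forall fun y => (s0_z h).le.trans (s0_n y))
theorem s1_o {x : ℝ} (h : 1 ≤ x) : s1 x = 0 :=
  IsLocalMax.deriv_eq_zero (Filter.Eventually.of_forall fun y => (s0_l y).trans (s0_o h).ge)

theorem s1_bd : ∃ K, 0 ≤ K ∧ ∀ x, |s1 x| ≤ K := by
  obtain ⟨K, hK⟩ := (isCompact_Icc (a := (0:ℝ)) (b := 1)).exists_bound_of_continuousOn
    s1_sm.continuous.continuousOn
  have K0 : 0 ≤ K := (norm_nonneg _).trans (hK 0 (by simp))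
  refine ⟨K, K0, fun x => ?_⟩
  rcases le_total x 0 with h | h
  · rwa [s1_z h, abs_zero]
  rcases le_total 1 x with h' | h'
  · rwa [s1_o h', abs_zero]
  · exact hK x ⟨h, h'⟩

variable {B F : Type} [TopologicalSpace B] [NormedAddCommGroup F] [InnerProductSpace ℝ F]

/-- the argument of the cut-off -/
def ar (d : ℝ) (v : F) : ℝ := 2 - 2 / d ^ 2 * ‖v‖ ^ 2
/-- the cut-off -/
def a (d : ℝ) (v : F) : ℝ := s0 (ar d v)
/-- its gradient -/
def W (d : ℝ) (v : F) : F := (-(4 / d ^ 2) * s1 (ar d v)) • v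

theorem ar_sm (d : ℝ) : ContDiff ℝ ∞ (ar d : F → ℝ) :=
  contDiff_const.sub (contDiff_const.mul (contDiff_norm_sq ℝ))
theorem a_sm (d : ℝ) : ContDiff ℝ ∞ (a d : F → ℝ) := s0_sm.comp (ar_sm d)
theorem W_sm (d : ℝ) : ContDiff ℝ ∞ (W d : F → F) :=
  (contDiff_const.mul (s1_sm.comp (ar_sm d))).smul contDiff_id

theorem a_d (d : ℝ) (v : F) : HasFDerivAt (a d) (innerSL ℝ (W d v)) v := by
  have h := (s0_d (ar d v)).comp_hasFDerivAt v
    ((((hasStrictFDerivAt_norm_sq v).hasFDerivAt).const_mul (2 / d ^ 2)).const_sub 2)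
  refine HasFDerivAt.congr_fderiv h ?_
  ext z
  simp [W]
  ring

omit [InnerProductSpace ℝ F] in
theorem ar_out {d : ℝ} (hd : 0 < d) {v : F} (h : d ≤ ‖v‖) : ar d v ≤ 0 := by
  have h1 := pow_le_pow_left₀ hd.le h 2
  have h2 := mul_le_mul_of_nonneg_left h1 (by positivity : 0 ≤ 2 / d ^ 2)
  rw [div_mul_cancel₀ _ (by positivity)] at h2
  unfold ar; linarith

omit [InnerProductSpace ℝ F] in
theorem ar_in {d : ℝ} (hd : 0 < d) {v : F} (h : ‖v‖ ≤ d / 2) : 1 ≤ ar d v := by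
  have h1 := pow_le_pow_left₀ (norm_nonneg _) h 2
  have h2 := mul_le_mul_of_nonneg_left h1 (by positivity : 0 ≤ 2 / d ^ 2)
  have h3 : 2 / d ^ 2 * (d / 2) ^ 2 = 1 / 2 := by field_simp
  unfold ar; linarith

omit [InnerProductSpace ℝ F] in
theorem a_out {d : ℝ} (hd : 0 < d) {v : F} (h : d ≤ ‖v‖) : a d v = 0 := s0_z (ar_out hd h)
theorem W_out {d : ℝ} (hd : 0 < d) {v : F} (h : d ≤ ‖v‖) : W d v = 0 := by
  simp [W, s1_z (ar_out hd h)]

theorem lip_cs [FiniteDimensional ℝ F] {X : Type} [NormedAddCommGroup X] [NormedSpace ℝ X]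
    {f : F → X} {d : ℝ} (hs : ContDiff ℝ ∞ f) (h : ∀ v, d ≤ ‖v‖ → f v = 0) :
    ∃ L, 0 ≤ L ∧ ∀ v v', ‖f v - f v'‖ ≤ L * ‖v - v'‖ := by
  obtain ⟨C, hC⟩ := ContDiff.lipschitzWith_of_hasCompactSupport
    (HasCompactSupport.intro (isCompact_closedBall (0 : F) d) fun y hy =>
      h y (not_le.1 (mem_closedBall_zero_iff.not.1 hy)).le) hs (by simp)
  exact ⟨C, C.2, fun v v' => by simpa [dist_eq_norm] using hC.dist_le_mul v v'⟩

omit [InnerProductSpace ℝ F] in
theorem lip_mul {X Y Z : Type} [NormedAddCommGroup X] [NormedAddCommGroup Y]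
    [NormedAddCommGroup Z] (μ : X → Y → Z)
    (hμ : ∀ x x' y y', ‖μ x y - μ x' y'‖ ≤ ‖x - x'‖ * ‖y‖ + ‖x'‖ * ‖y - y'‖)
    {f : F → X} {g : F → Y} {d A L A' L' : ℝ} (hA : 0 ≤ A) (hL : 0 ≤ L) (hA' : 0 ≤ A')
    (hL' : 0 ≤ L') (f0 : ∀ v, d ≤ ‖v‖ → f v = 0) (fb : ∀ v, ‖v‖ ≤ d → ‖f v‖ ≤ A)
    (fl : ∀ v v', ‖f v - f v'‖ ≤ L * ‖v - v'‖) (gb : ∀ v, ‖v‖ ≤ d → ‖g v‖ ≤ A')
    (gl : ∀ v v', ‖v‖ ≤ d → ‖v'‖ ≤ d → ‖g v - g v'‖ ≤ L' * ‖v - v'‖) (v v' : F) :
    ‖μ (f v) (g v) - μ (f v') (g v')‖ ≤ (L * A' + A * L') * ‖v - v'‖ := by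
  have key : ∀ v v', ‖v‖ ≤ d ∨ d ≤ ‖v'‖ →
      ‖μ (f v) (g v) - μ (f v') (g v')‖ ≤ (L * A' + A * L') * ‖v - v'‖ := fun v v' h => by
    have n := norm_nonneg (v - v')
    refine (hμ _ _ _ _).trans ?_
    rcases le_total ‖v‖ d with c | c
    · have h1 : ‖f v - f v'‖ * ‖g v‖ ≤ L * ‖v - v'‖ * A' :=
        mul_le_mul (fl v v') (gb v c) (norm_nonneg _) (by positivity)
      rcases le_total ‖v'‖ d with c' | c'
      · have h2 : ‖f v'‖ * ‖g v - g v'‖ ≤ A * (L' * ‖v - v'‖) :=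
          mul_le_mul (fb v' c') (gl v v' c c') (norm_nonneg _) hA
        linarith
      · have h2 : 0 ≤ A * L' * ‖v - v'‖ := by positivity
        rw [f0 v' c'] at h1 ⊢
        rw [norm_zero]; linarith
    · rcases h with h | h
      · rcases le_total ‖v'‖ d with c' | c'
        · have h1 : ‖f v - f v'‖ * ‖g v‖ ≤ L * ‖v - v'‖ * A' :=
            mul_le_mul (fl v v') (gb v h) (norm_nonneg _) (by positivity)
          have h2 : ‖f v'‖ * ‖g v - g v'‖ ≤ A * (L' * ‖v - v'‖) :=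
            mul_le_mul (fb v' c') (gl v v' h c') (norm_nonneg _) hA
          linarith
        · rw [f0 v c, f0 v' c']; simp only [sub_self, norm_zero, zero_mul, add_zero]; positivity
      · rw [f0 v c, f0 v' h]; simp only [sub_self, norm_zero, zero_mul, add_zero]; positivity
  rcases le_total ‖v‖ d with c | c
  · exact key v v' (.inl c)
  · rw [norm_sub_rev, norm_sub_rev v]; exact key v' v (.inr c)

theorem smul_sub (x x' : ℝ) (y y' : F) :
    ‖x • y - x' • y'‖ ≤ ‖x - x'‖ * ‖y‖ + ‖x'‖ * ‖y - y'‖ := by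
  rw [← norm_smul, ← norm_smul]
  exact (le_of_eq (congrArg _ (by module))).trans (norm_add_le _ _)

theorem smul_sub' (y y' : F) (x x' : ℝ) :
    ‖x • y - x' • y'‖ ≤ ‖y - y'‖ * ‖x‖ + ‖y'‖ * ‖x - x'‖ := by
  rw [mul_comm, mul_comm ‖y'‖, ← norm_smul, ← norm_smul]
  exact (le_of_eq (congrArg _ (by module))).trans (norm_add_le _ _)

theorem grad_iff [CompleteSpace F] {f : F → ℝ} {g x : F} :
    HasGradientAt f g x ↔ HasFDerivAt f (innerSL ℝ g) x := by
  rw [hasGradientAt_iff_hasFDerivAt]; rfl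

variable (G : Gb B F)

/-- the error of the function -/
def q (w : B × F) : ℝ := 1 / 2 * ⟪G.H w.1 w.2, w.2⟫_ℝ - G.g w
/-- the error of the gradient -/
def e (w : B × F) : F := G.H w.1 w.2 - G.gr w
/-- the correction of the gradient -/
def cr (d : ℝ) (w : B × F) : F := a d w.2 • e G w + q G w • W d w.2

/-- the path to the `2`-jet -/
def jt (d A : ℝ) : Gb (B × unitInterval) F where
  p₁ := G.p₁
  pp := G.pp
  D := {w | (w.1.1, w.2) ∈ G.D}
  Rr := fun w => G.Rr (w.1.1, w.2)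
  g := fun w => G.g (w.1.1, w.2) + w.1.2 * (a d w.2 * q G (w.1.1, w.2))
  gr := fun w => G.gr (w.1.1, w.2) + (w.1.2 : ℝ) • cr G d (w.1.1, w.2)
  H := fun b => G.H b.1
  C := G.C + 2 * A
  δ := G.δ
  ρ := d / 2

variable {G} [CompleteSpace F]

theorem q_d (h : G.Ok) (hs : G.Hs) (b : B) (v : F) :
    HasFDerivAt (fun v => q G (b, v)) (innerSL ℝ (e G (b, v))) v := by
  have h1 := (((G.H b).hasFDerivAt (x := v)).inner ℝ (hasFDerivAt_id v)).const_mul (1 / 2 : ℝ)
  refine HasFDerivAt.congr_fderiv (h1.sub (grad_iff.1 (h.gd b v))) ?_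
  ext z
  have := hs.sy b z v
  simp [e, this, real_inner_comm (G.H b v) z]
  ring

theorem est [CompactSpace B] [FiniteDimensional ℝ F] (h : G.Ok) (hf : G.Df) :
    ∃ d A, 0 < d ∧ d ≤ G.ρ ∧ 0 ≤ A ∧ (∀ w, ‖cr G d w‖ ≤ A) ∧ (∀ w, |a d w.2 * q G w| ≤ A) ∧
      (∀ b v v', ‖cr G d (b, v) - cr G d (b, v')‖ ≤ A * ‖v - v'‖) ∧
      ∀ (w : B × F) (t : ℝ), 0 ≤ t → t ≤ 1 → ‖w.2‖ ≤ d → G.gr w + t • cr G d w = 0 → w.2 = 0 := by
  obtain ⟨K, K0, hK⟩ := s1_bd
  have cH : Continuous fun w : B × F => G.H w.1 w.2 :=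
    (hf.ct.comp continuous_fst).clm_apply continuous_snd
  obtain ⟨m, m0, hm⟩ := ((isCompact_univ (X := B)).prod
    (isCompact_sphere (0 : F) 1)).exists_forall_le' (a := 0) cH.norm.continuousOn fun w hw =>
      norm_pos_iff.2 fun c => by simpa [hf.inj _ _ c] using hw.2
  have hm' : ∀ b v, m * ‖v‖ ≤ ‖G.H b v‖ := fun b v => by
    rcases eq_or_ne v 0 with rfl | hv
    · simp
    · have n := norm_pos_iff.2 hv
      have h1 := hm (b, ‖v‖⁻¹ • v) ⟨trivial, by simp [norm_smul, n.ne']⟩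
      simp only [map_smul, norm_smul, norm_inv, norm_norm] at h1
      rwa [← div_eq_inv_mul, le_div_iff₀ n] at h1
  obtain ⟨M, hM⟩ := (isCompact_univ (X := B)).exists_bound_of_continuousOn hf.ct.continuousOn
  set θ : ℝ := m / (2 * (1 + 4 * K)) with hθ
  have θ0 : 0 < θ := by positivity
  have θ1 : θ * (1 + 4 * K) = m / 2 := by rw [hθ]; field_simp
  obtain ⟨δ', δ0, hδ⟩ := hf.df θ θ0
  set d := min δ' G.ρ
  have d0 : 0 < d := lt_min δ0 h.ρ0
  have he : ∀ w : B × F, ‖w.2‖ ≤ d → ‖e G w‖ ≤ θ * ‖w.2‖ := fun w hw => by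
    rw [e, norm_sub_rev]; exact hδ w.1 w.2 (hw.trans (min_le_left _ _))
  have ql : ∀ b (r : ℝ) v v', r ≤ d → ‖v‖ ≤ r → ‖v'‖ ≤ r →
      ‖q G (b, v) - q G (b, v')‖ ≤ θ * r * ‖v - v'‖ := fun b r v v' hr hv hv' =>
    (convex_closedBall (0 : F) r).norm_image_sub_le_of_norm_hasFDerivWithin_le
      (f := fun v => q G (b, v)) (fun z _ => (q_d h hf.toHs b z).hasFDerivWithinAt)
      (fun z hz => by
        have := mem_closedBall_zero_iff.1 hz
        rw [innerSL_apply_norm]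
        exact (he (b, z) (this.trans hr)).trans (mul_le_mul_of_nonneg_left this θ0.le))
      (mem_closedBall_zero_iff.2 hv') (mem_closedBall_zero_iff.2 hv)
  have hq : ∀ w : B × F, ‖w.2‖ ≤ d → ‖q G w‖ ≤ θ * ‖w.2‖ * ‖w.2‖ := fun w hw => by
    have := ql w.1 _ w.2 0 hw le_rfl (by simp)
    simpa [q, (h.g0 w.1).1] using this
  have hW : ∀ v : F, ‖W d v‖ ≤ 4 / d ^ 2 * K * ‖v‖ := fun v => by
    rw [W, norm_smul, norm_mul, norm_neg, Real.norm_of_nonneg (by positivity)]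
    gcongr; exact hK _
  have ha : ∀ v : F, ‖a d v‖ ≤ 1 := fun v => by
    rw [a, Real.norm_of_nonneg (s0_n _)]; exact s0_l _
  have hqW : ∀ w : B × F, ‖w.2‖ ≤ d → ‖q G w • W d w.2‖ ≤ θ * (4 * K) * ‖w.2‖ := fun w hw => by
    rw [norm_smul]
    calc _ ≤ θ * d * d * (4 / d ^ 2 * K * ‖w.2‖) :=
          mul_le_mul ((hq w hw).trans (by gcongr)) (hW _) (norm_nonneg _) (by positivity)
      _ = _ := by field_simp
  obtain ⟨La, La0, hLa⟩ := lip_cs (a_sm d) fun v : F => a_out d0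
  obtain ⟨LW, LW0, hLW⟩ := lip_cs (W_sm d) fun v : F => W_out d0
  have C0 := h.C0
  set L := (La * (θ * d) + 1 * (max M 0 + G.C)) + (LW * (θ * d * d) + 4 / d ^ 2 * K * d * (θ * d))
  have L0 : 0 ≤ L := by positivity
  have p1 : 0 ≤ m / 2 * d := by positivity
  have p2 : 0 ≤ θ * d * d := by positivity
  refine ⟨d, L + m / 2 * d + θ * d * d, d0, min_le_right _ _, by positivity, fun w => ?_,
    fun w => ?_, fun b v v' => ?_, fun w t t0 t1 hw hz => ?_⟩
  · rcases le_total ‖w.2‖ d with c | c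
    · have h1 : ‖a d w.2 • e G w‖ ≤ 1 * (θ * ‖w.2‖) := by
        rw [norm_smul]; exact mul_le_mul (ha _) (he w c) (norm_nonneg _) zero_le_one
      have h2 := norm_add_le (a d w.2 • e G w) (q G w • W d w.2)
      have h3 : m / 2 * ‖w.2‖ ≤ m / 2 * d := by gcongr
      have h4 : θ * (1 + 4 * K) * ‖w.2‖ = m / 2 * ‖w.2‖ := by rw [θ1]
      unfold cr; linarith [hqW w c]
    · rw [cr, a_out d0 c, W_out d0 c, zero_smul, smul_zero, add_zero, norm_zero]; positivity
  · rcases le_total ‖w.2‖ d with c | c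
    · have h1 : ‖a d w.2‖ * ‖q G w‖ ≤ 1 * (θ * d * d) :=
        mul_le_mul (ha _) ((hq w c).trans (by gcongr)) (norm_nonneg _) zero_le_one
      rw [← norm_mul, Real.norm_eq_abs] at h1
      linarith
    · rw [a_out d0 c, zero_mul, abs_zero]; positivity
  · have h1 := lip_mul (fun (x : ℝ) (y : F) => x • y) smul_sub (g := fun v => e G (b, v))
      (A' := θ * d) (L' := max M 0 + G.C) zero_le_one La0
      (by positivity) (by positivity) (fun v => a_out d0) (fun v _ => ha v) hLa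
      (fun v c => (he (b, v) c).trans (by gcongr)) (fun v v' _ _ => by
        have k1 := (G.H b).le_of_opNorm_le ((hM b trivial).trans (le_max_left M 0)) (v - v')
        have k2 := norm_sub_le (G.H b (v - v')) (G.gr (b, v) - G.gr (b, v'))
        have k3 : e G (b, v) - e G (b, v') = G.H b (v - v') - (G.gr (b, v) - G.gr (b, v')) := by
          simp only [e, map_sub]; abel
        rw [k3]; linarith [h.gl b v v']) v v'
    have h2 := lip_mul (fun (y : F) (x : ℝ) => x • y) smul_sub' (g := fun v => q G (b, v))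
      (A := 4 / d ^ 2 * K * d) (A' := θ * d * d) (L' := θ * d) (by positivity) LW0
      (by positivity) (by positivity) (fun v => W_out d0) (fun v c => (hW v).trans (by gcongr)) hLW
      (fun v c => (hq (b, v) c).trans (by gcongr)) (fun v v' c c' => ql b d v v' le_rfl c c') v v'
    have h3 : 0 ≤ (m / 2 * d + θ * d * d) * ‖v - v'‖ := by positivity
    simp only [cr]
    rw [add_sub_add_comm]
    refine (norm_add_le _ _).trans ?_
    simp only [L]; linarith
  · have h1 : G.H w.1 w.2 = (1 - t * a d w.2) • e G w - t • q G w • W d w.2 := by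
      have : G.gr w = -(t • cr G d w) := eq_neg_of_add_eq_zero_left hz
      have k : G.H w.1 w.2 = e G w + G.gr w := by simp [e]
      rw [k, this, cr]; module
    have a0 : 0 ≤ a d w.2 := s0_n _
    have a1 : a d w.2 ≤ 1 := s0_l _
    have h2 : ‖(1 - t * a d w.2) • e G w‖ ≤ 1 * (θ * ‖w.2‖) := by
      rw [norm_smul, Real.norm_of_nonneg (by nlinarith)]
      exact mul_le_mul (by nlinarith) (he w hw) (norm_nonneg _) zero_le_one
    have h3 : ‖t • q G w • W d w.2‖ ≤ 1 * (θ * (4 * K) * ‖w.2‖) := by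
      rw [norm_smul t, Real.norm_of_nonneg t0]
      exact mul_le_mul t1 (hqW w hw) (norm_nonneg _) zero_le_one
    have h4 := hm' w.1 w.2
    rw [h1] at h4
    have h5 := norm_sub_le ((1 - t * a d w.2) • e G w) (t • q G w • W d w.2)
    have h6 : θ * (1 + 4 * K) * ‖w.2‖ = m / 2 * ‖w.2‖ := by rw [θ1]
    have h7 : m * ‖w.2‖ ≤ m * 0 := by linarith
    exact norm_le_zero_iff.1 (le_of_mul_le_mul_left h7 m0)

end Jt

open Jt in
theorem jet : JET := fun B F _ _ _ _ _ _ _ G h hf => by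
  obtain ⟨d, A, d0, dρ, A0, cb, qb, cl, cz⟩ := est h hf
  have c : Continuous fun w : (B × unitInterval) × F => (w.1.1, w.2) := by fun_prop
  have ct : Continuous fun w : (B × unitInterval) × F => (w.1.2 : ℝ) := by fun_prop
  have cH : Continuous fun w : B × F => G.H w.1 w.2 :=
    (hf.ct.comp continuous_fst).clm_apply continuous_snd
  have cq : Continuous (q G) := (continuous_const.mul (cH.inner continuous_snd)).sub h.gc
  have ca : Continuous fun w : B × F => a d w.2 := (a_sm d).continuous.comp continuous_snd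
  have cc : Continuous (cr G d) :=
    (ca.smul (cH.sub h.grc)).add (cq.smul ((W_sm d).continuous.comp continuous_snd))
  have sm : ∀ (t : unitInterval) (x : F), ‖(t : ℝ) • x‖ ≤ ‖x‖ := fun t x => by
    rw [norm_smul, Real.norm_of_nonneg t.2.1]; exact mul_le_of_le_one_left (norm_nonneg _) t.2.2
  have sm' : ∀ (t : unitInterval) (x : ℝ), |(t : ℝ) * x| ≤ |x| := fun t x => by
    rw [abs_mul, abs_of_nonneg t.2.1]; exact mul_le_of_le_one_left (abs_nonneg _) t.2.2
  have ok : (jt G d A).Ok := by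
    refine ⟨h.o₁, h.op, h.oz, ?_, h.δ0, half_pos d0, ?_, h.Dc.preimage c,
      fun w hw => (h.Db _ hw).trans (le_add_of_nonneg_right (by positivity)),
      h.Rc.comp c, fun w => h.RD (w.1.1, w.2), fun w => h.R₁ _, fun w => h.Rp _,
      (h.gc.comp c).add (ct.mul ((ca.mul cq).comp c)), (h.grc.comp c).add (ct.smul (cc.comp c)),
      fun b v => ?_, fun w => ?_, fun b v v' => ?_, fun b v v' hv hd => ?_, fun w => ?_,
      fun w hw hz => ?_, fun w hw => h.nr (w.1.1, w.2) ?_, fun b => ?_⟩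
    · show 0 < G.C + 2 * A
      linarith [h.C0]
    · show d / 2 ≤ G.C + 2 * A
      linarith [h.ρC]
    · refine grad_iff.2 (HasFDerivAt.congr_fderiv ((grad_iff.1 (h.gd b.1 v)).add
        (((a_d d v).mul (q_d h hf.toHs b.1 v)).const_mul (b.2 : ℝ))) ?_)
      ext z
      simp [jt, cr]
    · have h1 := h.gb (w.1.1, w.2)
      have h2 := (sm w.1.2 _).trans (cb (w.1.1, w.2))
      show ‖G.gr (w.1.1, w.2) + (w.1.2 : ℝ) • cr G d (w.1.1, w.2) - (G.pp w.2 - G.p₁ w.2)‖ ≤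
        G.C + 2 * A
      rw [add_sub_right_comm]
      refine (norm_add_le _ _).trans ?_
      linarith
    · have h1 := h.gl b.1 v v'
      have h2 := (sm b.2 _).trans (cl b.1 v v')
      show ‖G.gr (b.1, v) + (b.2 : ℝ) • cr G d (b.1, v) -
        (G.gr (b.1, v') + (b.2 : ℝ) • cr G d (b.1, v'))‖ ≤ (G.C + 2 * A) * ‖v - v'‖
      rw [add_sub_add_comm, ← _root_.smul_sub]
      refine (norm_add_le _ _).trans ?_
      nlinarith [mul_nonneg A0 (norm_nonneg (v - v'))]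
    · show G.g (b.1, G.Rr (b.1, v')) + b.2 * (a d (G.Rr (b.1, v')) * q G (b.1, G.Rr (b.1, v'))) ≤
        G.g (b.1, v') + b.2 * (a d v' * q G (b.1, v'))
      rcases le_total ‖v'‖ (2 * G.ρ) with k | k
      · rw [(h.nr (b.1, v') k).2]
      · have h1 := hf.mar b.1 v v' hv hd
        have h2 := norm_sub_norm_le v' (G.Rr (b.1, v'))
        rw [norm_sub_rev] at h1
        rw [a_out d0 (by linarith), a_out d0 (v := v') (by linarith [h.ρ0])]
        simpa using h.mono b.1 v v' hv hd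
    · have h1 := h.big (w.1.1, w.2)
      have h2 := abs_le.1 ((sm' w.1.2 _).trans (qb (w.1.1, w.2)))
      have h3 := abs_le.1 ((sm' w.1.2 _).trans (qb (w.1.1, G.Rr (w.1.1, w.2))))
      show G.g (w.1.1, G.Rr (w.1.1, w.2)) + w.1.2 * (a d (G.Rr (w.1.1, w.2)) *
        q G (w.1.1, G.Rr (w.1.1, w.2))) ≤
        G.g (w.1.1, w.2) + w.1.2 * (a d w.2 * q G (w.1.1, w.2)) + (G.C + 2 * A)
      simp only at h1 h2 h3
      linarith [h2.1, h3.2]
    · rcases le_total ‖w.2‖ d with k | k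
      · exact cz (w.1.1, w.2) _ w.1.2.2.1 w.1.2.2.2 k hz
      · refine h.crit (w.1.1, w.2) hw ?_
        simpa [jt, cr, a_out d0 k, W_out d0 k] using hz
    · have : ‖w.2‖ ≤ 2 * (d / 2) := hw
      show ‖w.2‖ ≤ 2 * G.ρ
      linarith [h.ρ0]
    · simp [jt, cr, q, e, W, h.g0 b.1]
  refine ⟨jt G d A, (jt G d A).pull fun b => (b, 1), ok, ok.pull (by fun_prop),
    ⟨⟨hf.ct, hf.sy, hf.inj, fun w hw => hf.id w hw⟩, fun b v hv => ?_⟩,
    fun ε b v => ⟨by simp [Gb.f, jt], rfl⟩⟩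
  have h1 : a d v = 1 := s0_o (ar_in d0 hv)
  have h2 : W d v = 0 := by simp [W, s1_o (ar_in d0 hv)]
  simp [Gb.pull, jt, cr, q, e, h1, h2]

end Crest.Agent.N218.En

end
end

-- ▼ part N218/En/Sta

/-! Row 218, END wrapper (helper82): stabilisation of gradient data. -/

set_option autoImplicit false
set_option linter.unusedSectionVars false
open Set Topology
open scoped InnerProductSpace

noncomputable section

namespace Crest.Agent.N218.En
open Pm Sk

namespace Sa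
variable {F E : Type} [NormedAddCommGroup F] [InnerProductSpace ℝ F] [NormedAddCommGroup E]
  [InnerProductSpace ℝ E] {π : E →L[ℝ] E}

theorem ext2 {v w : P2 F E} (a : v.fst = w.fst) (b : v.snd = w.snd) : v = w :=
  WithLp.ofLp_injective 2 (Prod.ext a b)

theorem inn (v w : P2 F E) : ⟪v, w⟫_ℝ = ⟪v.fst, w.fst⟫_ℝ + ⟪v.snd, w.snd⟫_ℝ := rfl

theorem n_le (v : P2 F E) : ‖v‖ ≤ ‖v.fst‖ + ‖v.snd‖ := by
  refine le_of_sq_le_sq ?_ (by positivity)
  rw [WithLp.prod_norm_sq_eq_of_L2]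
  nlinarith [mul_nonneg (norm_nonneg v.fst) (norm_nonneg v.snd)]

theorem n1 (v : P2 F E) : ‖v.fst‖ ≤ ‖v‖ := WithLp.norm_fst_le _ v
theorem n2 (v : P2 F E) : ‖v.snd‖ ≤ ‖v‖ := WithLp.norm_snd_le _ v

theorem op_pm {p : F →L[ℝ] F} (h : Op p) (h' : Op π) : Op (pm p π) :=
  ⟨fun v => ext2 (h.id _) (h'.id _), fun v w => by
    simp only [inn, pm_fst, pm_snd, h.sy, h'.sy]⟩

theorem op_c (h : Op π) : Op (1 - π) :=
  ⟨fun v => by simp [h.id], fun v w => by simp [inner_sub_left, inner_sub_right, h.sy]⟩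

theorem s_sy (h : Op π) (u w : E) :
    ⟪u - (2 : ℝ) • π u, w⟫_ℝ = ⟪u, w - (2 : ℝ) • π w⟫_ℝ := by
  simp only [inner_sub_left, inner_sub_right, real_inner_smul_left, real_inner_smul_right, h.sy]

theorem s_n (h : Op π) (u : E) : ‖u - (2 : ℝ) • π u‖ = ‖u‖ := by
  rw [← sq_eq_sq₀ (norm_nonneg _) (norm_nonneg _), ← real_inner_self_eq_norm_sq,
    ← real_inner_self_eq_norm_sq, s_sy h, map_sub, map_smul, h.id]
  congr 1
  module

theorem pm_ct [FiniteDimensional ℝ F] [FiniteDimensional ℝ E] {B : Type} [TopologicalSpace B]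
    {H : B → F →L[ℝ] F} (h : Continuous H) (S : E →L[ℝ] E) : Continuous fun b => pm (H b) S :=
  continuous_clm_apply.2 fun v => by simp only [pm_apply]; fun_prop

end Sa
open Sa

theorem sta : STA := by
  intro B F _ _ _ _ _ _ _ G h E _ _ _ _ π hπ
  refine ⟨⟨op_pm h.o₁ hπ, op_pm h.op (op_c hπ), fun v => ⟨ext2 (h.oz _).1 ?_, ext2 (h.oz _).2 ?_⟩,
    add_pos h.C0 one_pos, h.δ0, h.ρ0, h.ρC.trans (le_add_of_nonneg_right zero_le_one),
    h.Dc.preimage (f := fun w : B × P2 F E => (w.1, w.2.fst)) (by fun_prop), fun w hw => ?_, ?_,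
    fun w => h.RD (w.1, w.2.fst), fun w => ext2 (h.R₁ (w.1, w.2.fst)) rfl,
    fun w => ext2 (h.Rp (w.1, w.2.fst)) rfl, ?_, ?_, fun b v => ?_, fun w => ?_, fun b v v' => ?_,
    fun b v v' hv d => add_le_add (h.mono b v.fst v'.fst hv ((n1 (v' - v)).trans d)) le_rfl,
    fun w => ?_, fun w hw z => ext2 (h.crit (w.1, w.2.fst) hw (congrArg WithLp.fst z)) ?_,
    fun w a => ?_, fun b => ⟨?_, ext2 (h.g0 b).2 ?_⟩⟩, fun q => ⟨⟨pm_ct q.ct _, fun b v w => ?_,
      fun b v z => ext2 (q.inj b _ (congrArg WithLp.fst z)) ?_,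
      fun w hw => ext2 (q.id (w.1, w.2.fst) hw) rfl⟩, fun b v a => ?_⟩,
    fun P a n => ⟨lt_min n.a0 one_pos, pm_ct n.ct _, fun b => op_pm (n.op b) hπ,
      fun b v => ext2 (n.cm b _) ?_, fun b v => ?_, fun b v z => ?_⟩⟩
  · simp [Gb.st, hπ.id]
  · simp [Gb.st, hπ.id]
  · refine (n_le _).trans (add_le_add (h.Db (w.1, w.2.fst) hw) ?_)
    simp [Gb.st]
  · have := h.Rc
    simp only [Gb.st]; fun_prop
  · have := h.gc
    have c : Continuous fun w : B × P2 F E => w.2.snd := by fun_prop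
    exact (h.gc.comp (f := fun w : B × P2 F E => (w.1, w.2.fst)) (by fun_prop)).add
      (continuous_const.mul ((c.sub ((π.continuous.comp c).const_smul _)).inner c))
  · have := h.grc
    simp only [Gb.st]; fun_prop
  · let l₁ : P2 F E →L[ℝ] F := (ContinuousLinearMap.fst ℝ F E).comp
      (WithLp.prodContinuousLinearEquiv 2 ℝ F E : P2 F E →L[ℝ] F × E)
    let l₂ : P2 F E →L[ℝ] E := (ContinuousLinearMap.snd ℝ F E).comp
      (WithLp.prodContinuousLinearEquiv 2 ℝ F E : P2 F E →L[ℝ] F × E)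
    have a := (h.gd b v.fst).hasFDerivAt.comp v (l₁.hasFDerivAt (x := v))
    have c := ((((1 - (2 : ℝ) • π).comp l₂).hasFDerivAt (x := v)).inner ℝ
      (l₂.hasFDerivAt (x := v))).const_mul (1 / 2 : ℝ)
    refine hasGradientAt_iff_hasFDerivAt.2 ((a.add c).congr_fderiv ?_)
    ext u
    change ⟪G.gr (b, v.fst), u.fst⟫_ℝ + 1 / 2 * (⟪v.snd - (2 : ℝ) • π v.snd, u.snd⟫_ℝ +
      ⟪u.snd - (2 : ℝ) • π u.snd, v.snd⟫_ℝ) =
      ⟪G.gr (b, v.fst), u.fst⟫_ℝ + ⟪v.snd - (2 : ℝ) • π v.snd, u.snd⟫_ℝ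
    rw [s_sy hπ u.snd, real_inner_comm u.snd]
    ring
  · refine (n_le _).trans (add_le_add (h.gb (w.1, w.2.fst)) ?_)
    have : ((G.st π).gr w - ((G.st π).pp w.2 - (G.st π).p₁ w.2)).snd = 0 := by
      change w.2.snd - (2 : ℝ) • π w.2.snd - (w.2.snd - π w.2.snd - π w.2.snd) = 0
      module
    rw [this, norm_zero]; exact zero_le_one
  · have e : ((G.st π).gr (b, v) - (G.st π).gr (b, v')).snd =
        (v - v').snd - (2 : ℝ) • π (v - v').snd := by
      change v.snd - (2 : ℝ) • π v.snd - (v'.snd - (2 : ℝ) • π v'.snd) =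
        v.snd - v'.snd - (2 : ℝ) • π (v.snd - v'.snd)
      rw [map_sub]; module
    refine (n_le _).trans ?_
    rw [e, s_n hπ]
    exact (add_le_add ((h.gl b v.fst v'.fst).trans (mul_le_mul_of_nonneg_left (n1 (v - v'))
      h.C0.le)) (n2 _)).trans_eq (add_one_mul _ _).symm
  · have := h.big (w.1, w.2.fst)
    change G.g (w.1, G.Rr (w.1, w.2.fst)) + 1 / 2 * ⟪w.2.snd - (2 : ℝ) • π w.2.snd, w.2.snd⟫_ℝ ≤
      G.g (w.1, w.2.fst) + 1 / 2 * ⟪w.2.snd - (2 : ℝ) • π w.2.snd, w.2.snd⟫_ℝ + (G.C + 1)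
    linarith
  · exact norm_eq_zero.1 ((s_n hπ _).symm.trans (norm_eq_zero.2 (congrArg WithLp.snd z)))
  · have := h.nr (w.1, w.2.fst) ((n1 _).trans a)
    exact ⟨this.1, ext2 this.2 rfl⟩
  · simp [Gb.st, (h.g0 b).1]
  · simp [Gb.st]
  · exact congrArg₂ (· + ·) (q.sy b _ _) (s_sy hπ _ _)
  · exact norm_eq_zero.1 ((s_n hπ _).symm.trans (norm_eq_zero.2 (congrArg WithLp.snd z)))
  · have := q.qd b v.fst ((n1 _).trans a)
    exact ⟨(congrArg (· + _) this.1).trans (mul_add _ _ _).symm, ext2 this.2 rfl⟩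
  · simp [Gb.st]
  · have e : π v.snd - (2 : ℝ) • π (π v.snd) = -π v.snd := by rw [hπ.id]; module
    have := n.ng b v.fst
    change ⟪G.H b (P b v.fst), P b v.fst⟫_ℝ + ⟪π v.snd - (2 : ℝ) • π (π v.snd), π v.snd⟫_ℝ ≤ _
    rw [e, inner_neg_left, real_inner_self_eq_norm_sq, WithLp.prod_norm_sq_eq_of_L2, pm_fst, pm_snd]
    nlinarith [mul_le_mul_of_nonneg_right (min_le_left a 1) (sq_nonneg ‖P b v.fst‖),
      mul_le_mul_of_nonneg_right (min_le_right a 1) (sq_nonneg ‖π v.snd‖)]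
  · have e : π v.snd = 0 := congrArg WithLp.snd z
    change 0 ≤ ⟪G.H b v.fst, v.fst⟫_ℝ + ⟪v.snd - (2 : ℝ) • π v.snd, v.snd⟫_ℝ
    rw [e, smul_zero, sub_zero]
    exact add_nonneg (n.ps b _ (congrArg WithLp.fst z)) real_inner_self_nonneg

end Crest.Agent.N218.En

end
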