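import Crest.Agent.N218.D8.Wood2
import Crest.Agent.N218.D8.Defs
import Crest.Agent.N218.D8.Rc
import Crest.Agent.N218.D8.Eta
import Crest.Agent.N218.En.Defs
import Mathlib.Analysis.InnerProductSpace.GramSchmidtOrtho

-- ▼ part N218/D8/Wood3
section

/-!
# `WOOD`
-/

set_option autoImplicit false

open Matrix

namespace Crest.Agent.N218.D8

open Crest.Agent.R204.Bott671

section

variable {R : Type} [NormedCommRing R] [NormedAlgebra ℂ R] {τ : R →+* R}

/-- the real form. -/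
def Cj.fix (h : Cj τ) : Subalgebra ℝ R where
  carrier := {r | τ r = r}
  mul_mem' := fun {a b} ha hb => by
    change τ (a * b) = a * b
    rw [map_mul, show τ a = a from ha, show τ b = b from hb]
  add_mem' := fun {a b} ha hb => by
    change τ (a + b) = a + b
    rw [map_add, show τ a = a from ha, show τ b = b from hb]
  algebraMap_mem' := fun t => by
    change τ (algebraMap ℂ R (t : ℂ)) = algebraMap ℂ R (t : ℂ)
    rw [h.alg, Complex.conj_ofReal]

/-- `R` is the complexification of its real form. -/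
noncomputable def Cj.cx (h : Cj τ) : Cx h.fix R where
  τ := τ
  cont := h.cont
  inv := h.inv
  alg := h.alg
  φ := h.fix.val.toRingHom
  inj := Subtype.val_injective
  st := fun a => a.2
  ex := fun r hr => ⟨⟨r, hr⟩, rfl⟩
  sm := fun _ => rfl

theorem Cj.rc_of_conn (h : Cj τ) {ι : Type} [Fintype ι] [DecidableEq ι]
    {F G : Matrix ι ι h.fix} (hc : Conn F G) : RC τ (F.map h.cx.φ) (G.map h.cx.φ) := by
  obtain ⟨γ, hγ⟩ := hc
  refine ⟨⟨⟨fun t => (γ t).map h.cx.φ, γ.continuous.matrix_map continuous_subtype_val⟩,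
    by simp, by simp⟩, fun t => ⟨(hγ t).map h.cx.φ.mapMatrix, ?_⟩⟩
  ext i j
  exact (γ t i j).2

end

theorem wood : WOOD := by
  intro R _ _ _ τ h ι _ _ u hu hc
  obtain ⟨v, rfl⟩ := h.cx.exM u fun i j => congrFun (congrFun hu i) j
  obtain ⟨α, i1, i2, P, hP, h1⟩ := h.cx.wood' v hc
  refine ⟨α, i1, i2, P.map h.cx.φ, 1, ?_, by rw [← Matrix.map_mul, hP], ?_⟩
  · ext i j
    exact (P i j).2
  · have e1 : rs R (1 : Matrix (ι ⊕ α) (ι ⊕ α) ℝ) = 1 := Matrix.map_one _ (by simp) (by simp)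
    have h2 := h.rc_of_conn h1
    have e2 : (1 - (P + P)).map h.cx.φ = 1 - (P.map h.cx.φ + P.map h.cx.φ) := by
      change h.cx.φ.mapMatrix (1 - (P + P)) = _
      rw [map_sub, map_add, map_one]
      rfl
    rw [e2, fromBlocks_map] at h2
    rw [e1, one_mul]
    simpa using h2

end Crest.Agent.N218.D8
end

-- ▼ part N218/D8/Conj
section

/-!
# Row 218, block D8 (helper25): conjugation is `-1` on `K̃(S¹⁰)`
-/

set_option autoImplicit false

open Matrix
open scoped unitInterval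

noncomputable section

namespace Crest.Agent.N218.D8.Cn

open R204 R204.Bt837 R204.K357 R204.LineT357

section loops
variable {A : Type} [NormedCommRing A] [NormedAlgebra ℂ A]

/-- a continuous ring endomorphism acts on free loops -/
def cL (τ : A →+* A) (h : Continuous τ) : LA A →+* LA A where
  toFun a := LA.mk ⟨fun t => τ (a.fn t), h.comp a.fn.continuous⟩ (congrArg τ a.fn01)
  map_one' := LA.ext fun _ => map_one τ
  map_mul' _ _ := LA.ext fun _ => map_mul τ _ _
  map_zero' := LA.ext fun _ => map_zero τ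
  map_add' _ _ := LA.ext fun _ => map_add τ _ _

theorem cL_cont (τ : A →+* A) (h : Continuous τ) : Continuous (cL τ h) := by
  have k : Continuous fun a : LA A => (⟨τ, h⟩ : C(A, A)).comp a.fn :=
    (ContinuousMap.continuous_postcomp (⟨τ, h⟩ : C(A, A))).comp LA.continuous_fn
  exact Continuous.subtype_mk k _

variable {n k : Type} [Fintype n] [DecidableEq n] [Fintype k] [DecidableEq k]

omit [DecidableEq k] in
theorem isCl_cL (τ : A →+* A) (h : Continuous τ) {e : Matrix k k (LA A)} {g : Matrix n n A}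
    (H : IsCl e g) : IsCl (e.map (cL τ h)) (g.map τ) := by
  obtain ⟨a, b, ca, cb, hab, hba, h1⟩ := H
  refine ⟨fun s => (a s).map τ, fun s => (b s).map τ, ca.matrix_map h, cb.matrix_map h,
    fun s => ?_, fun s => ?_, ?_⟩
  · have : (e.map (cL τ h)).map (LA.ev s) = (e.map (LA.ev s)).map τ := rfl
    rw [this, ← hab, Matrix.map_mul]
  · rw [← Matrix.map_mul, hba]
    exact Matrix.map_one _ (map_zero _) (map_one _)
  · change (a 1).map τ = (a 0).map τ * g.map τ
    rw [h1, Matrix.map_mul]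

theorem map_dL_cL (τ : A →+* A) (h : Continuous τ) (g g' : (Matrix n n A)ˣ)
    (e : (g : Matrix n n A).map τ = g') : K0.map (cL τ h) (dL g) = dL g' := by
  have h1 : IsCl ((EL g).map (cL τ h)) (g' : Matrix n n A) := e ▸ isCl_cL τ h (isCl_EL g)
  have h2 := h1.cls
  rw [dL, map_sub, K0.map_cls _ (EL_idem g), h2, K0.cls_one, ← K0.mapRing_apply, map_natCast]
  ring

end loops

/-- conjugation on loops -/
def c1 : LA ℂ →+* LA ℂ := cL (starRingEnd ℂ) Complex.continuous_conj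
/-- conjugation on double loops -/
def c2 : LA (LA ℂ) →+* LA (LA ℂ) := cL c1 (cL_cont _ _)

theorem c2_bT : K0.map c2 (bT ℂ) = -bT ℂ := by
  rw [bT, ← dL_inv]
  refine map_dL_cL _ _ _ _ ?_
  ext i j
  have e : c1 (zU ℂ : LA ℂ) = (zU ℂ).inv := LA.ext fun t => by
    change starRingEnd ℂ ((zU ℂ : LA ℂ).fn t) = _
    rw [zU_fn, zU_inv_fn, Circle.coe_inv_eq_conj]
    rfl
  change c1 ((zU ℂ : LA ℂ) * 1) = (zU ℂ).inv * 1
  rw [mul_one, mul_one, e]

/-- conjugation on the torus algebra -/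
def cT (N : Type) [DecidableEq N] : TAt N →+* TAt N where
  toFun f := (⟨star (Subtype.val f : C(N → I, ℂ)),
    fun x i => congrArg star ((Subtype.property f : Subtype.val f ∈ TA N) x i)⟩ : TA N)
  map_one' := TA_ext fun _ => star_one ℂ
  map_mul' _ _ := TA_ext fun _ => map_mul (starRingEnd ℂ) _ _
  map_zero' := TA_ext fun _ => star_zero ℂ
  map_add' _ _ := TA_ext fun _ => map_add (starRingEnd ℂ) _ _

/-- conjugation in `K`-theory of the torus -/
def kT (N : Type) [DecidableEq N] : K0 (TAt N) →+* K0 (TAt N) := K0.mapRing (cT N)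

theorem kT_pull {M N : Type} [DecidableEq M] [DecidableEq N] (e : M ↪ N) (x : K0 (TAt M)) :
    kT N (kpull e x) = kpull e (kT M x) := by
  rw [kT, kT, K0.mapRing_apply, K0.mapRing_apply, kpull_apply, kpull_apply, ← K0.map_comp,
    ← K0.map_comp]
  rfl

theorem kT_bTor : kT (Fin 2) bTor = -bTor := by
  rw [bTor, ← map_neg, ← c2_bT, kT, K0.mapRing_apply, ← K0.map_comp, ← K0.map_comp]
  rfl

theorem kT_PB (m : ℕ) : kT (Fin m) (PB m) = (-1) ^ (m / 2) * PB m := by
  rw [PB, map_prod]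
  have h : ∀ i ∈ Finset.range (m / 2), kT (Fin m) (Bm m i) = -1 * Bm m i := by
    intro i hi
    have hi' := Finset.mem_range.1 hi
    have h1 : 2 * i + 1 < m := by omega
    rw [Bm, dif_pos h1, kT_pull, kT_bTor, map_neg, neg_one_mul]
  rw [Finset.prod_congr rfl h, Finset.prod_mul_distrib, Finset.prod_const, Finset.card_range]

theorem kT_tor {N : Type} [DecidableEq N] (x : K0 (SPt N)) :
    ktor N (K0.map (cj N) x) = kT N (ktor N x) := by
  rw [kT, ktor, K0.mapRing_apply, K0.mapRing_apply, K0.mapRing_apply, ← K0.map_comp,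
    ← K0.map_comp]
  rfl

theorem kev_cj {N : Type} (x : K0 (SPt N)) :
    kev N (K0.map (cj N) x) = K0.map (starRingEnd ℂ) (kev N x) := by
  rw [kev_apply, kev_apply, ← K0.map_comp, ← K0.map_comp]
  rfl

theorem cj_bb (a : ℕ) : K0.map (cj _) (bb a) = (-1 : ℤ) ^ a • bb a := by
  have h2 : 2 * a / 2 = a := by omega
  have h1 : kev (Fin (2 * a)) (bb a) = 0 := (bb_kz a).1
  apply ktor_ext
  · rw [map_zsmul, kev_cj, h1, map_zero, smul_zero]
  · rw [kT_tor, map_zsmul, bb_tor, kT_PB, h2, zsmul_eq_mul]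
    push_cast
    rfl

theorem exists_rank {ι : Type} [Fintype ι] [DecidableEq ι] (e : Matrix ι ι ℂ) (he : e * e = e) :
    ∃ r : ℕ, K0.cls e = r := by
  have h := idem_reindex he (Fintype.equivFin ι)
  obtain ⟨r, hr⟩ := H472.exists_MvN_one _ h
  exact ⟨r, by
    rw [K0.cls_of_equiv he (Fintype.equivFin ι) (f := e.submatrix (Fintype.equivFin ι).symm
      (Fintype.equivFin ι).symm) (by intro i j; simp), K0.cls_eq h (by simp) hr, K0.cls_one_fin]⟩

end Crest.Agent.N218.D8.Cn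

namespace Crest.Agent.N218.D8

open R204 R204.Bt837 R204.K357 Cn

/-- **CONJ** -/
theorem conj : CONJ := by
  intro ι _ _ P hP hPP
  obtain ⟨r, hr⟩ := exists_rank (P.map (SPe (Fin (2 * 5)) : SPt _ →+* ℂ)) (idem_map _ hPP)
  have h0 : kev (Fin (2 * 5)) (K0.cls P - r) = 0 := by
    rw [map_sub, map_natCast, kev_apply, K0.map_cls _ hPP, hr, sub_self]
  obtain ⟨n, hn⟩ := (bb_kz 5).2.1 _ h0
  have h1 : K0.map (cj (Fin (2 * 5))) (K0.cls P - r) = K0.cls P - r := by
    rw [map_sub, K0.map_cls _ hPP, hP, ← K0.mapRing_apply, map_natCast]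
  rw [hn, map_zsmul, cj_bb, smul_smul] at h1
  have h2 : (n * (-1) ^ 5 - n) • bb 5 = 0 := by rw [sub_smul, h1, sub_self]
  have h3 := (bb_kz 5).2.2 _ h2
  have h4 : n = 0 := by omega
  rw [h4, zero_smul, sub_eq_zero, ← K0.cls_one_fin] at hn
  obtain ⟨k, x, y, hxy, hyx⟩ := (K0.cls_eq_iff hPP (by simp)).1 hn
  rw [fromBlocks_one] at hyx
  refine ⟨k, r + k, x.submatrix id finSumFinEquiv.symm, y.submatrix finSumFinEquiv.symm id, ?_, ?_⟩
  · rw [Matrix.submatrix_mul_equiv, hxy]; rfl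
  · rw [← Matrix.submatrix_mul _ _ _ id _ Function.bijective_id, hyx, Matrix.submatrix_one_equiv]

end Crest.Agent.N218.D8

end
end

-- ▼ part N218/D8/Pi
section

/-!
# Row 218, block D8 (helper25): `π₁₀(O) = 0` on cubes from `CORE`
-/

set_option autoImplicit false

open Matrix
open scoped unitInterval

noncomputable section

namespace Crest.Agent.N218.D8.Pi

open R204 R204.Bt837

variable {N ι : Type}

/-- evaluation -/
def ev (x : N → I) : SPt N →+* ℂ where
  toFun p := SPv p x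
  map_one' := rfl
  map_mul' _ _ := rfl
  map_zero' := rfl
  map_add' _ _ := rfl

/-- a family of real matrices as a matrix over the sphere algebra -/
def mkS (u : (N → I) → Matrix ι ι ℝ) (hu : Continuous u) (c : Matrix ι ι ℝ)
    (hb : ∀ x ∈ Cube.boundary N, u x = c) : Matrix ι ι (SPt N) := Matrix.of fun i j =>
  (⟨((c i j : ℂ), ⟨fun x => (u x i j : ℂ), Complex.continuous_ofReal.comp (hu.matrix_elem i j)⟩),
    fun x hx => congrArg (fun M : Matrix ι ι ℝ => (M i j : ℂ)) (hb x hx)⟩ : SP N)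

theorem mkS_ev (u : (N → I) → Matrix ι ι ℝ) (hu : Continuous u) (c : Matrix ι ι ℝ)
    (hb : ∀ x ∈ Cube.boundary N, u x = c) (x : N → I) :
    (mkS u hu c hb).map (ev x) = (u x).map Complex.ofRealHom := rfl

theorem mat_ext' {x₀ : N → I} (h₀ : x₀ ∈ Cube.boundary N) {M M' : Matrix ι ι (SPt N)}
    (h : ∀ x, M.map (ev x) = M'.map (ev x)) : M = M' := by
  ext i j
  have k : ∀ x, SPv (M i j) x = SPv (M' i j) x := fun x => congrFun (congrFun (h x) i) j
  exact SPv_ext (by rw [← SPv_bd _ h₀, ← SPv_bd _ h₀, k]) k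

/-- the real part of the value -/
def re (x : N → I) (M : Matrix ι ι (SPt N)) : Matrix ι ι ℝ := Matrix.of fun i j => (SPv (M i j) x).re

theorem re_map {M : Matrix ι ι (SPt N)} (h : M.map (cj N) = M) (x : N → I) :
    (re x M).map Complex.ofRealHom = M.map (ev x) := by
  ext i j
  have : starRingEnd ℂ (SPv (M i j) x) = SPv (M i j) x :=
    congrArg (fun p => SPv p x) (congrFun (congrFun h i) j)
  exact Complex.conj_eq_iff_re.1 this

theorem of_inj {A B : Matrix ι ι ℝ} (h : A.map Complex.ofRealHom = B.map Complex.ofRealHom) :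
    A = B := Matrix.map_injective Complex.ofReal_injective h

variable [Fintype ι] [DecidableEq ι]

theorem unit_of {A : Matrix ι ι ℝ} (h : IsUnit (A.map Complex.ofRealHom)) : IsUnit A := by
  rw [Matrix.isUnit_iff_isUnit_det] at h ⊢
  rw [← RingHom.mapMatrix_apply, ← RingHom.map_det] at h
  exact isUnit_iff_ne_zero.2 fun e => h.ne_zero (by rw [e, map_zero])

theorem cont_inv {X : Type} [TopologicalSpace X] {u : X → Matrix ι ι ℝ} (hu : Continuous u)
    (h : ∀ x, IsUnit (u x)) : Continuous fun x => (u x)⁻¹ := by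
  simp only [Matrix.inv_def, Ring.inverse_eq_inv']
  exact (hu.matrix_det.inv₀ fun x => ((Matrix.isUnit_iff_isUnit_det _).1 (h x)).ne_zero).smul
    hu.matrix_adjugate

theorem mul_inv' {A : Matrix ι ι ℝ} (h : IsUnit A) : A * A⁻¹ = 1 :=
  Matrix.mul_nonsing_inv _ ((Matrix.isUnit_iff_isUnit_det _).1 h)

theorem main {x₀ : N → I} (h₀ : x₀ ∈ Cube.boundary N)
    (h : ∀ u : Matrix ι ι (SPt N), u.map (cj _) = u → IsUnit u →
      ∃ (α : Type) (_ : Fintype α) (_ : DecidableEq α) (c : Matrix (ι ⊕ α) (ι ⊕ α) ℝ),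
        RC (cj _) (fromBlocks u 0 0 1) (rs _ c))
    (u : (N → I) → Matrix ι ι ℝ) (hu : Continuous u) (h1 : ∀ x, IsUnit (u x))
    (hb : ∀ x ∈ Cube.boundary N, u x = 1) :
    ∃ (α : Type) (_ : Fintype α) (_ : DecidableEq α)
      (H : I × (N → I) → Matrix (ι ⊕ α) (ι ⊕ α) ℝ), Continuous H ∧ (∀ q, IsUnit (H q)) ∧
        (∀ x, H (0, x) = 1) ∧ (∀ x, H (1, x) = fromBlocks (u x) 0 0 1) ∧
        ∀ t, ∀ x ∈ Cube.boundary N, H (t, x) = 1 := by
  have hU : IsUnit (mkS u hu 1 hb) := by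
    refine (Matrix.isUnit_iff_isUnit_det _).2 (Matrix.isUnit_det_of_right_inverse
      (B := mkS (fun x => (u x)⁻¹) (cont_inv hu h1) 1 fun x hx => by rw [hb x hx, inv_one]) ?_)
    refine mat_ext' h₀ fun x => ?_
    rw [Matrix.map_mul, mkS_ev, mkS_ev, ← Matrix.map_mul, mul_inv' (h1 x), map_one', map_one']
  obtain ⟨α, i1, i2, c, hc⟩ := h (mkS u hu 1 hb) (mat_ext' h₀ fun x =>
    Matrix.ext fun i j => Complex.conj_ofReal (u x i j)) hU
  obtain ⟨γ, cγ, hγ, γ0, γ1⟩ := hc.symm.path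
  let G : I × (N → I) → Matrix (ι ⊕ α) (ι ⊕ α) ℝ := fun q => re q.2 (γ q.1)
  have cG : Continuous G := continuous_matrix fun i j => Complex.continuous_re.comp
    (SPv_continuous ((cγ.matrix_elem i j).comp continuous_fst) continuous_snd)
  have uG : ∀ q, IsUnit (G q) := fun q =>
    unit_of (by rw [re_map (hγ _).2]; exact (hγ _).1.map (ev q.2).mapMatrix)
  have bG : ∀ t, ∀ x ∈ Cube.boundary N, G (t, x) = G (t, x₀) := fun t x hx =>
    Matrix.ext fun i j => congrArg Complex.re ((SPv_bd _ hx).trans (SPv_bd _ h₀).symm)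
  have G1 : ∀ x, G (1, x) = fromBlocks (u x) 0 0 1 := fun x => of_inj (by
    rw [re_map (hγ _).2, γ1, map_fb, map_fb, mkS_ev, map_one', map_one'])
  have G0 : ∀ x, G (0, x) = c := fun x => of_inj (by rw [re_map (hγ _).2, γ0]; rfl)
  have c0 : Continuous fun q : I × (N → I) => G (q.1, x₀) :=
    cG.comp (continuous_fst.prodMk continuous_const)
  refine ⟨α, i1, i2, fun q => G q * (G (q.1, x₀))⁻¹, cG.matrix_mul (cont_inv c0 fun q => uG _),
    fun q => (uG q).mul (Matrix.isUnit_nonsing_inv_iff.2 (uG _)), fun x => ?_, fun x => ?_,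
    fun t x hx => ?_⟩
  · change G (0, x) * (G (0, x₀))⁻¹ = 1
    rw [G0 x, ← G0 x₀, mul_inv' (uG _)]
  · change G (1, x) * (G (1, x₀))⁻¹ = _
    rw [G1, G1, hb x₀ h₀, fromBlocks_one, inv_one, Matrix.mul_one]
  · change G (t, x) * (G (t, x₀))⁻¹ = 1
    rw [bG t x hx, mul_inv' (uG _)]

end Crest.Agent.N218.D8.Pi

namespace Crest.Agent.N218.D8

/-- **PI** -/
theorem pi_of (h : CORE) : PI := fun ι _ _ =>
  Pi.main (N := Fin 10) (x₀ := fun _ => 0) ⟨0, .inl rfl⟩ (h ι)

end Crest.Agent.N218.D8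

end
end

-- ▼ part N218/D8/Trc
section

/-! # Row 218, block D8 (helper54): clutching: real bundles on `S¹¹` from `π₁₀(O) = 0` -/

set_option autoImplicit false
set_option linter.unusedSectionVars false

open Matrix
open scoped unitInterval

noncomputable section

namespace Crest.Agent.N218.D8

open R204

variable {ι κ : Type} [Fintype ι] [DecidableEq ι] [Fintype κ] [DecidableEq κ]

theorem split_idem {p : Matrix ι ι ℝ} (h : p * p = p) :
    ∃ (r : ℕ) (a : Matrix ι (Fin r) ℝ) (b : Matrix (Fin r) ι ℝ), a * b = p ∧ b * a = 1 := by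
  let e := (Fintype.equivFin ι).symm
  obtain ⟨r, a, b, ab, ba⟩ := H472.exists_MvN_one (p.submatrix e e)
    (by rw [submatrix_mul_equiv, h])
  refine ⟨r, a.submatrix e.symm (Equiv.refl _), b.submatrix (Equiv.refl _) e.symm, ?_, ?_⟩
  · rw [submatrix_mul_equiv, ab]; simp
  · rw [submatrix_mul_equiv, ba]; simp

theorem unit_conj {A : Matrix ι κ ℝ} {B : Matrix κ ι ℝ} (ab : A * B = 1) (ba : B * A = 1)
    {M : Matrix κ κ ℝ} (h : IsUnit M) : IsUnit (A * M * B) := by
  obtain ⟨v, rfl⟩ := h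
  refine IsUnit.of_mul_eq_one (A * v.2 * B) ?_
  simp only [Matrix.mul_assoc]
  rw [← Matrix.mul_assoc B, ba, Matrix.one_mul, ← Matrix.mul_assoc v.1, v.3, Matrix.one_mul, ab]

/-- transport along the first coordinate -/
theorem transport {X : Type} [TopologicalSpace X] [CompactSpace X] (p : I × X → Matrix ι ι ℝ)
    (c : Continuous p) (h : ∀ q, p q * p q = p q) :
    ∃ V W : I × X → Matrix ι ι ℝ, Continuous V ∧ Continuous W ∧ (∀ q, V q * W q = 1) ∧
      (∀ q, W q * V q = 1) ∧ (∀ x, W (0, x) = 1) ∧ (∀ q, p q = V q * p (0, q.2) * W q) ∧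
      ∀ x, (∀ t, p (t, x) = p (0, x)) → ∀ t, V (t, x) = 1 ∧ W (t, x) = 1 := by
  let e : I → Matrix ι ι C(X, ℝ) := fun t i j =>
    (⟨fun q => p q i j, c.matrix_elem i j⟩ : C(I × X, ℝ)).curry t
  let ρ : X → Matrix ι ι C(X, ℝ) →+* Matrix ι ι ℝ := fun x => (Bott671.evHom x).mapMatrix
  have ex : ∀ {M N : Matrix ι ι C(X, ℝ)}, (∀ x, ρ x M = ρ x N) → M = N := fun k =>
    Matrix.ext fun i j => ContinuousMap.ext fun x => congrFun (congrFun (k x) i) j
  have er : ∀ t x, ρ x (e t) = p (t, x) := fun _ _ => rfl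
  obtain ⟨g, g', cg, cg', a, b, -, g0, k, r⟩ := Banach313.exists_path_conj_matrix.{0} e
    (continuous_matrix fun i j => ContinuousMap.continuous _)
    fun t => ex fun x => by rw [map_mul, er, h]
  have cc : ∀ {f : I → Matrix ι ι C(X, ℝ)}, Continuous f →
      Continuous fun q : I × X => ρ q.2 (f q.1) := fun {f} k => continuous_matrix fun i j =>
    ((k.comp continuous_fst).matrix_elem i j).eval continuous_snd
  refine ⟨_, _, cc cg, cc cg', fun q => by rw [← map_mul, a, map_one],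
    fun q => by rw [← map_mul, b, map_one], fun x => by rw [g0, map_one],
    fun q => ?_, fun x s => r (ρ x) s⟩
  have := congrArg (ρ q.2) (k q.1)
  rwa [map_mul, map_mul, er, er] at this

theorem trc (h : PI) : TRC := fun ι _ _ p p₀ c pp bd => by
  obtain ⟨V, W, cV, cW, VW, WV, W0, k, r⟩ := transport p c pp
  have k0 : ∀ q, p q = V q * p₀ * W q := fun q => by rw [k, bd (0, q.2) (.inl rfl)]
  have r0 : ∀ x ∈ Cube.boundary (Fin 10), ∀ t, V (t, x) = 1 ∧ W (t, x) = 1 := fun x m =>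
    r x fun t => by rw [bd _ (.inr (.inr m)), bd _ (.inl rfl)]
  have k1 : ∀ x, V (1, x) * p₀ * W (1, x) = p₀ := fun x => by rw [← k0, bd _ (.inr (.inl rfl))]
  have p2 : p₀ * p₀ = p₀ := by have := pp (0, 0); rwa [bd _ (.inl rfl)] at this
  obtain ⟨n, a, b, ab, ba⟩ := split_idem p2
  obtain ⟨m, a', b', ab', ba'⟩ := split_idem (p := 1 - p₀) (by simp [sub_mul, mul_sub, p2])
  have key : ∀ {s : ℕ} {a : Matrix ι (Fin s) ℝ} {b : Matrix (Fin s) ι ℝ}, b * a = 1 →
      (∀ x, V (1, x) * (a * b) * W (1, x) = a * b) → ∃ (α : Type) (_ : Fintype α)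
      (_ : DecidableEq α) (H : I × (Fin 10 → I) → Matrix (Fin s ⊕ α) (Fin s ⊕ α) ℝ),
      Continuous H ∧ (∀ q, IsUnit (H q)) ∧ (∀ x, H (0, x) = 1) ∧
      (∀ x, H (1, x) = fromBlocks (b * V (1, x) * a) 0 0 1) ∧
      ∀ t, ∀ x ∈ Cube.boundary (Fin 10), H (t, x) = 1 := fun {s a b} e f =>
    h _ (fun x => b * V (1, x) * a) ((continuous_const.matrix_mul
      (cV.comp (Continuous.prodMk_right 1))).matrix_mul continuous_const)
      (fun x => IsUnit.of_mul_eq_one (b * W (1, x) * a) (by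
        calc _ = b * (V (1, x) * (a * b) * W (1, x)) * a := by simp only [Matrix.mul_assoc]
          _ = 1 := by rw [f, ← Matrix.mul_assoc, e, Matrix.one_mul, e]))
      fun x m => by rw [(r0 x m 1).1, Matrix.mul_one, e]
  obtain ⟨α, _, _, H, cH, uH, H0, H1, Hb⟩ := key ba fun x => by rw [ab, k1]
  obtain ⟨β, _, _, G, cG, uG, G0, G1, Gb⟩ := key ba' fun x => by
    rw [ab', Matrix.mul_sub, Matrix.sub_mul, k1, Matrix.mul_one, VW]
  let A : Matrix (ι ⊕ (α ⊕ β)) ((Fin n ⊕ α) ⊕ (Fin m ⊕ β)) ℝ :=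
    fromCols (fromBlocks a 0 0 (fromRows 1 0)) (fromBlocks a' 0 0 (fromRows 0 1))
  let B : Matrix ((Fin n ⊕ α) ⊕ (Fin m ⊕ β)) (ι ⊕ (α ⊕ β)) ℝ :=
    fromRows (fromBlocks b 0 0 (fromCols 1 0)) (fromBlocks b' 0 0 (fromCols 0 1))
  have AMB : ∀ (u : Matrix (Fin n) (Fin n) ℝ) (v : Matrix α α ℝ) (u' : Matrix (Fin m) (Fin m) ℝ)
      (v' : Matrix β β ℝ), A * fromBlocks (fromBlocks u 0 0 v) 0 0 (fromBlocks u' 0 0 v') * B =
        fromBlocks (a * u * b + a' * u' * b') 0 0 (fromBlocks v 0 0 v') := fun u v u' v' => by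
    simp [A, B, fromCols_mul_fromBlocks, fromCols_mul_fromRows, fromBlocks_multiply, fromRows_mul,
      fromBlocks_add]
    ext (i | i) (j | j) <;> simp
  have AB : A * B = 1 := by
    have := AMB 1 1 1 1
    simpa only [fromBlocks_one, Matrix.mul_one, ab, ab', add_sub_cancel] using this
  have z : b * a' = 0 := by
    calc _ = b * a * b * (a' * (b' * a')) := by rw [ba, ba', Matrix.one_mul, Matrix.mul_one]
      _ = b * (a * b * (a' * b')) * a' := by simp only [Matrix.mul_assoc]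
      _ = 0 := by rw [ab, ab', Matrix.mul_sub, p2]; simp
  have z' : b' * a = 0 := by
    calc _ = b' * a' * b' * (a * (b * a)) := by rw [ba, ba', Matrix.one_mul, Matrix.mul_one]
      _ = b' * (a' * b' * (a * b)) * a := by simp only [Matrix.mul_assoc]
      _ = 0 := by rw [ab, ab', Matrix.sub_mul, p2]; simp
  have BA : B * A = 1 := by
    simp [A, B, fromBlocks_multiply, fromCols_mul_fromRows, ba, ba', z, z']
  have q0 : st α β p₀ = A * fromBlocks (1 : Matrix (Fin n ⊕ α) (Fin n ⊕ α) ℝ) 0 0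
      (0 : Matrix (Fin m ⊕ β) (Fin m ⊕ β) ℝ) * B := by
    have := AMB 1 1 0 0
    rw [fromBlocks_one, fromBlocks_zero] at this
    rw [this]; simp [st, ab]
  refine ⟨α, β, inferInstance, inferInstance, inferInstance, inferInstance,
    fun q => A * fromBlocks (H q) 0 0 (G q) * B * fromBlocks (W q) 0 0 1,
    ((continuous_const.matrix_mul (cH.matrix_fromBlocks continuous_const continuous_const
      cG)).matrix_mul continuous_const).matrix_mul
      (cW.matrix_fromBlocks continuous_const continuous_const continuous_const),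
    fun q => (unit_conj AB BA (Bott671.isUnit_fromBlocks_diag (uH q) (uG q))).mul
      (Bott671.isUnit_fromBlocks_diag (IsUnit.of_mul_eq_one _ (WV q)) isUnit_one),
    fun ⟨t, x⟩ s => ?_, fun q => ?_⟩
  · rcases s with rfl | rfl | s
    · simp only [H0, G0, W0, fromBlocks_one, Matrix.mul_one, AB]
    · have cm : V (1, x) * p₀ = p₀ * V (1, x) := by
        conv_rhs => rw [← k1 x, Matrix.mul_assoc, WV, Matrix.mul_one]
      have : a * (b * V (1, x) * a) * b + a' * (b' * V (1, x) * a') * b' = V (1, x) := by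
        calc _ = a * b * (V (1, x) * (a * b)) + a' * b' * (V (1, x) * (a' * b')) := by
              simp only [Matrix.mul_assoc]
          _ = _ := by
            rw [ab, ab', Matrix.mul_sub, Matrix.mul_one, cm, Matrix.mul_sub, ← Matrix.mul_assoc,
              ← Matrix.mul_assoc, Matrix.sub_mul, Matrix.sub_mul, p2]
            simp
      simp only [H1, G1, AMB, this, fromBlocks_one, fromBlocks_multiply, VW, Matrix.mul_zero,
        Matrix.zero_mul, add_zero, zero_add, Matrix.mul_one]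
    · simp only [Hb t x s, Gb t x s, (r0 x s t).2, fromBlocks_one, Matrix.mul_one, AB]
  · have e1 : fromBlocks (W q) 0 0 1 * st α β (p q) = st α β p₀ * fromBlocks (W q) 0 0 1 := by
      have : W q * p q = p₀ * W q := by
        rw [k0, ← Matrix.mul_assoc, ← Matrix.mul_assoc, WV, Matrix.one_mul]
      simp [st, fromBlocks_multiply, this]
    have e2 : ∀ M N : Matrix ((Fin n ⊕ α) ⊕ (Fin m ⊕ β)) ((Fin n ⊕ α) ⊕ (Fin m ⊕ β)) ℝ,
        A * M * B * (A * N * B) = A * (M * N) * B := fun M N => by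
      simp only [Matrix.mul_assoc]
      rw [← Matrix.mul_assoc B, BA, Matrix.one_mul]
    rw [Matrix.mul_assoc, e1, ← Matrix.mul_assoc, ← Matrix.mul_assoc (st α β p₀), q0, e2, e2]
    simp [fromBlocks_multiply]

end Crest.Agent.N218.D8

end
end

-- ▼ part N218/D8/Triv
section

/-!
# Row 218, block D8 (helper66): from cubes to `ℝ¹¹`
-/

set_option autoImplicit false

open Matrix Set
open scoped unitInterval

noncomputable section

namespace Crest.Agent.N218.D8

namespace Tv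
variable {ι α β : Type}

/-- rearrangement of the indices -/
def sh (ι α β : Type) : ι ⊕ ((α ⊕ β) ⊕ (β ⊕ α)) ≃ (ι ⊕ (α ⊕ β)) ⊕ (β ⊕ α) where
  toFun := Sum.elim (fun i => .inl (.inl i)) (Sum.elim
    (Sum.elim (fun a => .inl (.inr (.inl a))) fun b => .inr (.inl b))
    (Sum.elim (fun b => .inl (.inr (.inr b))) fun a => .inr (.inr a)))
  invFun := Sum.elim (Sum.elim .inl (Sum.elim (fun a => .inr (.inl (.inl a)))
    fun b => .inr (.inr (.inl b)))) (Sum.elim (fun b => .inr (.inl (.inr b)))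
      fun a => .inr (.inr (.inr a)))
  left_inv := by rintro (_ | (_ | _) | (_ | _)) <;> rfl
  right_inv := by rintro ((_ | _ | _) | (_ | _)) <;> rfl

theorem st_sh [DecidableEq α] [DecidableEq β] (p : Matrix ι ι ℝ) : st (α ⊕ β) (β ⊕ α) p =
    (fromBlocks (st α β p) 0 0 (fromBlocks 1 0 0 0)).submatrix (sh ι α β) (sh ι α β) := by
  ext (_ | (_ | _) | (_ | _)) (_ | (_ | _) | (_ | _)) <;> simp [st, sh, one_apply]

theorem st_eqv {γ δ : Type} [DecidableEq α] [DecidableEq γ] (a : γ ≃ α) (b : δ ≃ β)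
    (p : Matrix ι ι ℝ) : st γ δ p = (st α β p).submatrix
      ((Equiv.refl ι).sumCongr (a.sumCongr b)) ((Equiv.refl ι).sumCongr (a.sumCongr b)) := by
  ext (_ | _ | _) (_ | _ | _) <;> simp [st, one_apply]

/-- clamp -/
def cl (S t : ℝ) : I := projIcc 0 1 zero_le_one (t / (2 * S) + 1 / 2)

theorem cl_cont (S : ℝ) : Continuous (cl S) := continuous_projIcc.comp (by fun_prop)

theorem cl_in {S t : ℝ} (hS : 0 < S) (h : |t| ≤ S) : S * (2 * (cl S t : ℝ) - 1) = t := by
  obtain ⟨a, b⟩ := abs_le.1 h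
  have e : t / (2 * S) + 1 / 2 = (t + S) / (2 * S) := by field_simp
  rw [cl, projIcc_of_mem _ ⟨by rw [e]; exact div_nonneg (by linarith) (by linarith),
    by rw [e, div_le_one (by linarith)]; linarith⟩]
  field_simp
  ring

theorem cl_out {S t : ℝ} (hS : 0 < S) (h : S ≤ |t|) : cl S t = 0 ∨ cl S t = 1 := by
  have e : t / (2 * S) + 1 / 2 = (t + S) / (2 * S) := by field_simp
  rcases le_abs.1 h with a | a
  · exact .inr (projIcc_of_right_le _ (by rw [e, le_div_iff₀ (by linarith)]; linarith))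
  · exact .inl (projIcc_of_le_left _ (by
      rw [e]; exact div_nonpos_of_nonpos_of_nonneg (by linarith) (by linarith)))

theorem abs_bd {S : ℝ} (hS : 0 < S) {t : I} (h : t = 0 ∨ t = 1) : S ≤ |S * (2 * (t : ℝ) - 1)| := by
  rcases h with rfl | rfl <;> norm_num [abs_of_pos hS]
end Tv
open Tv

theorem triv (h : TRC) : TRIV := by
  intro E _ _ hE ι _ _ p p₀ r hp pp hr
  have : FiniteDimensional ℝ E := Module.finite_of_finrank_pos (by omega)
  obtain ⟨e⟩ : Nonempty (E ≃L[ℝ] ℝ × (Fin 10 → ℝ)) :=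
    FiniteDimensional.nonempty_continuousLinearEquiv_of_finrank_eq (by simp [hE])
  obtain ⟨S, hS, s1⟩ : ∃ S : ℝ, 0 < S ∧ ∀ x, S ≤ ‖e x‖ → r ≤ ‖x‖ := by
    refine ⟨(‖(e : E →L[ℝ] ℝ × (Fin 10 → ℝ))‖ + 1) * (|r| + 1), by positivity, fun x a => ?_⟩
    have := (e : E →L[ℝ] ℝ × (Fin 10 → ℝ)).le_opNorm x
    by_contra n
    have n0 := norm_nonneg (e : E →L[ℝ] ℝ × (Fin 10 → ℝ))
    simp only [ContinuousLinearEquiv.coe_coe] at this
    nlinarith [le_abs_self r, norm_nonneg x, abs_nonneg r,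
      mul_le_mul_of_nonneg_left ((not_le.1 n).le.trans (le_abs_self r)) n0]
  obtain ⟨r', s2⟩ : ∃ r' : ℝ, ∀ x, r' ≤ ‖x‖ → S ≤ ‖e x‖ := by
    refine ⟨(‖(e.symm : ℝ × (Fin 10 → ℝ) →L[ℝ] E)‖ + 1) * S, fun x a => ?_⟩
    have := (e.symm : ℝ × (Fin 10 → ℝ) →L[ℝ] E).le_opNorm (e x)
    by_contra n
    have n0 := norm_nonneg (e.symm : ℝ × (Fin 10 → ℝ) →L[ℝ] E)
    simp only [ContinuousLinearEquiv.coe_coe, e.symm_apply_apply] at this
    nlinarith [mul_le_mul_of_nonneg_left (not_le.1 n).le n0]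
  let φ : I × (Fin 10 → I) → E := fun q =>
    e.symm (S * (2 * (q.1 : ℝ) - 1), fun i => S * (2 * (q.2 i : ℝ) - 1))
  let ψ : E → I × (Fin 10 → I) := fun x => (cl S (e x).1, fun i => cl S ((e x).2 i))
  have cφ : Continuous φ := e.symm.continuous.comp (by fun_prop)
  have cψ : Continuous ψ := ((cl_cont S).comp e.continuous.fst).prodMk
    (continuous_pi fun i => (cl_cont S).comp ((continuous_apply i).comp e.continuous.snd))
  have b1 : ∀ q : I × (Fin 10 → I), q.1 = 0 ∨ q.1 = 1 ∨ q.2 ∈ Cube.boundary (Fin 10) →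
      p (φ q) = p₀ := fun q a => hr _ (s1 _ (by
    rw [e.apply_symm_apply]
    rcases or_assoc.2 a with a | ⟨i, a⟩
    · exact (abs_bd hS a).trans 
        (norm_fst_le (S * (2 * (q.1 : ℝ) - 1), fun i => S * (2 * (q.2 i : ℝ) - 1)))
    · exact (abs_bd hS a).trans ((norm_le_pi_norm (fun i => S * (2 * (q.2 i : ℝ) - 1)) i).trans
        (norm_snd_le (S * (2 * (q.1 : ℝ) - 1), _)))))
  have b2 : ∀ x, S ≤ ‖e x‖ → (ψ x).1 = 0 ∨ (ψ x).1 = 1 ∨ (ψ x).2 ∈ Cube.boundary (Fin 10) := by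
    intro x a
    rcases le_max_iff.1 a with a | a
    · exact (cl_out hS a).imp_right .inl
    · by_contra n
      refine absurd a (not_le.2 ((pi_norm_lt_iff hS).2 fun i => not_le.1 fun b => ?_))
      exact n (.inr (.inr ⟨i, cl_out hS b⟩))
  have b3 : ∀ x, p (φ (ψ x)) = p x := fun x => by
    rcases le_total S ‖e x‖ with a | a
    · rw [b1 _ (b2 x a), hr _ (s1 _ a)]
    · refine congrArg p (e.symm_apply_eq.2 (Prod.ext (cl_in hS ((norm_fst_le (e x)).trans a))
        (funext fun i => cl_in hS ((norm_le_pi_norm _ i).trans ((norm_snd_le (e x)).trans a)))))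
  obtain ⟨α, β, _, _, _, _, g, gc, gu, g1, gp⟩ := h ι (p ∘ φ) p₀ (hp.comp cφ) (fun q => pp _) b1
  obtain ⟨a⟩ : Nonempty (Fin (Fintype.card α + Fintype.card β) ≃ α ⊕ β) :=
    Fintype.card_eq.1 (by simp)
  obtain ⟨b⟩ : Nonempty (Fin (Fintype.card α + Fintype.card β) ≃ β ⊕ α) :=
    Fintype.card_eq.1 (by simp [add_comm])
  let c := ((Equiv.refl ι).sumCongr (a.sumCongr b)).trans (sh ι α β)
  have sc : ∀ m : Matrix ι ι ℝ, st (Fin _) (Fin _) m =
      (fromBlocks (st α β m) 0 0 (fromBlocks 1 0 0 0)).submatrix c c := fun m => by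
    rw [st_eqv a b, st_sh]; rfl
  refine ⟨_, r', fun x => (fromBlocks (g (ψ x)) 0 0 1).submatrix c c,
    ((gc.comp cψ).matrix_fromBlocks continuous_const continuous_const
      continuous_const).matrix_submatrix _ _, fun x => ?_, fun x a => ?_, fun x => ?_⟩
  · rw [isUnit_submatrix_equiv, isUnit_iff_isUnit_det, det_fromBlocks_zero₂₁, det_one, mul_one]
    exact (isUnit_iff_isUnit_det _).1 (gu _)
  · beta_reduce
    rw [g1 _ (b2 x (s2 x a)), fromBlocks_one, submatrix_one_equiv]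
  · have := gp (ψ x)
    rw [Function.comp_apply, b3] at this
    rw [sc, sc, submatrix_mul_equiv, submatrix_mul_equiv, fromBlocks_multiply, fromBlocks_multiply]
    simp [this]

end Crest.Agent.N218.D8

end
end

-- ▼ part N218/D8/Fin
section

/-! # Row 218, block D8 (helper54): `π₁₀(O) = 0`; real bundles on `S¹¹` are stably trivial -/

namespace Crest.Agent.N218.D8

theorem pi10 : PI := pi_of (core wood conj)

theorem trc' : TRC := trc pi10

theorem triv' : TRIV := triv trc'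

end Crest.Agent.N218.D8
end

-- ▼ part N218/En/Trv
section

/-! # Row 218, END wrapper (helper54): real bundles over `S¹¹` have stable orthonormal frames -/

set_option autoImplicit false
set_option linter.unusedVariables false
set_option linter.unusedSectionVars false

open Set Matrix Module InnerProductSpace Metric
open scoped InnerProductSpace Topology

noncomputable section

namespace Crest.Agent.N218.En

namespace Tv

section gs
variable {B W : Type} [TopologicalSpace B] [NormedAddCommGroup W] [InnerProductSpace ℝ W] {m : ℕ}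

theorem gs_c {f : B → Fin m → W} (hf : ∀ i, Continuous fun b => f b i)
    (li : ∀ b, LinearIndependent ℝ (f b)) (n : Fin m) :
    Continuous fun b => gramSchmidt ℝ (f b) n := by
  induction n using WellFoundedLT.induction with
  | ind n ih =>
  have : (fun b => gramSchmidt ℝ (f b) n) = fun b => f b n - ∑ i ∈ Finset.Iio n,
      (⟪gramSchmidt ℝ (f b) i, f b n⟫_ℝ / ‖gramSchmidt ℝ (f b) i‖ ^ 2) • gramSchmidt ℝ (f b) i :=
    funext fun b => eq_sub_of_add_eq (gramSchmidt_def'' ℝ (f b) n).symm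
  rw [this]
  refine (hf n).sub (continuous_finsetSum _ fun i hi => ?_)
  have := ih i (Finset.mem_Iio.1 hi)
  exact ((this.inner (hf n)).div (this.norm.pow 2) fun b =>
    pow_ne_zero _ (norm_ne_zero_iff.2 (gramSchmidt_ne_zero i (li b)))).smul this

/-- a continuous frame can be made orthonormal -/
theorem frame [FiniteDimensional ℝ W] {Q : B → W →L[ℝ] W} (hQ : ∀ b, Op (Q b))
    (T : B → (Fin m → ℝ) →ₗ[ℝ] W) (hT : ∀ w, Continuous fun b => T b w)
    (inj : ∀ b w, T b w = 0 → w = 0) (hr : ∀ b w, Q b (T b w) = T b w)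
    (hs : ∀ b u, ∃ w, Q b u = T b w) :
    ∃ (ι : B → C.Eu m →L[ℝ] W) (ι' : _), Fr Q ι ι' := by
  have li b : LinearIndependent ℝ (T b ∘ Pi.basisFun ℝ (Fin m)) :=
    (Pi.basisFun ℝ (Fin m)).linearIndependent.map' _ (LinearMap.ker_eq_bot'.2 (inj b))
  obtain ⟨v, hv⟩ : ∃ v : B → Fin m → W,
    v = fun b => gramSchmidtNormed ℝ (T b ∘ Pi.basisFun ℝ (Fin m)) := ⟨_, rfl⟩
  have vc i : Continuous fun b => v b i := by
    have := gs_c (f := fun b => T b ∘ Pi.basisFun ℝ (Fin m)) (fun i => hT _) li i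
    rw [hv]
    exact (this.norm.inv₀ fun b => norm_ne_zero_iff.2 (gramSchmidt_ne_zero i (li b))).smul this
  have vo b : Orthonormal ℝ (v b) := by rw [hv]; exact gramSchmidtNormed_orthonormal (li b)
  have vs b : Submodule.span ℝ (range (v b)) = LinearMap.range (T b) := by
    rw [hv, span_gramSchmidtNormed_range, span_gramSchmidt, range_comp, Submodule.span_image,
      Basis.span_eq, Submodule.map_top]
  have vq b i : Q b (v b i) = v b i := by
    obtain ⟨w, e⟩ : v b i ∈ LinearMap.range (T b) := vs b ▸ Submodule.subset_span ⟨i, rfl⟩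
    rw [← e, hr]
  let ι : B → C.Eu m →L[ℝ] W := fun b => ∑ i, (EuclideanSpace.proj i).smulRight (v b i)
  let ι' : B → W →L[ℝ] C.Eu m := fun b =>
    ((EuclideanSpace.equiv (Fin m) ℝ).symm : (Fin m → ℝ) →L[ℝ] C.Eu m).comp
      (ContinuousLinearMap.pi fun i => innerSL ℝ (v b i))
  have e1 b z : ι b z = ∑ i, z i • v b i := by simp [ι]
  have e2 b u i : ι' b u i = ⟪v b i, u⟫_ℝ := rfl
  refine ⟨ι, ι', continuous_clm_apply.2 fun z => ?_, continuous_clm_apply.2 fun u => ?_,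
    fun b z u => ?_, fun b z => ?_, fun b u => ?_⟩
  · simp only [e1]
    exact continuous_finsetSum _ fun i _ => (vc i).const_smul _
  · exact (EuclideanSpace.equiv (Fin m) ℝ).symm.continuous.comp
      (continuous_pi fun i => (vc i).inner continuous_const)
  · rw [e1, sum_inner, PiLp.inner_apply]
    exact Finset.sum_congr rfl fun i _ => by rw [e2, real_inner_smul_left]; simp [mul_comm]
  · ext i
    rw [e2, e1]
    exact (vo b).inner_right_fintype _ i
  · obtain ⟨w, e⟩ := hs b u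
    have : Q b u ∈ Submodule.span ℝ (range (v b)) := vs b ▸ ⟨w, e.symm⟩
    obtain ⟨c, hc⟩ := (Submodule.mem_span_range_iff_exists_fun ℝ).1 this
    rw [e1, ← hc]
    refine Finset.sum_congr rfl fun i _ => ?_
    rw [e2, ← vq, (hQ b).sy, ← hc, (vo b).inner_right_fintype, vq]
end gs

section sph
variable {X : Type} [NormedAddCommGroup X] [InnerProductSpace ℝ X] {e : X}

/-- the collapse of the unit ball onto the sphere -/
def cc (e : X) (x : (ℝ ∙ e)ᗮ) : X :=
  (1 - 2 * min ‖x‖ 1 ^ 2) • e + (2 * √(1 - ‖x‖ ^ 2)) • (x : X)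

theorem ort (x : (ℝ ∙ e)ᗮ) : ⟪e, (x : X)⟫_ℝ = 0 :=
  Submodule.mem_orthogonal_singleton_iff_inner_right.1 x.2

theorem cc_in (he : ‖e‖ = 1) (x : (ℝ ∙ e)ᗮ) : ⟪e, cc e x⟫_ℝ = 1 - 2 * min ‖x‖ 1 ^ 2 := by
  rw [cc, inner_add_right, real_inner_smul_right, real_inner_smul_right, ort,
    real_inner_self_eq_norm_sq, he]
  ring

theorem cc_out (x : (ℝ ∙ e)ᗮ) (h : 1 ≤ ‖x‖) : cc e x = -e := by
  rw [cc, min_eq_right h, Real.sqrt_eq_zero'.2 (by nlinarith)]
  norm_num

theorem cc_n (he : ‖e‖ = 1) (x : (ℝ ∙ e)ᗮ) : ‖cc e x‖ = 1 := by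
  rcases le_total 1 ‖x‖ with h | h
  · rw [cc_out x h, norm_neg, he]
  have h0 := norm_nonneg x
  have : ‖cc e x‖ ^ 2 = 1 := by
    rw [cc, norm_add_sq_real, real_inner_smul_left, real_inner_smul_right, ort, norm_smul,
      norm_smul, he, mul_one, mul_pow, Real.norm_eq_abs, Real.norm_eq_abs, sq_abs, sq_abs, mul_pow,
      Real.sq_sqrt (by nlinarith), min_eq_left h, Submodule.coe_norm]
    ring
  nlinarith [norm_nonneg (cc e x)]

theorem cc_inj (he : ‖e‖ = 1) {x x' : (ℝ ∙ e)ᗮ} (h : ‖x‖ ≤ 1) (h' : ‖x'‖ ≤ 1)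
    (q : cc e x = cc e x') : x = x' ∨ (‖x‖ = 1 ∧ ‖x'‖ = 1) := by
  have a := cc_in he x
  rw [q, cc_in he, min_eq_left h, min_eq_left h'] at a
  have n : ‖x‖ = ‖x'‖ := by nlinarith [norm_nonneg x, norm_nonneg x']
  rcases h.eq_or_lt with r | r
  · exact .inr ⟨r, n ▸ r⟩
  rw [cc, cc, ← n, add_right_inj] at q
  have : 0 < √(1 - ‖x‖ ^ 2) := Real.sqrt_pos.2 (by nlinarith [norm_nonneg x])
  exact .inl (Subtype.ext (smul_right_injective X (by positivity) q))

theorem cc_sur (he : ‖e‖ = 1) [Nontrivial (ℝ ∙ e)ᗮ] {z : X} (hz : ‖z‖ = 1) :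
    ∃ x, ‖x‖ ≤ 1 ∧ cc e x = z := by
  obtain ⟨a, ha⟩ : ∃ a, a = ⟪e, z⟫_ℝ := ⟨_, rfl⟩
  have m : z - a • e ∈ (ℝ ∙ e)ᗮ := Submodule.mem_orthogonal_singleton_iff_inner_right.2 (by
    rw [inner_sub_right, real_inner_smul_right, real_inner_self_eq_norm_sq, he, ha]; ring)
  have n : ‖z - a • e‖ ^ 2 = 1 - a ^ 2 := by
    rw [norm_sub_sq_real, real_inner_smul_right, real_inner_comm, ← ha, norm_smul, he, hz,
      mul_one, Real.norm_eq_abs, sq_abs]
    ring
  have l : -1 ≤ a := by nlinarith [sq_nonneg ‖z - a • e‖]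
  rcases l.eq_or_lt with r | r
  · obtain ⟨x, hx⟩ := exists_norm_eq (ℝ ∙ e)ᗮ zero_le_one
    refine ⟨x, hx.le, ?_⟩
    rw [cc_out x hx.ge]
    rw [← r] at n
    have : z - (-1 : ℝ) • e = 0 := norm_eq_zero.1 (by nlinarith)
    rw [sub_eq_zero.1 this, neg_one_smul]
  obtain ⟨s, hs⟩ : ∃ s, s = √((1 + a) / 2) := ⟨_, rfl⟩
  have s0 : 0 < s := hs ▸ Real.sqrt_pos.2 (by linarith)
  have s2 : s ^ 2 = (1 + a) / 2 := hs ▸ Real.sq_sqrt (by linarith)
  have k : ‖(2 * s)⁻¹ • (⟨_, m⟩ : (ℝ ∙ e)ᗮ)‖ ^ 2 = (1 - a) / 2 := by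
    rw [norm_smul, mul_pow, Real.norm_eq_abs, sq_abs, Submodule.coe_norm, n, inv_pow, mul_pow, s2]
    have : 1 + a ≠ 0 := by linarith
    field_simp
    ring
  have k1 : ‖(2 * s)⁻¹ • (⟨_, m⟩ : (ℝ ∙ e)ᗮ)‖ ≤ 1 := by
    nlinarith [norm_nonneg ((2 * s)⁻¹ • (⟨_, m⟩ : (ℝ ∙ e)ᗮ))]
  refine ⟨_, k1, ?_⟩
  rw [cc, min_eq_left k1, k, show 1 - (1 - a) / 2 = (1 + a) / 2 by ring, ← hs, Submodule.coe_smul,
    smul_inv_smul₀ (by positivity), show 1 - 2 * ((1 - a) / 2) = a by ring, add_sub_cancel]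

/-- descent along the collapse -/
theorem desc [FiniteDimensional ℝ X] (he : ‖e‖ = 1) [Nontrivial (ℝ ∙ e)ᗮ] {M : Type}
    [TopologicalSpace M] (g : (ℝ ∙ e)ᗮ → M) (hg : Continuous g) (o : M)
    (h1 : ∀ x, ‖x‖ = 1 → g x = o) : ∃ G : sphere (0 : X) 1 → M, Continuous G ∧
      ∀ z, ∃ x, ‖x‖ ≤ 1 ∧ cc e x = z.1 ∧ G z = g x := by
  choose s h1s h2s using fun z : sphere (0 : X) 1 => cc_sur he (norm_eq_of_mem_sphere z)
  refine ⟨fun z => g (s z), ?_, fun z => ⟨s z, h1s z, h2s z, rfl⟩⟩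
  let c : closedBall (0 : (ℝ ∙ e)ᗮ) 1 → sphere (0 : X) 1 := fun x =>
    ⟨cc e x.1, mem_sphere_zero_iff_norm.2 (cc_n he _)⟩
  have hc : Continuous c := Continuous.subtype_mk (by unfold cc; fun_prop) _
  have hs : Function.Surjective c := fun z =>
    ⟨⟨s z, mem_closedBall_zero_iff.2 (h1s z)⟩, Subtype.ext (h2s z)⟩
  rw [(hc.isClosedMap.isQuotientMap hc hs).continuous_iff]
  refine (hg.comp continuous_subtype_val).congr fun x => ?_
  rcases cc_inj he (mem_closedBall_zero_iff.1 x.2) (h1s (c x)) (h2s (c x)).symm with r | r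
  · exact congrArg g r
  · exact (h1 _ r.1).trans (h1 _ r.2).symm
end sph

/-- inversion in the unit sphere -/
theorem inv_c {E M : Type} [NormedAddCommGroup E] [NormedSpace ℝ E] [TopologicalSpace M]
    {g : E → M} (hg : Continuous g) {o : M} {r : ℝ} (h : ∀ x, r ≤ ‖x‖ → g x = o) :
    ∃ k : E → M, Continuous k ∧ (∀ x, ‖x‖ = 1 → k x = g x) ∧
      ∀ x, ‖x‖ ≤ 1 → k x = o ∨ ∃ y, 1 ≤ ‖y‖ ∧ k x = g y := by
  classical
  have n (x : E) (hx : x ≠ 0) : ‖(‖x‖ ^ 2)⁻¹ • x‖ = ‖x‖⁻¹ := by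
    have := norm_pos_iff.2 hx
    rw [norm_smul, Real.norm_of_nonneg (by positivity)]
    field_simp
  refine ⟨fun x => if x = 0 then o else g ((‖x‖ ^ 2)⁻¹ • x), continuous_iff_continuousAt.2
    fun x => ?_, fun x hx => ?_, fun x hx => ?_⟩
  · by_cases hx : x = 0
    · subst hx
      have p : 0 < (max r 1)⁻¹ := by positivity
      refine (continuousAt_const (y := o)).congr ?_
      filter_upwards [ball_mem_nhds (0 : E) p] with y hy
      split_ifs with q
      · rfl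
      · refine (h _ ?_).symm
        rw [n y q]
        exact (le_max_left r 1).trans ((le_inv_comm₀ (by positivity) (norm_pos_iff.2 q)).2
          (mem_ball_zero_iff.1 hy).le)
    · have : ContinuousAt (fun y : E => g ((‖y‖ ^ 2)⁻¹ • y)) x :=
        hg.continuousAt.comp (((continuous_norm.pow 2).continuousAt.inv₀
          (pow_ne_zero _ (norm_ne_zero_iff.2 hx))).smul continuousAt_id)
      refine this.congr ?_
      filter_upwards [isOpen_ne.mem_nhds hx] with y hy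
      rw [if_neg hy]
  · have : x ≠ 0 := norm_ne_zero_iff.1 (hx ▸ one_ne_zero)
    simp only [if_neg this, hx, one_pow, inv_one, one_smul]
  · by_cases q : x = 0
    · exact .inl (if_pos q)
    · exact .inr ⟨_, by rw [n x q]; exact (one_le_inv₀ (norm_pos_iff.2 q)).2 hx, if_neg q⟩

/-- stable frames of idempotent matrices over `S¹¹` -/
theorem tri {X : Type} [NormedAddCommGroup X] [InnerProductSpace ℝ X] (hX : finrank ℝ X = 11 + 1)
    {ι : Type} [Fintype ι] [DecidableEq ι] (p : sphere (0 : X) 1 → Matrix ι ι ℝ)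
    (hp : Continuous p) (pp : ∀ z, p z * p z = p z) :
    ∃ (k m : ℕ) (x : sphere (0 : X) 1 → Matrix (ι ⊕ (Fin k ⊕ Fin k)) (Fin m) ℝ)
      (y : sphere (0 : X) 1 → Matrix (Fin m) (ι ⊕ (Fin k ⊕ Fin k)) ℝ), Continuous x ∧
      (∀ z, x z * y z = D8.st (Fin k) (Fin k) (p z)) ∧ ∀ z, y z * x z = 1 := by
  have : FiniteDimensional ℝ X := Module.finite_of_finrank_eq_succ hX
  have : Nontrivial X := Module.nontrivial_of_finrank_eq_succ hX
  have : Fact (finrank ℝ X = 11 + 1) := ⟨hX⟩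
  obtain ⟨e, he⟩ := exists_norm_eq X zero_le_one
  have hE : finrank ℝ (ℝ ∙ e)ᗮ = 11 :=
    Submodule.finrank_orthogonal_span_singleton (norm_ne_zero_iff.1 (he ▸ one_ne_zero))
  have : Nontrivial (ℝ ∙ e)ᗮ := Module.nontrivial_of_finrank_eq_succ (n := 10) hE
  let c : (ℝ ∙ e)ᗮ → sphere (0 : X) 1 := fun x => ⟨cc e x, mem_sphere_zero_iff_norm.2 (cc_n he _)⟩
  have hc : Continuous c := Continuous.subtype_mk (by unfold cc; fun_prop) _
  let z₀ : sphere (0 : X) 1 := ⟨-e, by simp [he]⟩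
  have c1 x (h : 1 ≤ ‖x‖) : p (c x) = p z₀ := congrArg p (Subtype.ext (cc_out x h))
  obtain ⟨k, r, g, cg, ug, g1, gp⟩ := D8.triv' _ hE ι (fun x => p (c x)) (p z₀) 1 (hp.comp hc)
    (fun x => pp _) c1
  obtain ⟨q, hq⟩ : ∃ q, q = D8.st (Fin k) (Fin k) (p z₀) := ⟨_, rfl⟩
  have qq : q * q = q := by simp [hq, D8.st, fromBlocks_multiply, pp]
  obtain ⟨m, a, b, ab, ba⟩ := D8.split_idem qq
  obtain ⟨h, ch, h1, h2⟩ := inv_c cg g1
  have hh x (hx : ‖x‖ ≤ 1) : IsUnit (h x) ∧ h x * q = q * h x := by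
    rcases h2 x hx with r | ⟨y, hy, r⟩ <;> rw [r]
    · exact ⟨isUnit_one, by rw [one_mul, mul_one]⟩
    · exact ⟨ug y, by have := gp y; rwa [c1 y hy, ← hq] at this⟩
  have gi x : (g x)⁻¹ * g x = 1 := nonsing_inv_mul _ ((isUnit_iff_isUnit_det _).1 (ug x))
  obtain ⟨W, cW, hW⟩ := desc he (fun x => (g x)⁻¹ * h x) ((D8.Pi.cont_inv cg ug).matrix_mul ch) 1
    fun x hx => by simp only [h1 x hx, gi]
  have k1 z : IsUnit (W z) ∧ D8.st (Fin k) (Fin k) (p z) * W z = W z * q := by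
    obtain ⟨x, hx, e1, e2⟩ := hW z
    obtain rfl : c x = z := Subtype.ext e1
    rw [e2]
    refine ⟨(IsUnit.of_mul_eq_one _ (gi x)).mul (hh x hx).1, ?_⟩
    have := gp x
    rw [← hq] at this
    calc _ = (g x)⁻¹ * (g x * D8.st (Fin k) (Fin k) (p (c x))) * (g x)⁻¹ * h x := by
          rw [← Matrix.mul_assoc (g x)⁻¹, gi, Matrix.one_mul, Matrix.mul_assoc]
      _ = (g x)⁻¹ * q * (g x * (g x)⁻¹) * h x := by rw [this]; simp only [Matrix.mul_assoc]
      _ = _ := by
          rw [D8.Pi.mul_inv' (ug x), Matrix.mul_one, Matrix.mul_assoc, ← (hh x hx).2,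
            Matrix.mul_assoc]
  refine ⟨k, m, fun z => W z * a, fun z => b * (W z)⁻¹, cW.matrix_mul continuous_const,
    fun z => ?_, fun z => ?_⟩
  · rw [Matrix.mul_assoc, ← Matrix.mul_assoc a, ab, ← Matrix.mul_assoc, ← (k1 z).2,
      Matrix.mul_assoc, D8.Pi.mul_inv' (k1 z).1, Matrix.mul_one]
  · rw [Matrix.mul_assoc, ← Matrix.mul_assoc (W z)⁻¹,
      nonsing_inv_mul _ ((isUnit_iff_isUnit_det _).1 (k1 z).1), Matrix.one_mul, ba]

section lam
variable {F ι : Type} [NormedAddCommGroup F] [InnerProductSpace ℝ F] [Fintype ι] [DecidableEq ι]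
  (β : Basis ι ℝ F) (k : ℕ)

/-- coordinates -/
def La : (ι ⊕ (Fin k ⊕ Fin k) → ℝ) →ₗ[ℝ] P2 F (C.Eu k) where
  toFun w := WithLp.toLp 2 (β.equivFun.symm (w ∘ .inl), WithLp.toLp 2 (w ∘ .inr ∘ .inl))
  map_add' v w := by
    rw [← WithLp.toLp_add, Prod.mk_add_mk, ← map_add, ← WithLp.toLp_add]; rfl
  map_smul' c w := by
    rw [RingHom.id_apply, ← WithLp.toLp_smul, Prod.smul_mk, ← map_smul, ← WithLp.toLp_smul]; rfl

theorem La_sur (u : P2 F (C.Eu k)) : ∃ w, La β k w = u :=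
  ⟨Sum.elim (β.equivFun u.fst) (Sum.elim u.snd.ofLp 0), by
    change WithLp.toLp 2 (β.equivFun.symm (β.equivFun u.fst), u.snd) = u
    rw [LinearEquiv.symm_apply_apply]; rfl⟩

theorem st_mv (p : Matrix ι ι ℝ) (w : ι ⊕ (Fin k ⊕ Fin k) → ℝ) : D8.st (Fin k) (Fin k) p *ᵥ w =
    Sum.elim (p *ᵥ (w ∘ .inl)) (Sum.elim (w ∘ .inr ∘ .inl) 0) := by
  simp [D8.st, fromBlocks_mulVec, Function.comp_assoc]

theorem La_st (P : F →L[ℝ] F) (w : ι ⊕ (Fin k ⊕ Fin k) → ℝ) :
    La β k (D8.st (Fin k) (Fin k) (LinearMap.toMatrix β β (P : F →ₗ[ℝ] F)) *ᵥ w) =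
      pm P 1 (La β k w) := by
  rw [st_mv]
  change WithLp.toLp 2 (β.equivFun.symm (LinearMap.toMatrix β β (P : F →ₗ[ℝ] F) *ᵥ (w ∘ .inl)), _) =
    WithLp.toLp 2 (P (β.equivFun.symm (w ∘ .inl)), _)
  congr 2
  rw [LinearEquiv.symm_apply_eq]
  have := LinearMap.toMatrix_mulVec_repr β β (P : F →ₗ[ℝ] F) (β.equivFun.symm (w ∘ .inl))
  rwa [← β.equivFun_apply, LinearEquiv.apply_symm_apply] at this

theorem La_inj (p : Matrix ι ι ℝ) (w : ι ⊕ (Fin k ⊕ Fin k) → ℝ)
    (h : D8.st (Fin k) (Fin k) p *ᵥ w = w) (h0 : La β k w = 0) : w = 0 := by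
  rw [st_mv] at h
  have h1 : β.equivFun.symm (w ∘ .inl) = 0 := congrArg WithLp.fst h0
  have h2 : (WithLp.toLp 2 (w ∘ .inr ∘ .inl) : C.Eu k) = 0 := congrArg WithLp.snd h0
  rw [map_eq_zero_iff _ β.equivFun.symm.injective] at h1
  funext i
  rcases i with i | i | i
  · exact congrFun h1 i
  · exact congrArg (fun v : C.Eu k => v i) h2
  · exact (congrFun h (.inr (.inr i))).symm
end lam

end Tv

open Tv in
theorem trv : TRV := fun F _ _ _ P hP op => by
  let β := finBasis ℝ F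
  obtain ⟨k, m, x, y, cx, xy, yx⟩ := tri (X := C.X) (by simp)
    (fun z => LinearMap.toMatrix β β (P z : F →ₗ[ℝ] F))
    (continuous_matrix fun i j => by
      simp only [LinearMap.toMatrix_apply]
      exact (LinearMap.continuous_of_finiteDimensional (β.coord i)).comp
        (hP.clm_apply continuous_const))
    (fun z => by
      rw [← LinearMap.toMatrix_mul]
      exact congrArg _ (LinearMap.ext (op z).id))
  have k1 z w : D8.st (Fin k) (Fin k) (LinearMap.toMatrix β β (P z : F →ₗ[ℝ] F)) *ᵥ (x z *ᵥ w) =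
      x z *ᵥ w := by
    rw [mulVec_mulVec, ← xy, Matrix.mul_assoc, yx, Matrix.mul_one]
  refine ⟨k, m, frame (fun z => ⟨fun v => ?_, fun v w => ?_⟩)
    (fun z => La β k ∘ₗ (x z).mulVecLin) (fun w => ?_) (fun z w h => ?_) (fun z w => ?_)
    fun z u => ?_⟩
  · rw [pm_apply, pm_fst, (op z).id]; rfl
  · simp only [WithLp.prod_inner_apply]
    exact congrArg₂ (· + ·) ((op z).sy _ _) rfl
  · exact (LinearMap.continuous_of_finiteDimensional (La β k)).comp
      (cx.matrix_mulVec continuous_const)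
  · have := congrArg (y z *ᵥ ·) (La_inj β k _ _ (k1 z w) h)
    simpa only [mulVec_mulVec, yx, one_mulVec, mulVec_zero] using this
  · exact (La_st β k (P z) _).symm.trans (congrArg _ (k1 z w))
  · obtain ⟨w, rfl⟩ := La_sur β k u
    refine ⟨y z *ᵥ w, (La_st β k (P z) _).symm.trans ?_⟩
    rw [← xy, ← mulVec_mulVec]; rfl

end Crest.Agent.N218.En

end
end

-- ▼ part N218/En/Wra

/-! Row 218, END wrapper: the input of RED satisfies the axioms (helper36). -/

set_option autoImplicit false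
set_option linter.unusedVariables false
set_option linter.unusedSectionVars false

open Set Topology
open scoped InnerProductSpace

noncomputable section

namespace Crest.Agent.N218.En.Wa
open Pm Sk

variable {B F : Type} [TopologicalSpace B] [NormedAddCommGroup F] [InnerProductSpace ℝ F]

theorem op_le {p : F →L[ℝ] F} (h : Op p) (v : F) : ‖p v‖ ≤ ‖v‖ := by
  have e : ‖p v‖ ^ 2 ≤ ‖v‖ * ‖p v‖ := by
    rw [← real_inner_self_eq_norm_sq, h.sy, h.id]; exact real_inner_le_norm _ _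
  by_contra hn
  push Not at hn
  nlinarith [norm_nonneg v]

theorem op_in {p : F →L[ℝ] F} (h : Op p) (v : F) : ⟪p v, v⟫_ℝ = ‖p v‖ ^ 2 := by
  rw [← real_inner_self_eq_norm_sq, h.sy v (p v), h.id, real_inner_comm]

theorem cl01 (t : ℝ) : 0 ≤ cl t ∧ cl t ≤ 1 :=
  ⟨le_max_left _ _, max_le zero_le_one (min_le_left _ _)⟩

variable [CompleteSpace F] {G : Gb B F}

theorem pp_f (h : G.Ok) {ε : ℝ} (e0 : 0 ≤ ε) (e1 : ε ≤ 1) (w : B × F) (hw : ‖G.pp w.2‖ ≤ G.C) :
    ‖G.pp (G.f ε w)‖ ≤ G.C := by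
  have e : G.pp (G.f ε w) = (1 - ε) • G.pp w.2 - ε • G.pp (G.gr w - (G.pp w.2 - G.p₁ w.2)) := by
    unfold Gb.f
    rw [h.Rp]
    simp only [map_sub, map_smul, h.op.id, (h.oz _).2]
    module
  rw [e]
  refine (norm_sub_le _ _).trans ?_
  rw [norm_smul, norm_smul, Real.norm_of_nonneg e0, Real.norm_of_nonneg (sub_nonneg.2 e1)]
  have := (op_le h.op _).trans (h.gb w)
  nlinarith

theorem p1_f (h : G.Ok) (ε : ℝ) (w : B × F) : ∃ e, ‖e‖ ≤ G.C ∧
    G.p₁ (G.f ε w) = (1 + ε) • G.p₁ w.2 - ε • e := by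
  refine ⟨G.p₁ (G.gr w - (G.pp w.2 - G.p₁ w.2)), (op_le h.o₁ _).trans (h.gb w), ?_⟩
  unfold Gb.f
  rw [h.R₁]
  simp only [map_sub, map_smul, h.o₁.id, (h.oz _).1]
  module

theorem p1_cp (h : G.Ok) (v : F) : G.p₁ (G.cp v) = G.p₁ v := by
  simp [Gb.cp, (h.oz _).1]

theorem pp_cp (h : G.Ok) (v : F) : ‖G.pp (G.cp v)‖ ≤ G.C := by
  have p : 0 < max G.C ‖G.pp v‖ := lt_max_of_lt_left h.C0
  have e : G.pp (G.cp v) = (G.C / max G.C ‖G.pp v‖) • G.pp v := by simp [Gb.cp, h.op.id]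
  rw [e, norm_smul, Real.norm_of_nonneg (div_pos h.C0 p).le, div_mul_eq_mul_div, div_le_iff₀ p]
  exact mul_le_mul_of_nonneg_left (le_max_right _ _) h.C0.le

theorem cp_id (h : G.Ok) {v : F} (hv : ‖G.pp v‖ ≤ G.C) : G.cp v = v := by
  simp [Gb.cp, max_eq_left hv, h.C0.ne']

theorem cp_ct (h : G.Ok) : Continuous G.cp := by
  unfold Gb.cp
  exact (continuous_id.sub G.pp.continuous).add ((continuous_const.div
    (continuous_const.max G.pp.continuous.norm) fun v => (lt_max_of_lt_left h.C0).ne').smul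
    G.pp.continuous)

theorem f_ct (h : G.Ok) : Continuous fun z : ℝ × B × F => G.f z.1 z.2 :=
  h.Rc.comp (continuous_snd.fst.prodMk (continuous_snd.snd.sub
    (continuous_fst.smul (h.grc.comp continuous_snd))))

theorem rest_le (h : G.Ok) {w : B × F} (hw : w ∈ G.D) (hp : ‖G.pp w.2‖ ≤ G.C) :
    ‖w.2 - G.p₁ w.2‖ ≤ 2 * G.C := by
  have a := h.Db w hw
  have b := norm_add_le (w.2 - G.p₁ w.2 - G.pp w.2) (G.pp w.2)
  rw [sub_add_cancel] at b
  linarith

theorem g_le (h : G.Ok) (b : B) (v : F) :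
    G.g (b, v) ≤ 1 / 2 * (‖G.pp v‖ ^ 2 - ‖G.p₁ v‖ ^ 2) + G.C * ‖v‖ := by
  set c : ℝ := ‖G.pp v‖ ^ 2 - ‖G.p₁ v‖ ^ 2 with hc
  have d : ∀ t : ℝ, HasDerivAt (fun t : ℝ => G.g (b, t • v) - 1 / 2 * t ^ 2 * c)
      (⟪G.gr (b, t • v) - (G.pp (t • v) - G.p₁ (t • v)), v⟫_ℝ) t := by
    intro t
    have a := (h.gd b (t • v)).hasFDerivAt.comp_hasDerivAt t ((hasDerivAt_id t).smul_const v)
    have e := (((hasDerivAt_id t).pow 2).const_mul (1 / 2 : ℝ)).mul_const c
    refine (a.sub e).congr_deriv ?_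
    simp only [map_smul, inner_sub_left, real_inner_smul_left, op_in h.op, op_in h.o₁, hc, one_smul,
      InnerProductSpace.toDual_apply_apply, id]
    ring
  have m := norm_image_sub_le_of_norm_deriv_le_segment_01' (C := G.C * ‖v‖)
    (fun t _ => (d t).hasDerivWithinAt) fun t _ => (abs_real_inner_le_norm _ _).trans
      (mul_le_mul_of_nonneg_right (h.gb (b, t • v)) (norm_nonneg _))
  simp only [one_smul, zero_smul, (h.g0 b).1] at m
  have := (abs_le.1 m).2
  linarith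

end Crest.Agent.N218.En.Wa

namespace Crest.Agent.N218.En
open Pm Sk Wa

theorem wra (hL : LY) : WRA := by
  intro B F _ _ _ _ _ _ _ G h E _ _ _ P a ι ι' q n fr
  obtain ⟨e₀, p₀, ly⟩ := hL B F G h
  obtain ⟨K, hK⟩ := isCompact_univ.exists_bound_of_continuousOn q.ct.continuousOn
  have K1 : 0 < max K 1 := lt_max_of_lt_right one_pos
  refine ⟨min e₀ (min 1 (1 / (2 * max K 1))), lt_min p₀ (lt_min one_pos (by positivity)),
    fun ε e0 e1 => ?_⟩
  have ea : ε ≤ e₀ := e1.trans (min_le_left _ _)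
  have eb : ε ≤ 1 := e1.trans ((min_le_right _ _).trans (min_le_left _ _))
  have ec : ε * max K 1 ≤ 1 / 2 := by
    have := e1.trans ((min_le_right _ _).trans (min_le_right _ _))
    rw [le_div_iff₀ (by positivity)] at this
    linarith
  have C0 := h.C0
  have ρ0 := h.ρ0
  have Hn : ∀ x y, ‖(ε • G.H x) y‖ ≤ 1 / 2 * ‖y‖ := fun x y => by
    rw [smul_apply, norm_smul, Real.norm_of_nonneg e0.le]
    have := ((G.H x).le_opNorm y).trans (mul_le_mul_of_nonneg_right
      ((hK x trivial).trans (le_max_left K 1)) (norm_nonneg y))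
    nlinarith [norm_nonneg y]
  have fc : Continuous fun w : B × F => G.f ε (w.1, G.cp w.2) :=
    (f_ct h).comp (continuous_const.prodMk (continuous_fst.prodMk ((cp_ct h).comp continuous_snd)))
  have cc : Continuous fun w : (B × ℝ) × F => cl w.1.2 := by unfold cl; fun_prop
  have pc : Continuous (G.rg ι ι' a ε).ph :=
    ((continuous_const.sub cc).smul ((G.p₁.continuous.comp continuous_snd).const_smul _)).add
      (cc.smul (fc.comp (continuous_fst.fst.prodMk continuous_snd)))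
  have dc : IsClosed (G.rg ι ι' a ε).Dm :=
    h.Dc.inter (isClosed_le (G.pp.continuous.comp continuous_snd).norm continuous_const)
  have fD : ∀ w : B × F, (w.1, G.f ε (w.1, G.cp w.2)) ∈ (G.rg ι ι' a ε).Dm := fun w =>
    ⟨h.RD (w.1, G.cp w.2 - ε • G.gr (w.1, G.cp w.2)), pp_f h e0.le eb _ (pp_cp h _)⟩
  have je : ∀ s, ∀ w ∈ (G.rg ι ι' a ε).Dm, (G.rg ι ι' a ε).j (s, w) = G.f (s * ε) w := by
    intro s w hw
    change G.f (s * ε) w + (w.2 - G.Rr w) = _
    rw [q.id w hw.1, sub_self, add_zero]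
  have fe : ∀ w ∈ (G.rg ι ι' a ε).Dm, (G.rg ι ι' a ε).f w = G.f ε w := by
    intro w hw
    change G.f ε (w.1, G.cp w.2) = _
    rw [cp_id h hw.2]
  have se : ∀ s ∈ Icc (0 : ℝ) 1, 0 ≤ s * ε ∧ s * ε ≤ ε := fun s hs =>
    ⟨mul_nonneg hs.1 e0.le, by nlinarith [hs.2]⟩
  have Pi : ∀ x z, P x (ι x z) = ι x z := fun x z => by rw [← fr.ri, fr.li]
  refine
    { pc := continuous_const
      pi := fun _ => h.o₁.id
      pn := fun _ => op_le h.o₁
      hμ := lt_add_of_pos_right _ e0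
      hc := one_pos
      hκ := half_pos e0
      Cc := continuous_const
      Cn := fun _ => norm_zero.le
      Cp := fun _ _ => ⟨map_zero _, rfl⟩
      hp := ⟨isOpen_univ, pc.continuousOn, fun R => ?_, fun w _ => ?_, fun w _ hw => ?_,
        fun x s y hs => ⟨trivial, ?_⟩⟩
      en := fun x s y hs => ⟨trivial, ?_⟩
      fc := fc
      dc := dc
      fD := fD
      db := fun w hw => rest_le h hw.1 hw.2
      jc := ((f_ct h).comp ((continuous_fst.mul continuous_const).prodMk continuous_snd)).add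
        (continuous_snd.snd.sub (h.Rc.comp continuous_snd))
      j0 := fun w => ?_
      j1 := fun w hw => by rw [je 1 w hw, fe w hw, one_mul]
      jD := fun s hs w hw => ?_
      jg := fun s hs w hw => ?_
      jx := fun s hs w hw hx => ?_
      gc := continuous_const.mul h.gc
      gf := fun w hw h0 => ?_
      gk := fun b => ?_
      ha := mul_pos e0 n.a0
      hr := half_pos ρ0
      Hc := q.ct.const_smul ε
      Hs := fun x y y' => ?_
      Hn := Hn
      ic := fr.ic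
      ic' := fr.ic'
      ad := fr.ad
      iii := fun x z => congrArg (ι x) (fr.li x z)
      HP := fun x y => ?_
      Hm := fun x z => ?_
      Hp := fun x y hy => ?_
      ln := fun x y hy => ?_ }
  · refine (((isCompact_univ (X := B)).prod (isCompact_closedBall (0 : ℝ) R)).prod
      (isCompact_closedBall (0 : F) R)).of_isClosed_subset (isClosed_univ.inter
        ((isClosed_le continuous_fst.snd.abs continuous_const).inter ((isClosed_le pc.norm
          continuous_const).inter (isClosed_le continuous_snd.norm continuous_const)))) ?_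
    rintro w ⟨-, a, -, d⟩
    exact ⟨⟨trivial, mem_closedBall_zero_iff.2 a⟩, mem_closedBall_zero_iff.2 d⟩
  · have e : (G.rg ι ι' a ε).ph w - G.p₁ ((G.rg ι ι' a ε).ph w) =
        cl w.1.2 • (G.f ε (w.1.1, G.cp w.2) - G.p₁ (G.f ε (w.1.1, G.cp w.2))) := by
      simp only [Gb.rg, map_add, map_smul, h.o₁.id]; module
    change ‖(G.rg ι ι' a ε).ph w - G.p₁ ((G.rg ι ι' a ε).ph w)‖ ≤ 2 * G.C + 0 * _
    have r := rest_le h (fD (w.1.1, w.2)).1 (fD (w.1.1, w.2)).2
    rw [e, norm_smul, Real.norm_of_nonneg (cl01 _).1]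
    have r' : ‖G.f ε (w.1.1, G.cp w.2) - G.p₁ (G.f ε (w.1.1, G.cp w.2))‖ ≤ 2 * G.C := r
    nlinarith [cl01 w.1.2, norm_nonneg (G.f ε (w.1.1, G.cp w.2) - G.p₁ (G.f ε (w.1.1, G.cp w.2)))]
  · obtain ⟨e, he, u⟩ := p1_f h ε (w.1.1, G.cp w.2)
    have v : G.p₁ ((G.rg ι ι' a ε).ph w) = (1 + ε) • G.p₁ w.2 - (cl w.1.2 * ε) • e := by
      simp only [Gb.rg, map_add, map_smul, h.o₁.id, u, p1_cp h]; module
    change (1 + ε / 2) * ‖G.p₁ w.2‖ ≤ ‖G.p₁ ((G.rg ι ι' a ε).ph w)‖
    have hw' : 2 * G.C ≤ ‖G.p₁ w.2‖ := hw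
    rw [v]
    refine le_trans ?_ (norm_sub_norm_le _ _)
    rw [norm_smul, norm_smul, Real.norm_of_nonneg (by positivity : 0 ≤ 1 + ε),
      Real.norm_of_nonneg (mul_nonneg (cl01 _).1 e0.le)]
    have : cl w.1.2 * ‖e‖ ≤ G.C := by nlinarith [cl01 w.1.2, norm_nonneg e]
    nlinarith
  · have : cl s = 0 := max_eq_left ((min_le_right _ _).trans hs)
    simp [Gb.rg, this]
  · have : cl s = 1 := by rw [cl, min_eq_left hs, max_eq_right zero_le_one]
    simp [Gb.rg, this]
  · simp [Gb.rg, Gb.f]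
  · rw [je s w hw]
    exact ⟨h.RD (w.1, w.2 - (s * ε) • G.gr w), pp_f h (se s hs).1 ((se s hs).2.trans eb) w hw.2⟩
  · rw [je s w hw]
    have := ly _ (se s hs).1 ((se s hs).2.trans ea) w hw.1
    refine mul_le_mul_of_nonneg_left (this.trans ?_) e0.le
    have := (se s hs).1
    have : 0 ≤ s * ε / 4 * ‖G.gr w‖ ^ 2 := by positivity
    linarith
  · rw [je s w hw]
    obtain ⟨e, he, u⟩ := p1_f h (s * ε) w
    change ‖G.p₁ w.2‖ ≤ ‖G.p₁ (G.f (s * ε) w)‖
    have hx' : 2 * G.C ≤ ‖G.p₁ w.2‖ := hx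
    have := (se s hs).1
    rw [u]
    refine le_trans ?_ (norm_sub_norm_le _ _)
    rw [norm_smul, norm_smul, Real.norm_of_nonneg (by positivity : 0 ≤ 1 + s * ε),
      Real.norm_of_nonneg this]
    nlinarith
  · rw [fe w hw]
    have := ly _ e0.le ea w hw.1
    refine mul_lt_mul_of_pos_left (this.trans_lt ?_) e0
    have : 0 < ‖G.gr w‖ := norm_pos_iff.2 fun z => h0 (h.crit w hw.1 z)
    have : 0 < ε / 4 * ‖G.gr w‖ ^ 2 := by positivity
    linarith
  · set L : ℝ := b / ε + 5 / 2 * G.C ^ 2 with hL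
    refine ((isCompact_univ (X := B)).prod (isCompact_closedBall (0 : F)
      (1 + 4 * G.C + 2 * |L|))).of_isClosed_subset
      (dc.inter (isClosed_le continuous_const (continuous_const.mul h.gc))) ?_
    rintro w ⟨hw, d⟩
    refine ⟨trivial, mem_closedBall_zero_iff.2 ?_⟩
    have d' : -b ≤ ε * G.g w := d
    have d2 : -(b / ε) ≤ G.g w := by rw [← neg_div, div_le_iff₀ e0]; linarith
    have r := rest_le h hw.1 hw.2
    have t := norm_add_le (w.2 - G.p₁ w.2) (G.p₁ w.2)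
    rw [sub_add_cancel] at t
    have g := g_le h w.1 w.2
    have p : ‖G.pp w.2‖ ≤ G.C := hw.2
    have p2 : ‖G.pp w.2‖ ^ 2 ≤ G.C ^ 2 := pow_le_pow_left₀ (norm_nonneg _) p 2
    have k : ‖G.p₁ w.2‖ * (‖G.p₁ w.2‖ - 2 * G.C) ≤ 2 * |L| := by
      have := le_abs_self L
      have g' : G.g w ≤ 1 / 2 * (‖G.pp w.2‖ ^ 2 - ‖G.p₁ w.2‖ ^ 2) + G.C * ‖w.2‖ := g
      nlinarith
    by_contra hn
    push Not at hn
    nlinarith [abs_nonneg L]
  · change ⟪ε • G.H x y, y'⟫_ℝ = ⟪y, ε • G.H x y'⟫_ℝ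
    rw [real_inner_smul_left, real_inner_smul_right, q.sy]
  · change ε • G.H x (ι x (ι' x y)) = ι x (ι' x (ε • G.H x y))
    rw [fr.ri, fr.ri, n.cm, map_smul]
  · change ⟪ε • G.H x (ι x z), ι x z⟫_ℝ ≤ -(ε * a * ‖ι x z‖ ^ 2)
    have := n.ng x (ι x z)
    rw [Pi] at this
    rw [real_inner_smul_left]
    nlinarith
  · change 0 ≤ ⟪ε • G.H x y, y⟫_ℝ
    rw [real_inner_smul_left]
    refine mul_nonneg e0.le (n.ps x y ?_)
    rw [← fr.ri, show ι' x y = 0 from hy, map_zero]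
  · have hy' : ‖y‖ ≤ G.ρ := by have : ‖y‖ ≤ 2 * (G.ρ / 2) := hy; linarith
    have m : (x, y) ∈ (G.rg ι ι' a ε).Dm :=
      ⟨(h.nr (x, y) (by change ‖y‖ ≤ _; linarith)).1, ((op_le h.op y).trans hy').trans h.ρC⟩
    refine ⟨m, ?_, fun s hs => ?_⟩
    · change ε * G.g (x, y) = 1 / 2 * ⟪ε • G.H x y, y⟫_ℝ
      rw [(q.qd x y hy').1, real_inner_smul_left]; ring
    · rw [je s _ m]
      change G.Rr (x, y - (s * ε) • G.gr (x, y)) = y - s • (ε • G.H x) y
      have e : y - (s * ε) • G.gr (x, y) = y - s • (ε • G.H x) y := by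
        rw [(q.qd x y hy').2, mul_smul]; rfl
      rw [e]
      refine (h.nr (x, _) ((norm_sub_le _ _).trans ?_)).2
      rw [norm_smul, Real.norm_of_nonneg hs.1]
      have := Hn x y
      nlinarith [hs.1, hs.2, norm_nonneg ((ε • G.H x) y), norm_nonneg y]

end Crest.Agent.N218.En
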